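import Vale.Agent.P284.H639.V5
import Vale.Agent.P284.H894.B1Glue

/-!
# P284, theorem V, block V4: test functions supported in one piece
-/

open scoped Manifold ContDiff Topology Pointwise ComplexConjugate ComplexOrder
open Filter Set Metric MeasureTheory

noncomputable section

namespace Vale.Agent.P284.H66

open Vale.Agent.P272.K Vale.Agent.P284.H248 Vale.Agent.P284.H894
  Vale.Agent.P284.H894.V

open Classical in
/-- **V4** -/
theorem v4Stmt : V4Stmt := by
  intro n Γ _ C γ₀ b F hF
  set f : Γ → C.I → Cm n → ℝ := fun γ a z =>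
    if z ∈ C.O a b ∧ γ * C.κ a b z = γ₀ then F (C.T a b z) else 0 with hf
  have hsub : tsupport F ⊆ ball (C.c b) (4 * C.r b) := hF.supp.trans (C.V_sub b)
  have hne : ∀ γ a z, f γ a z ≠ 0 → z ∈ C.O a b ∧ γ * C.κ a b z = γ₀ ∧
      C.T a b z ∈ tsupport F := by
    intro γ a z h
    by_cases hc : z ∈ C.O a b ∧ γ * C.κ a b z = γ₀
    · simp only [hf, if_pos hc] at h
      exact ⟨hc.1, hc.2, subset_tsupport F h⟩
    · simp only [hf, if_neg hc] at h
      exact absurd rfl h
  have hself : ∀ γ, ∀ z ∈ C.Ω b, f γ b z = if γ = γ₀ then F z else 0 := by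
    intro γ z hz
    have hO : z ∈ C.O b b := by rw [C.O_self b]; exact hz
    simp only [hf, C.κ_self b z hO, C.T_self b z hO, mul_one, hO, true_and]
  refine ⟨f, ⟨?_, ?_, ?_, ?_⟩, hne, ?_, ?_⟩
  · -- smooth
    intro γ a z hz
    by_cases h : z ∈ C.O a b ∧ C.T a b z ∈ tsupport F
    · have e : f γ a =ᶠ[𝓝 z] fun y => if γ * C.κ a b z = γ₀ then F (C.T a b y) else 0 := by
        filter_upwards [(C.O_open a b).mem_nhds h.1, C.κ_loc a b z h.1] with y hy hk
        simp only [hf, hy, true_and, hk]
      refine ContDiffAt.congr_of_eventuallyEq ?_ e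
      by_cases hγ : γ * C.κ a b z = γ₀
      · simp only [if_pos hγ]
        exact hF.smooth.contDiffAt.comp z (C.T_smooth h.1)
      · simp only [if_neg hγ]
        exact contDiffAt_const
    · have e : f γ a =ᶠ[𝓝 z] fun _ => 0 := by
        filter_upwards [C.closed a b (tsupport F) hF.compact hsub z hz h] with y hy
        by_contra h0
        obtain ⟨h1, -, h2⟩ := hne γ a y h0
        exact hy ⟨h1, h2⟩
      exact contDiffAt_const.congr_of_eventuallyEq e
  · -- compat
    intro γ a d z hz
    by_cases hb : z ∈ C.O a b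
    · have hd : C.T a d z ∈ C.O d b := C.O_trans hz hb
      simp only [hf, hb, hd, true_and, C.trans_κ a d b z hz hd, C.trans_T a d b z hz hd, mul_assoc]
    · have hd : C.T a d z ∉ C.O d b := fun h => hb (C.trans_mem a d b z hz h)
      simp only [hf, hb, hd, false_and, if_false]
  · -- fin
    refine ((C.N.finite_toSet.inv).image fun g => γ₀ * g).subset ?_
    rintro γ ⟨a, z, hz, h0⟩
    obtain ⟨h1, h2, h3⟩ := hne γ a z h0
    refine ⟨(C.κ a b z)⁻¹, Set.inv_mem_inv.2 (Finset.mem_coe.2
      (C.κ_mem a b z h1 hz (hF.supp h3))), ?_⟩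
    simp only [← h2]
    group
  · -- out
    intro γ a z hz
    by_contra h0
    exact hz (C.O_sub a b (hne γ a z h0).1)
  · intro z hz
    rw [hself γ₀ z hz, if_pos rfl]
  · intro γ hγ z hz
    rw [hself γ z hz, if_neg hγ]

end Vale.Agent.P284.H66
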