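import Vale.Agent.P284.H66.GDiv

/-!
# P284, next theorem, S7b: local calculus
-/

open scoped Manifold ContDiff Topology Pointwise ComplexConjugate ComplexOrder Matrix
open Filter Set Metric MeasureTheory

noncomputable section

namespace Vale.Agent.P284.H66.S7

open Vale.Agent.P272.K Vale.Agent.P272.K.C2 Vale.Agent.P284.H248 Vale.Agent.P284.H894
  Vale.Agent.P284.H894.V Vale.Agent.P284.H639.V Vale.Agent.P284.H66 Vale.Agent.P284.H913.V

/-! ### holomorphic functions -/

section hol
variable {n : ℕ} {f : Cm n → ℂ} {z : Cm n}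

/-- holomorphic near `z` -/
def Hol (f : Cm n → ℂ) (z : Cm n) : Prop := ∀ᶠ y in 𝓝 z, DifferentiableAt ℂ f y

theorem Hol.ev (h : Hol f z) : ∀ᶠ y in 𝓝 z, Hol f y := h.eventually_nhds

theorem Hol.smooth (h : Hol f z) : ContDiffAt ℝ ∞ f z := by
  obtain ⟨U, hU, hUo, hzU⟩ := _root_.mem_nhds_iff.1 h
  have h1 : DifferentiableOn ℂ f U := fun y hy => (hU hy).differentiableWithinAt
  have h2 := Vale.Agent.P268.analyticAt_of_differentiableOn hUo h1 hzU
  exact (h2.contDiffAt (n := ∞)).restrict_scalars ℝ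

theorem Hol.diff (h : Hol f z) : DifferentiableAt ℝ f z := h.smooth.differentiableAt (by simp)

theorem Hol.dzb0 (h : Hol f z) (l : Fin n) : dzb l f z = 0 :=
  Vale.Agent.P272.K.dzb_of_holo h.self_of_nhds

theorem Hol.dz (h : Hol f z) (l : Fin n) : Hol (dz l f) z := by
  obtain ⟨U, hU, hUo, hzU⟩ := _root_.mem_nhds_iff.1 h
  have h1 : DifferentiableOn ℂ f U := fun y hy => (hU hy).differentiableWithinAt
  have h2 := Vale.Agent.P268.differentiableOn_fderiv_apply hUo h1 (Pi.single l 1)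
  filter_upwards [hUo.mem_nhds hzU] with y hy
  have h3 : DifferentiableAt ℂ (fun y => fderiv ℂ f y (Pi.single l 1)) y :=
    (h2 y hy).differentiableAt (hUo.mem_nhds hy)
  refine h3.congr_of_eventuallyEq ?_
  filter_upwards [hUo.mem_nhds hy] with x hx
  exact Vale.Agent.P272.K.dz_of_holo (hU hx)

theorem Hol.dz_conj0 (h : Hol f z) (l : Fin n) : Vale.Agent.P272.K.dz l (fun y => conj (f y)) z = 0 := by
  rw [C2.dz_conj l h.diff, h.dzb0, map_zero]

theorem Hol.diff_conj (h : Hol f z) : DifferentiableAt ℝ (fun y => conj (f y)) z :=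
  C2.differentiableAt_conj h.diff

theorem Hol.smooth_conj (h : Hol f z) : ContDiffAt ℝ ∞ (fun y => conj (f y)) z :=
  C2.contDiffAt_conj h.smooth

end hol

/-! ### the form -/

section form
variable {n N : ℕ}

/-- the Jacobian matrix `∂_l F_b` -/
def JF (F : Cm n → Cm N) (z : Cm n) : Matrix (Fin N) (Fin n) ℂ :=
  Matrix.of fun b l => dz l (fun y => F y b) z

/-- the coefficients `Σ_a (q_ab F_a + \bar p_ab \bar F_a)` -/
def kp (p q : Matrix (Fin N) (Fin N) ℂ) (F : Cm n → Cm N) (b : Fin N) (z : Cm n) : ℂ :=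
  ∑ a, (q a b * F z a + conj (p a b) * conj (F z a))

/-- the form `∂̄u - B(F, ∂̄F)` -/
def al (p q : Matrix (Fin N) (Fin N) ℂ) (u : Cm n → ℝ) (F : Cm n → Cm N) (z : Cm n)
    (l : Fin n) : ℂ :=
  dzb l (fun y => (u y : ℂ)) z - (1 / 2) * ∑ b, kp p q F b z * conj (JF F z b l)

/-- the bilinear form -/
def BB (p q : Matrix (Fin N) (Fin N) ℂ) (x y : Cm N) : ℝ :=
  (∑ b, (∑ a, p a b * x a) * y b + ∑ b, (∑ a, q a b * x a) * conj (y b)).re

variable {p q : Matrix (Fin N) (Fin N) ℂ} {u : Cm n → ℝ} {F : Cm n → Cm N} {z : Cm n}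

/-- holomorphic near `z` -/
def HolV (F : Cm n → Cm N) (z : Cm n) : Prop := ∀ a, Hol (fun y => F y a) z

theorem HolV.ev (h : HolV F z) : ∀ᶠ y in 𝓝 z, HolV F y :=
  (eventually_all (ι := Fin N)).2 fun a => (h a).ev

theorem HolV.J (h : HolV F z) (b : Fin N) (l : Fin n) : Hol (fun y => JF F y b l) z :=
  (h b).dz l

theorem kp_smooth (h : HolV F z) (b : Fin N) : ContDiffAt ℝ ∞ (kp p q F b) z := by
  unfold kp
  exact ContDiffAt.sum fun a _ => (contDiffAt_const.mul (h a).smooth).add
    (contDiffAt_const.mul (h a).smooth_conj)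

theorem kp_dz (h : HolV F z) (b : Fin N) (j : Fin n) :
    dz j (kp p q F b) z = ∑ a, q a b * JF F z a j := by
  unfold kp
  rw [C2.dz_sum j _ fun a _ => ((h a).diff.const_mul _).fun_add ((h a).diff_conj.const_mul _)]
  refine Finset.sum_congr rfl fun a _ => ?_
  rw [C2.dz_add j ((h a).diff.const_mul _) ((h a).diff_conj.const_mul _),
    C2.dz_const_mul j _ (h a).diff, C2.dz_const_mul j _ (h a).diff_conj, (h a).dz_conj0,
    mul_zero, add_zero]
  rfl

theorem kp_dzb (h : HolV F z) (b : Fin N) (j : Fin n) :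
    dzb j (kp p q F b) z = ∑ a, conj (p a b) * conj (JF F z a j) := by
  unfold kp
  rw [C2.dzb_sum j _ fun a _ => ((h a).diff.const_mul _).fun_add ((h a).diff_conj.const_mul _)]
  refine Finset.sum_congr rfl fun a _ => ?_
  rw [C2.dzb_add j ((h a).diff.const_mul _) ((h a).diff_conj.const_mul _),
    C2.dzb_const_mul j _ (h a).diff, C2.dzb_const_mul j _ (h a).diff_conj, (h a).dzb0,
    C2.dzb_conj j (h a).diff, mul_zero, zero_add]
  rfl

theorem al_smooth (hu : ContDiffAt ℝ ∞ u z) (h : HolV F z) (l : Fin n) :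
    ContDiffAt ℝ ∞ (fun y => al p q u F y l) z := by
  unfold al
  refine (contDiffAt_dzb (m := ∞) l (contDiffAt_ofReal hu) (by norm_num)).sub
    (contDiffAt_const.mul (ContDiffAt.sum fun b _ => (kp_smooth h b).mul ?_))
  exact (h.J b l).smooth_conj

theorem prod_diff (h : HolV F z) (b : Fin N) (l : Fin n) :
    DifferentiableAt ℝ (fun y => kp p q F b y * conj (JF F y b l)) z :=
  ((kp_smooth h b).differentiableAt (by simp)).fun_mul (h.J b l).diff_conj

theorem sum_diff (h : HolV F z) (l : Fin n) :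
    DifferentiableAt ℝ (fun y => ∑ b, kp p q F b y * conj (JF F y b l)) z :=
  DifferentiableAt.fun_sum fun b _ => prod_diff h b l

/-- L2 -/
theorem pd_al (hu : ContDiffAt ℝ ∞ u z) (h : HolV F z) :
    pd (al p q u F) z = cHess u z - (1 / 2 : ℂ) • ((JF F z)ᵀ * q * (JF F z).map (starRingEnd ℂ)) := by
  ext j l
  have e : dz j (fun y => al p q u F y l) z = dz j (dzb l fun y => (u y : ℂ)) z -
      (1 / 2) * ∑ b, (∑ a, q a b * JF F z a j) * conj (JF F z b l) := by
    have h1 : DifferentiableAt ℝ (dzb l fun y => (u y : ℂ)) z :=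
      C2.differentiableAt_dzb l (contDiffAt_ofReal (hu.of_le two_le))
    have e1 : (fun y => al p q u F y l) = fun y => (dzb l fun y => (u y : ℂ)) y -
      (1 / 2) * ∑ b, kp p q F b y * conj (JF F y b l) := rfl
    rw [e1, C2.dz_sub j h1 ((sum_diff h l).const_mul _), C2.dz_const_mul j _ (sum_diff h l),
      C2.dz_sum j _ fun b _ => prod_diff h b l]
    congr 2
    refine Finset.sum_congr rfl fun b _ => ?_
    rw [C2.dz_mul j ((kp_smooth h b).differentiableAt (by simp)) (h.J b l).diff_conj,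
      kp_dz h, (h.J b l).dz_conj0, mul_zero, add_zero]
  rw [pd, Matrix.of_apply, e, Matrix.sub_apply, Matrix.smul_apply, smul_eq_mul]
  congr 2
  rw [Matrix.mul_apply]
  refine Finset.sum_congr rfl fun b _ => ?_
  rw [Matrix.mul_apply, Matrix.map_apply]
  congr 1
  exact Finset.sum_congr rfl fun a _ => by rw [Matrix.transpose_apply, mul_comm]

/-- L3 -/
theorem dzb_al (hu : ContDiffAt ℝ ∞ u z) (h : HolV F z) (j k : Fin n) :
    dzb j (fun y => al p q u F y k) z - dzb k (fun y => al p q u F y j) z =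
      -(1 / 2) * conj (((JF F z)ᵀ * (p - pᵀ) * JF F z) j k) := by
  have e : ∀ j k, dzb j (fun y => al p q u F y k) z = dzb j (dzb k fun y => (u y : ℂ)) z -
      (1 / 2) * ∑ b, ((∑ a, conj (p a b) * conj (JF F z a j)) * conj (JF F z b k) +
        kp p q F b z * conj (dz j (dz k fun y => F y b) z)) := by
    intro j k
    have h1 : DifferentiableAt ℝ (dzb k fun y => (u y : ℂ)) z :=
      C2.differentiableAt_dzb k (contDiffAt_ofReal (hu.of_le two_le))
    have e1 : (fun y => al p q u F y k) = fun y => (dzb k fun y => (u y : ℂ)) y -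
      (1 / 2) * ∑ b, kp p q F b y * conj (JF F y b k) := rfl
    rw [e1, C2.dzb_sub j h1 ((sum_diff h k).const_mul _), C2.dzb_const_mul j _ (sum_diff h k),
      C2.dzb_sum j _ fun b _ => prod_diff h b k]
    congr 2
    refine Finset.sum_congr rfl fun b _ => ?_
    rw [C2.dzb_mul j ((kp_smooth h b).differentiableAt (by simp)) (h.J b k).diff_conj,
      kp_dzb h, C2.dzb_conj j (h.J b k).diff]
    rfl
  rw [e j k, e k j, C2.dzb_dzb_comm j k (contDiffAt_ofReal (hu.of_le two_le))]
  have hc : ∀ b, dz j (dz k fun y => F y b) z = dz k (dz j fun y => F y b) z := fun b =>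
    C2.dz_dz_comm j k ((h b).smooth.of_le two_le)
  simp only [hc, Finset.sum_add_distrib, Matrix.mul_sub, Matrix.sub_mul, Matrix.sub_apply, map_sub]
  have e3 : ∑ b, (∑ a, conj (p a b) * conj (JF F z a j)) * conj (JF F z b k) =
      conj (((JF F z)ᵀ * p * JF F z) j k) := by
    rw [Matrix.mul_apply, map_sum]
    refine Finset.sum_congr rfl fun b _ => ?_
    rw [map_mul, Matrix.mul_apply, map_sum]
    congr 1
    exact Finset.sum_congr rfl fun a _ => by rw [Matrix.transpose_apply, mul_comm, map_mul]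
  have e4 : ∑ b, (∑ a, conj (p a b) * conj (JF F z a k)) * conj (JF F z b j) =
      conj (((JF F z)ᵀ * pᵀ * JF F z) j k) := by
    have h2 : ((JF F z)ᵀ * pᵀ * JF F z) j k = ∑ b, (∑ a, p a b * JF F z a k) * JF F z b j := by
      rw [Matrix.mul_assoc, Matrix.mul_apply]
      refine Finset.sum_congr rfl fun b _ => ?_
      rw [Matrix.transpose_apply, Matrix.mul_apply, mul_comm]
      rfl
    rw [h2, map_sum]
    refine Finset.sum_congr rfl fun b _ => ?_
    rw [map_mul, map_sum]
    congr 1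
    exact Finset.sum_congr rfl fun a _ => by rw [map_mul]
  rw [e3, e4]
  ring

theorem BB_smooth (c : Cm N) (h : HolV F z) : ContDiffAt ℝ ∞ (fun y => BB p q c (F y)) z := by
  unfold BB
  refine re_smooth (ContDiffAt.add ?_ ?_)
  · exact ContDiffAt.sum fun b _ => contDiffAt_const.mul (h b).smooth
  · exact ContDiffAt.sum fun b _ => contDiffAt_const.mul (h b).smooth_conj

theorem BB_dzb (c : Cm N) (h : HolV F z) (l : Fin n) :
    dzb l (fun y => (BB p q c (F y) : ℂ)) z =
      (1 / 2) * ∑ b, (∑ a, (q a b * c a + conj (p a b) * conj (c a))) * conj (JF F z b l) := by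
  have e : (fun y => (BB p q c (F y) : ℂ)) = fun y => (1 / 2 : ℂ) *
      ∑ b, ((∑ a, p a b * c a + ∑ a, conj (q a b * c a)) * F y b +
        (∑ a, q a b * c a + ∑ a, conj (p a b * c a)) * conj (F y b)) := by
    ext y
    have h1 : ∀ Z : ℂ, ((Z.re : ℝ) : ℂ) = (1 / 2) * (Z + conj Z) := by
      intro Z
      rw [Complex.add_conj]
      push_cast
      ring
    rw [BB, h1]
    congr 1
    simp only [map_add, map_sum, map_mul, Complex.conj_conj]
    simp only [add_mul, Finset.sum_add_distrib]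
    ring
  have hd : ∀ b, DifferentiableAt ℝ (fun y => (∑ a, p a b * c a + ∑ a, conj (q a b * c a)) * F y b +
        (∑ a, q a b * c a + ∑ a, conj (p a b * c a)) * conj (F y b)) z := fun b =>
    ((h b).diff.const_mul _).fun_add ((h b).diff_conj.const_mul _)
  rw [e, C2.dzb_const_mul l _ (DifferentiableAt.fun_sum fun b _ => hd b),
    C2.dzb_sum l _ fun b _ => hd b]
  congr 1
  refine Finset.sum_congr rfl fun b _ => ?_
  rw [C2.dzb_add l ((h b).diff.const_mul _) ((h b).diff_conj.const_mul _),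
    C2.dzb_const_mul l _ (h b).diff, C2.dzb_const_mul l _ (h b).diff_conj, (h b).dzb0,
    C2.dzb_conj l (h b).diff, mul_zero, zero_add, Finset.sum_add_distrib]
  simp only [map_mul]
  rfl

theorem JF_add_const {F' : Cm n → Cm N} {c : Cm N} (h : HolV F z)
    (e : ∀ᶠ y in 𝓝 z, F' y = F y + c) : JF F' z = JF F z := by
  ext b l
  have e1 : (fun y => F' y b) =ᶠ[𝓝 z] fun y => F y b + c b := by
    filter_upwards [e] with y hy
    rw [hy]; rfl
  rw [JF, Matrix.of_apply, C2.dz_congr l e1, C2.dz_add l (h b).diff (differentiableAt_const _),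
    C2.dz_const, add_zero]
  rfl

/-- L4: gauge invariance -/
theorem al_gauge {u' : Cm n → ℝ} {F' : Cm n → Cm N} {c : Cm N} {t : ℝ}
    (hu : ContDiffAt ℝ ∞ u z) (h : HolV F z) (eF : ∀ᶠ y in 𝓝 z, F' y = F y + c)
    (eu : ∀ᶠ y in 𝓝 z, u' y = u y + t + BB p q c (F y)) : al p q u' F' z = al p q u F z := by
  ext l
  have e1 : (fun y => (u' y : ℂ)) =ᶠ[𝓝 z] fun y => ((u y : ℂ) + (t : ℂ)) + (BB p q c (F y) : ℂ) := by
    filter_upwards [eu] with y hy
    rw [hy]; push_cast; rfl
  have h1 : DifferentiableAt ℝ (fun y => (u y : ℂ)) z :=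
    differentiableAt_ofReal (hu.differentiableAt (by simp))
  have h2 : DifferentiableAt ℝ (fun y => (BB p q c (F y) : ℂ)) z :=
    differentiableAt_ofReal ((BB_smooth c h).differentiableAt (by simp))
  have h3 : dzb l (fun y => (u' y : ℂ)) z = dzb l (fun y => (u y : ℂ)) z +
      (1 / 2) * ∑ b, (∑ a, (q a b * c a + conj (p a b) * conj (c a))) * conj (JF F z b l) := by
    rw [C2.dzb_congr l e1, C2.dzb_add l (h1.fun_add (differentiableAt_const _)) h2,
      C2.dzb_add l h1 (differentiableAt_const _), C2.dzb_const, add_zero, BB_dzb c h]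
  have h4 : ∀ b, kp p q F' b z = kp p q F b z + ∑ a, (q a b * c a + conj (p a b) * conj (c a)) := by
    intro b
    rw [kp, kp, eF.self_of_nhds, ← Finset.sum_add_distrib]
    refine Finset.sum_congr rfl fun a _ => ?_
    rw [Pi.add_apply, map_add]
    ring
  rw [al, al, h3, JF_add_const h eF]
  simp only [h4, add_mul, Finset.sum_add_distrib]
  ring

theorem HolV.comp {T : Cm n → Cm n} {F' : Cm n → Cm N} (hT : ∀ᶠ y in 𝓝 z, DifferentiableAt ℂ T y)
    (h : HolV F' (T z)) : HolV (fun y => F' (T y)) z := by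
  intro a
  have hc : ∀ᶠ y in 𝓝 z, DifferentiableAt ℂ (fun y => F' y a) (T y) :=
    hT.self_of_nhds.continuousAt.eventually (h a)
  filter_upwards [hT, hc] with y h1 h2
  exact h2.comp y h1

theorem JF_comp {T : Cm n → Cm n} {F' : Cm n → Cm N} (hT : DifferentiableAt ℂ T z)
    (h : HolV F' (T z)) (e : ∀ᶠ y in 𝓝 z, F y = F' (T y)) :
    JF F z = JF F' (T z) * jmat T z := by
  ext b l
  have e1 : (fun y => F y b) =ᶠ[𝓝 z] fun y => F' (T y) b := by
    filter_upwards [e] with y hy
    rw [hy]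
  rw [JF, Matrix.of_apply, C2.dz_congr l e1, dz_comp_holo (f := fun y => F' y b) (h b).diff hT,
    Matrix.mul_apply]
  rfl

/-- L5: change of coordinates -/
theorem al_comp {T : Cm n → Cm n} {u' : Cm n → ℝ} {F' : Cm n → Cm N}
    (hT : ∀ᶠ y in 𝓝 z, DifferentiableAt ℂ T y)
    (hu' : ContDiffAt ℝ ∞ u' (T z)) (h : HolV F' (T z)) (eF : ∀ᶠ y in 𝓝 z, F y = F' (T y))
    (eu : ∀ᶠ y in 𝓝 z, u y = u' (T y)) :
    al p q u F z = (jmat T z)ᴴ *ᵥ al p q u' F' (T z) := by
  have hTz := hT.self_of_nhds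
  ext l
  have e1 : (fun y => (u y : ℂ)) =ᶠ[𝓝 z] fun y => (u' (T y) : ℂ) := by
    filter_upwards [eu] with y hy
    rw [hy]
  have h2 : dzb l (fun y => (u y : ℂ)) z = ∑ m, dzb m (fun y => (u' y : ℂ)) (T z) *
      cj (jmat T z m l) := by
    rw [C2.dzb_congr l e1, dzb_comp_holo (f := fun y => (u' y : ℂ))
      (differentiableAt_ofReal (hu'.differentiableAt (by simp))) hTz]
  have h4 : ∀ b, kp p q F b z = kp p q F' b (T z) := by
    intro b
    rw [kp, kp, eF.self_of_nhds]
  rw [al, h2, JF_comp hTz h eF]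
  simp only [h4, Matrix.mulVec, dotProduct, Matrix.conjTranspose_apply, al, mul_sub,
    Finset.sum_sub_distrib]
  congr 1
  · exact Finset.sum_congr rfl fun m _ => mul_comm _ _
  · simp only [Matrix.mul_apply, map_sum, map_mul, Finset.mul_sum]
    rw [Finset.sum_comm]
    refine Finset.sum_congr rfl fun m _ => Finset.sum_congr rfl fun b _ => ?_
    simp only [RCLike.star_def]
    ring

end form

end Vale.Agent.P284.H66.S7
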