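import Vale.Agent.P284.H639.V5

/-!
# P284, theorem V: the cut-off function of a finite subset of the group

`phi P F γ a z = Σ_b χ_b a z [γ κ_{ab}(z) ∈ F]` is a test function on the covering with values in
`[0, 1]`, and its gradient is bounded independently of `F`.
-/

open scoped Manifold ContDiff Topology Pointwise ComplexConjugate ComplexOrder
open Filter Set Metric MeasureTheory

noncomputable section

namespace Vale.Agent.P284.H66

open Vale.Agent.P272.K Vale.Agent.P272.K.C2 Vale.Agent.P284.H248 Vale.Agent.P284.H894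
  Vale.Agent.P284.H894.V Vale.Agent.P284.H639.V

section
variable {n : ℕ} {Γ : Type} [Group Γ] {C : Coc n Γ}

/-- indicator function of `F` -/
def ind (F : Set Γ) : Γ → ℝ := F.indicator fun _ => 1

theorem ind_mem {F : Set Γ} {γ : Γ} (h : γ ∈ F) : ind F γ = 1 := indicator_of_mem h _

theorem ind_notMem {F : Set Γ} {γ : Γ} (h : γ ∉ F) : ind F γ = 0 := indicator_of_notMem h _

theorem ind_nonneg (F : Set Γ) (γ : Γ) : 0 ≤ ind F γ := indicator_nonneg (fun _ _ => zero_le_one) γ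

theorem ind_le_one (F : Set Γ) (γ : Γ) : ind F γ ≤ 1 := by
  by_cases h : γ ∈ F
  · rw [ind_mem h]
  · rw [ind_notMem h]; exact zero_le_one

/-- the cut-off function of `F` -/
def phi (P : PU C) (F : Set Γ) (γ : Γ) (a : C.I) : Cm n → ℝ :=
  (C.Ω a).indicator fun z => ∑ b, P.χ b a z * ind F (γ * C.κ a b z)

theorem phi_mem (P : PU C) (F : Set Γ) (γ : Γ) {a : C.I} {z : Cm n} (hz : z ∈ C.Ω a) :
    phi P F γ a z = ∑ b, P.χ b a z * ind F (γ * C.κ a b z) := indicator_of_mem hz _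

/-- away from the ball number `b` the function `χ b` is locally zero -/
theorem chi_ev (P : PU C) (b : C.I) {a : C.I} {z : Cm n}
    (hz : z ∈ C.Ω a) (hn : ¬ (z ∈ C.O a b ∧ C.T a b z ∈ P.K b)) :
    P.χ b a =ᶠ[𝓝 z] fun _ => 0 := by
  filter_upwards [C.closed a b (P.K b) (P.compactK b) ((P.K_sub b).trans (V_sub_Ω C b)) z hz hn,
    (isOpen_Ω C a).mem_nhds hz] with y hy hy'
  by_contra h0
  exact hy (P.supp b a y hy' h0)

theorem trm_ev (P : PU C) (F : Set Γ) (γ : Γ) (b : C.I) {a : C.I} {z : Cm n} (hz : z ∈ C.Ω a) :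
    ∀ᶠ y in 𝓝 z, P.χ b a y * ind F (γ * C.κ a b y) = P.χ b a y * ind F (γ * C.κ a b z) := by
  by_cases h : z ∈ C.O a b ∧ C.T a b z ∈ P.K b
  · filter_upwards [C.κ_loc a b z h.1] with y hy
    rw [hy]
  · filter_upwards [chi_ev P b hz h] with y hy
    rw [hy, zero_mul, zero_mul]

theorem phi_ev (P : PU C) (F : Set Γ) (γ : Γ) {a : C.I} {z : Cm n} (hz : z ∈ C.Ω a) :
    phi P F γ a =ᶠ[𝓝 z] fun y => ∑ b, P.χ b a y * ind F (γ * C.κ a b z) := by
  filter_upwards [(isOpen_Ω C a).mem_nhds hz,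
    (eventually_all (ι := C.I)).2 fun b => trm_ev P F γ b hz] with y hy h
  rw [phi_mem P F γ hy]
  exact Finset.sum_congr rfl fun b _ => h b

theorem phi_nonneg (P : PU C) (F : Set Γ) (γ : Γ) (a : C.I) (z : Cm n) : 0 ≤ phi P F γ a z :=
  indicator_nonneg (fun z _ => Finset.sum_nonneg fun b _ =>
    mul_nonneg (P.nonneg b a z) (ind_nonneg F _)) z

theorem phi_le_one (P : PU C) (F : Set Γ) (γ : Γ) (a : C.I) (z : Cm n) : phi P F γ a z ≤ 1 := by
  by_cases hz : z ∈ C.Ω a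
  · rw [phi_mem P F γ hz, ← P.sum_one a z hz]
    exact Finset.sum_le_sum fun b _ => mul_le_of_le_one_right (P.nonneg b a z) (ind_le_one F _)
  · rw [phi, indicator_of_notMem hz]; exact zero_le_one

/-- the terms which matter have `κ` in the finite set `N` -/
theorem kap_mem (P : PU C) {a b : C.I} {z : Cm n} (hz : z ∈ C.V a) (h0 : P.χ b a z ≠ 0) :
    C.κ a b z ∈ C.N := by
  obtain ⟨h1, h2⟩ := P.supp b a z (V_sub_Ω C a hz) h0
  exact C.κ_mem a b z h1 hz (P.K_sub b h2)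

theorem phi_eq_one (P : PU C) {F : Set Γ} {γ : Γ} (h : ∀ s ∈ C.N, γ * s ∈ F) {a : C.I} {z : Cm n}
    (hz : z ∈ C.V a) : phi P F γ a z = 1 := by
  rw [phi_mem P F γ (V_sub_Ω C a hz), ← P.sum_one a z (V_sub_Ω C a hz)]
  refine Finset.sum_congr rfl fun b _ => ?_
  by_cases h0 : P.χ b a z = 0
  · rw [h0, zero_mul]
  · rw [ind_mem (h _ (kap_mem P hz h0)), mul_one]

theorem phi_eq_zero (P : PU C) {F : Set Γ} {γ : Γ} (h : ∀ s ∈ C.N, γ * s ∉ F) {a : C.I}
    {z : Cm n} (hz : z ∈ C.V a) : phi P F γ a z = 0 := by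
  rw [phi_mem P F γ (V_sub_Ω C a hz)]
  refine Finset.sum_eq_zero fun b _ => ?_
  by_cases h0 : P.χ b a z = 0
  · rw [h0, zero_mul]
  · rw [ind_notMem (h _ (kap_mem P hz h0)), mul_zero]

theorem isTst_phi (P : PU C) {F : Set Γ} (hF : F.Finite) : IsTst C (phi P F) where
  smooth γ a z hz := by
    refine ContDiffAt.congr_of_eventuallyEq ?_ (phi_ev P F γ hz)
    exact ContDiffAt.sum fun b _ => (P.smooth b a z hz).mul contDiffAt_const
  compat γ a d z hz := by
    have h1 := O_sub_Ω C hz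
    have h2 := T_mem_Ω C hz
    rw [phi_mem P F γ h1, phi_mem P F _ h2]
    refine Finset.sum_congr rfl fun b _ => ?_
    rw [← P.compat b a d z hz]
    by_cases h0 : P.χ b a z = 0
    · rw [h0, zero_mul, zero_mul]
    · have h3 : P.χ b d (C.T a d z) ≠ 0 := by rwa [← P.compat b a d z hz]
      have h4 := (P.supp b d _ h2 h3).1
      rw [C.trans_κ a d b z hz h4, mul_assoc]
  fin := by
    refine (hF.mul (C.N.finite_toSet.inv)).subset ?_
    rintro γ ⟨a, z, hz, hne⟩
    by_contra hcon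
    refine hne (phi_eq_zero P (fun s hs hin => hcon ?_) hz)
    exact ⟨γ * s, hin, s⁻¹, Set.inv_mem_inv.2 (Finset.mem_coe.2 hs), by group⟩
  out γ a z hz := indicator_of_notMem hz _

theorem gr_const {w : Cm n → Matrix (Fin n) (Fin n) ℂ} (c : ℝ) (h : Cm n → ℝ) (z : Cm n) :
    gr w (fun _ => c) h z = 0 := by
  have : ∀ j : Fin n, dz j (fun _ : Cm n => (c : ℂ)) z = 0 := fun j => dz_const j _
  simp only [gr, this]
  simp

/-- the gradient is zero unless `γ` is near the boundary of `F` -/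
theorem gr_phi_ne (P : PU C) {F : Set Γ} {γ : Γ} {a : C.I} {z : Cm n} (hz : z ∈ C.V a)
    {w : Cm n → Matrix (Fin n) (Fin n) ℂ} {h : Cm n → ℝ} (h0 : gr w (phi P F γ a) h z ≠ 0) :
    ∃ s ∈ C.N, ∃ s' ∈ C.N, γ * s ∈ F ∧ γ * s' ∉ F := by
  by_contra hcon
  push Not at hcon
  have hV : ∀ᶠ y in 𝓝 z, y ∈ C.V a := isOpen_ball.mem_nhds hz
  by_cases h1 : ∀ s ∈ C.N, γ * s ∉ F
  · refine h0 ?_
    have e : phi P F γ a =ᶠ[𝓝 z] fun _ => 0 := by
      filter_upwards [hV] with y hy using phi_eq_zero P h1 hy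
    rw [gr_congr e (EventuallyEq.refl _ _), gr_const]
  · push Not at h1
    obtain ⟨s, hs, hsF⟩ := h1
    refine h0 ?_
    have e : phi P F γ a =ᶠ[𝓝 z] fun _ => 1 := by
      filter_upwards [hV] with y hy using phi_eq_one P (fun s' hs' => hcon s hs s' hs' hsF) hy
    rw [gr_congr e (EventuallyEq.refl _ _), gr_const]

/-- the sum of the gradients of the partition of unity -/
def dsum (P : PU C) (a : C.I) (z : Cm n) : ℝ :=
  ∑ j, (∑ b, ‖dz j (fun y => (P.χ b a y : ℂ)) z‖) ^ 2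

theorem D1_phi_le (P : PU C) (F : Set Γ) (γ : Γ) {a : C.I} {z : Cm n} (hz : z ∈ C.Ω a) :
    D1 (phi P F γ a) z ≤ dsum P a z := by
  unfold D1 dsum
  refine Finset.sum_le_sum fun j _ => ?_
  refine pow_le_pow_left₀ (norm_nonneg _) ?_ 2
  have e : (fun y => (phi P F γ a y : ℂ)) =ᶠ[𝓝 z]
      fun y => ∑ b, (P.χ b a y : ℂ) * (ind F (γ * C.κ a b z) : ℂ) := by
    filter_upwards [phi_ev P F γ hz] with y hy
    rw [hy]; push_cast; rfl
  have hd : ∀ b, DifferentiableAt ℝ (fun y => (P.χ b a y : ℂ)) z := fun b =>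
    differentiableAt_ofReal ((P.smooth b a z hz).differentiableAt (by norm_num))
  rw [dz_congr j e, dz_sum j Finset.univ fun b _ => (hd b).mul_const _]
  refine (norm_sum_le _ _).trans (Finset.sum_le_sum fun b _ => ?_)
  rw [dz_mul_const j _ (hd b), norm_mul]
  refine mul_le_of_le_one_right (norm_nonneg _) ?_
  rw [Complex.norm_real, Real.norm_of_nonneg (ind_nonneg F _)]
  exact ind_le_one F _

theorem V_sub_closed (C : Coc n Γ) (a : C.I) : C.V a ⊆ closedBall (C.c a) (3 * C.r a) :=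
  ball_subset_closedBall

theorem closed_sub_Ω (C : Coc n Γ) (a : C.I) : closedBall (C.c a) (3 * C.r a) ⊆ C.Ω a :=
  closedBall_subset_ball (by have := C.r_pos a; linarith)

/-- one bound for the gradients of all cut-off functions -/
theorem exists_D1_bound (P : PU C) : ∃ B : ℝ, 0 < B ∧ ∀ (F : Set Γ) γ a, ∀ z ∈ C.V a,
    D1 (phi P F γ a) z ≤ B := by
  have h1 : ∀ a : C.I, ∃ B : ℝ, ∀ z ∈ C.V a, dsum P a z ≤ B := by
    intro a
    have hc : ContinuousOn (dsum P a) (closedBall (C.c a) (3 * C.r a)) := by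
      intro z hz
      have hz' := closed_sub_Ω C a hz
      refine ContinuousAt.continuousWithinAt ?_
      unfold dsum
      refine tendsto_finsetSum _ fun j _ => Tendsto.pow (tendsto_finsetSum _ fun b _ => ?_) 2
      have h2 : ContDiffAt ℝ ∞ (fun y => dz j (fun y => (P.χ b a y : ℂ)) y) z :=
        contDiffAt_dz j (contDiffAt_ofReal (P.smooth b a z hz')) (by norm_num)
      exact h2.continuousAt.norm
    obtain ⟨B, hB⟩ := (isCompact_closedBall (C.c a) (3 * C.r a)).bddAbove_image hc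
    exact ⟨B, fun z hz => hB ⟨z, V_sub_closed C a hz, rfl⟩⟩
  choose B hB using h1
  refine ⟨1 + ∑ a, |B a|, by positivity, fun F γ a z hz => ?_⟩
  have h2 : B a ≤ ∑ a, |B a| :=
    (le_abs_self _).trans (Finset.single_le_sum (f := fun a => |B a|) (fun a _ => abs_nonneg _)
      (Finset.mem_univ a))
  linarith [D1_phi_le P F γ (V_sub_Ω C a hz), hB a z hz]

/-- one bound for the energy densities of all cut-off functions -/
theorem exists_gr_bound (hp : VPStmt) (P : PU C) (K : KM C) : ∃ B : ℝ, 0 < B ∧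
    ∀ (F : Set Γ), F.Finite → ∀ γ a, ∀ z ∈ C.V a, 0 ≤ Gr K (phi P F) (phi P F) γ a z ∧
      Gr K (phi P F) (phi P F) γ a z ≤ B := by
  obtain ⟨B, hB, h⟩ := exists_D1_bound P
  refine ⟨B / K.lam, div_pos hB K.lam_pos, fun F hF γ a z hz => ?_⟩
  have hz' := V_sub_Ω C a hz
  have hpos := (K.ku a).pos z hz'
  refine ⟨(hp.nonneg (K.w a) _ z hpos).1, ?_⟩
  have h2 := (hp.ell (K.w a) (phi P F γ a) z K.lam K.Lam hpos K.lam_pos (K.low a z hz')
    (K.up a z hz')).2.1
  rw [le_div_iff₀ K.lam_pos, mul_comm]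
  exact h2.trans (h F γ a z hz)

end

end Vale.Agent.P284.H66
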