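import Vale.Agent.P284.H639.V5
import Vale.Agent.P272.K.INT.Local

/-!
# P284, theorem V: the divergence theorem for closed matrix functions (Piola)
-/

open scoped Manifold ContDiff Topology Pointwise ComplexConjugate ComplexOrder
open Filter Set Metric MeasureTheory

noncomputable section

namespace Vale.Agent.P284.H66

open Vale.Agent.P272.K Vale.Agent.P284.H248 Vale.Agent.P284.H894
  Vale.Agent.P284.H894.V

variable {n : ℕ}

/-- `∑ r, det (g with row r replaced by row r of F) = det g * tr (g⁻¹ F)` -/
theorem sum_det_row {g F : Matrix (Fin n) (Fin n) ℂ} (hg : g.det ≠ 0) :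
    ∑ r, (g.updateRow r (F r)).det = (g⁻¹ * F).trace * g.det := by
  have h1 : ∀ r, (g.updateRow r (F r)).det = ∑ l, g.adjugate l r * F r l := by
    intro r
    have : (g.updateRow r (F r)).det = (g.transpose.updateCol r (F r)).det := by
      rw [← Matrix.det_transpose, Matrix.updateCol_transpose]
    rw [this, ← Matrix.cramer_apply, Matrix.cramer_eq_adjugate_mulVec, Matrix.mulVec,
      dotProduct]
    refine Finset.sum_congr rfl fun l _ => ?_
    rw [← Matrix.adjugate_transpose, Matrix.transpose_apply]
  have h2 : g⁻¹ = (g.det)⁻¹ • g.adjugate := by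
    rw [Matrix.inv_def, Ring.inverse_eq_inv']
  rw [h2, Matrix.smul_mul, Matrix.trace_smul, smul_eq_mul, mul_comm, ← mul_assoc,
    mul_inv_cancel₀ hg, one_mul, Matrix.trace]
  simp only [Matrix.diag_apply, Matrix.mul_apply, h1]
  rw [Finset.sum_comm]

/-- `det (g with row r replaced by v) = det g * Σ_l (g⁻¹)_{l r} v_l` -/
theorem det_row {g : Matrix (Fin n) (Fin n) ℂ} (hg : g.det ≠ 0) (r : Fin n) (v : Fin n → ℂ) :
    (g.updateRow r v).det = (∑ l, g⁻¹ l r * v l) * g.det := by
  have h1 : (g.updateRow r v).det = ∑ l, g.adjugate l r * v l := by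
    have : (g.updateRow r v).det = (g.transpose.updateCol r v).det := by
      rw [← Matrix.det_transpose, Matrix.updateCol_transpose]
    rw [this, ← Matrix.cramer_apply, Matrix.cramer_eq_adjugate_mulVec, Matrix.mulVec,
      dotProduct]
    refine Finset.sum_congr rfl fun l _ => ?_
    rw [← Matrix.adjugate_transpose, Matrix.transpose_apply]
  have h2 : g⁻¹ = (g.det)⁻¹ • g.adjugate := by
    rw [Matrix.inv_def, Ring.inverse_eq_inv']
  rw [h1, h2, Finset.sum_mul]
  refine Finset.sum_congr rfl fun l _ => ?_
  rw [Matrix.smul_apply, smul_eq_mul]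
  field_simp

/-- The divergence theorem: `b` closed on `U`, `a` smooth with compact support in `U`. -/
theorem div_integral {U : Set (Cm n)} (hU : IsOpen U) {b : Cm n → Matrix (Fin n) (Fin n) ℂ}
    (hb : ∀ z ∈ U, ∀ i j, ContDiffAt ℝ ∞ (fun y => b y i j) z)
    (hcl : ∀ z ∈ U, ∀ i k l, dz i (fun y => b y k l) z = dz k (fun y => b y i l) z)
    {a : Cm n → Fin n → ℂ} {K : Set (Cm n)} (hK : IsCompact K) (hKU : K ⊆ U)
    (ha : ∀ z ∈ U, ∀ l, ContDiffAt ℝ ∞ (fun y => a y l) z) (ha0 : ∀ z ∉ K, ∀ l, a z l = 0) :
    ∫ z in U, ∑ r, ((b z).updateRow r (fun l => dz r (fun y => a y l) z)).det = 0 := by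
  set F : Fin n → Cm n → ℂ := fun r z => ((b z).updateRow r (a z)).det with hF
  have hF0 : ∀ r z, z ∉ K → F r z = 0 := by
    intro r z hz
    refine Matrix.det_eq_zero_of_row_eq_zero r fun l => ?_
    rw [Matrix.updateRow_self]
    exact ha0 z hz l
  have hFs : ∀ r, HasCompactSupport (F r) := fun r =>
    HasCompactSupport.intro hK (fun z hz => hF0 r z hz)
  have hFt : ∀ r z, z ∉ K → F r =ᶠ[𝓝 z] fun _ => 0 := by
    intro r z hz
    filter_upwards [hK.isClosed.isOpen_compl.mem_nhds hz] with y hy
    exact hF0 r y hy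
  have hFc : ∀ r, ContDiff ℝ 1 (F r) := by
    intro r
    rw [contDiff_iff_contDiffAt]
    intro z
    by_cases hz : z ∈ K
    · refine (INT.contDiffAt_det (k := ∞) fun i j => ?_).of_le (by exact_mod_cast le_top)
      by_cases h : i = r
      · subst h
        simp only [Matrix.updateRow_self]
        exact ha z (hKU hz) j
      · simp only [Matrix.updateRow_ne h]
        exact hb z (hKU hz) i j
    · exact contDiffAt_const.congr_of_eventuallyEq (hFt r z hz)
  have key : ∀ z ∈ U, ∑ r, ((b z).updateRow r (fun l => dz r (fun y => a y l) z)).det =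
      ∑ r, dz r (F r) z := by
    intro z hz
    exact (INT.piola (M := b) (a := a) (z := z)
      (fun i j => (hb z hz i j).differentiableAt (by simp))
      (fun l => (ha z hz l).differentiableAt (by simp)) (hcl z hz)).symm
  have hcomp : ∀ z, z ∉ U → ∑ r, dz r (F r) z = 0 := by
    intro z hz
    refine Finset.sum_eq_zero fun r _ => ?_
    rw [INT.dz_congr (hFt r z (fun h => hz (hKU h)))]; simp
  have hint : ∀ r, Integrable (fun z => dz r (F r) z) := by
    intro r
    have h1 : Continuous (dz r (F r)) := by
      rw [INT.dz_fun_eq]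
      have := (hFc r).continuous_fderiv (by norm_num)
      exact continuous_const.mul ((this.clm_apply continuous_const).sub
        (continuous_const.mul (this.clm_apply continuous_const)))
    refine h1.integrable_of_hasCompactSupport (HasCompactSupport.intro hK fun z hz => ?_)
    rw [INT.dz_congr (hFt r z hz)]; simp
  have e1 : ∫ z in U, ∑ r, ((b z).updateRow r (fun l => dz r (fun y => a y l) z)).det
      = ∫ z in U, ∑ r, dz r (F r) z :=
    setIntegral_congr_fun hU.measurableSet fun z hz => by simp only [key z hz]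
  have e2 : ∫ z in U, ∑ r, dz r (F r) z = ∫ z, ∑ r, dz r (F r) z := by
    apply setIntegral_eq_integral_of_forall_compl_eq_zero
    intro z hz; rw [hcomp z hz]
  rw [e1, e2, integral_finsetSum _ fun r _ => hint r]
  simp [fun r => INT.integral_dz_eq_zero (hFc r) (hFs r) r]

end Vale.Agent.P284.H66
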