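import Vale.Agent.P284.H913.V3
import Vale.Agent.P284.H66.Pio
import Vale.Agent.P284.H66.CutF
import Vale.Agent.P284.H730.VP

/-!
# P284, next theorem, S7b: the global divergence theorem on the base
-/

open scoped Manifold ContDiff Topology Pointwise ComplexConjugate ComplexOrder Matrix
open Filter Set Metric MeasureTheory

noncomputable section

namespace Vale.Agent.P284.H66.S7

open Vale.Agent.P272.K Vale.Agent.P272.K.C2 Vale.Agent.P284.H248 Vale.Agent.P284.H894
  Vale.Agent.P284.H894.V Vale.Agent.P284.H639.V Vale.Agent.P284.H66 Vale.Agent.P284.H913.V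

section loc
variable {n : ℕ}

/-- the matrix `∂_r α_l` -/
def pd (α : Cm n → Fin n → ℂ) (z : Cm n) : Matrix (Fin n) (Fin n) ℂ :=
  Matrix.of fun r l => dz r (fun y => α y l) z

theorem sum_det_row' (g F : Matrix (Fin n) (Fin n) ℂ) :
    ∑ r, (g.updateRow r (F r)).det = (g.adjugate * F).trace := by
  have h1 : ∀ r, (g.updateRow r (F r)).det = ∑ l, g.adjugate l r * F r l := by
    intro r
    have : (g.updateRow r (F r)).det = (g.transpose.updateCol r (F r)).det := by
      rw [← Matrix.det_transpose, Matrix.updateCol_transpose]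
    rw [this, ← Matrix.cramer_apply, Matrix.cramer_eq_adjugate_mulVec, Matrix.mulVec,
      dotProduct]
    refine Finset.sum_congr rfl fun l _ => ?_
    rw [← Matrix.adjugate_transpose, Matrix.transpose_apply]
  simp only [h1, Matrix.trace, Matrix.diag_apply, Matrix.mul_apply]
  rw [Finset.sum_comm]

theorem adj_pull (J M F : Matrix (Fin n) (Fin n) ℂ) :
    ((Jᵀ * M * J.map (starRingEnd ℂ)).adjugate * (Jᵀ * F * J.map (starRingEnd ℂ))).trace =
      ((‖J.det‖ ^ 2 : ℝ) : ℂ) * (M.adjugate * F).trace := by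
  have h3 : (J.map (starRingEnd ℂ)).det = conj J.det := by
    rw [RingHom.map_det]; rfl
  have e1 : (Jᵀ * M * J.map (starRingEnd ℂ)).adjugate * (Jᵀ * F * J.map (starRingEnd ℂ)) =
      ((J.map (starRingEnd ℂ)).adjugate * M.adjugate * ((Jᵀ).adjugate * Jᵀ) * F) *
        J.map (starRingEnd ℂ) := by
    rw [Matrix.adjugate_mul_distrib, Matrix.adjugate_mul_distrib]
    simp only [Matrix.mul_assoc]
  rw [e1, Matrix.adjugate_mul, Matrix.trace_mul_comm]
  have e2 : J.map (starRingEnd ℂ) * ((J.map (starRingEnd ℂ)).adjugate * M.adjugate *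
      ((Jᵀ).det • (1 : Matrix (Fin n) (Fin n) ℂ)) * F) = (Jᵀ).det •
        ((J.map (starRingEnd ℂ) * (J.map (starRingEnd ℂ)).adjugate) * (M.adjugate * F)) := by
    simp only [Matrix.mul_assoc, Matrix.smul_mul, Matrix.mul_smul, Matrix.one_mul]
  rw [e2, Matrix.mul_adjugate, Matrix.smul_mul, Matrix.one_mul, smul_smul, Matrix.trace_smul,
    Matrix.det_transpose, h3, smul_eq_mul, Complex.mul_conj, Complex.normSq_eq_norm_sq]

theorem pd_comp {T : Cm n → Cm n} {z : Cm n} (hT : ∀ᶠ y in 𝓝 z, DifferentiableAt ℂ T y)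
    {α α' : Cm n → Fin n → ℂ} (hα' : ∀ l, DifferentiableAt ℝ (fun y => α' y l) (T z))
    (e : ∀ᶠ y in 𝓝 z, α y = (jmat T y)ᴴ *ᵥ α' (T y)) :
    pd α z = (jmat T z)ᵀ * pd α' (T z) * (jmat T z).map (starRingEnd ℂ) := by
  have hTz : DifferentiableAt ℂ T z := hT.self_of_nhds
  have hTr : DifferentiableAt ℝ T z := hTz.restrictScalars ℝ
  ext j k
  have e1 : (fun y => α y k) =ᶠ[𝓝 z] fun y => ∑ q, α' (T y) q * cj (jmat T y q k) := by
    filter_upwards [e] with y hy
    rw [hy]
    simp only [Matrix.mulVec, dotProduct, Matrix.conjTranspose_apply]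
    exact Finset.sum_congr rfl fun q _ => mul_comm _ _
  have hd' : ∀ q, DifferentiableAt ℝ (fun y => α' (T y) q) z := fun q =>
    (hα' q).comp z hTr
  have hJ : ∀ q, DifferentiableAt ℝ (fun y => jmat T y q k) z := fun q =>
    (H730.V.jmat_holo hT q k).restrictScalars ℝ
  have hJ' : ∀ q, DifferentiableAt ℝ (fun y => cj (jmat T y q k)) z := fun q =>
    C2.differentiableAt_conj (hJ q)
  rw [pd, Matrix.of_apply, C2.dz_congr j e1, C2.dz_sum j _ (fun q _ => (hd' q).fun_mul (hJ' q))]
  have e2 : ∀ q, dz j (fun y => α' (T y) q * cj (jmat T y q k)) z =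
      (∑ p, jmat T z p j * pd α' (T z) p q) * cj (jmat T z q k) := by
    intro q
    rw [C2.dz_mul j (hd' q) (hJ' q), C2.dz_conj j (hJ q),
      Vale.Agent.P272.K.dzb_of_holo (H730.V.jmat_holo hT q k), map_zero, mul_zero, add_zero,
      dz_comp_holo (f := fun y => α' y q) (hα' q) hTz]
    congr 1
    exact Finset.sum_congr rfl fun p _ => mul_comm _ _
  simp only [e2]
  rw [Matrix.mul_apply]
  refine Finset.sum_congr rfl fun q _ => ?_
  rw [Matrix.mul_apply]
  rfl

end loc

section glob
variable {n : ℕ} {Γ : Type} [Group Γ] {C : Coc n Γ}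

/-- closed invariant matrix function on the base -/
structure CB (C : Coc n Γ) (b : C.I → Cm n → Matrix (Fin n) (Fin n) ℂ) : Prop where
  smooth : ∀ a, ∀ z ∈ C.Ω a, ∀ i j, ContDiffAt ℝ ∞ (fun y => b a y i j) z
  closed : ∀ a, ∀ z ∈ C.Ω a, ∀ i k l,
    dz i (fun y => b a y k l) z = dz k (fun y => b a y i l) z
  change : ∀ a d, ∀ z ∈ C.O a d,
    b a z = (jac C a d z)ᵀ * b d (C.T a d z) * (jac C a d z).map (starRingEnd ℂ)

/-- invariant form of type `(0,1)` on the base -/
structure CF (C : Coc n Γ) (α : C.I → Cm n → Fin n → ℂ) : Prop where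
  smooth : ∀ a, ∀ z ∈ C.Ω a, ∀ l, ContDiffAt ℝ ∞ (fun y => α a y l) z
  change : ∀ a d, ∀ z ∈ C.O a d, α a z = (jac C a d z)ᴴ *ᵥ α d (C.T a d z)

theorem T_ev (C : Coc n Γ) {a d : C.I} {z : Cm n} (hz : z ∈ C.O a d) :
    ∀ᶠ y in 𝓝 z, DifferentiableAt ℂ (C.T a d) y := by
  filter_upwards [(C.O_open a d).mem_nhds hz] with y hy
  exact (C.T_holo a d).differentiableAt ((C.O_open a d).mem_nhds hy)

variable {b : C.I → Cm n → Matrix (Fin n) (Fin n) ℂ} {α : C.I → Cm n → Fin n → ℂ}

theorem CF.pd_change (hα : CF C α) {a d : C.I} {z : Cm n} (hz : z ∈ C.O a d) :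
    pd (α a) z = (jac C a d z)ᵀ * pd (α d) (C.T a d z) * (jac C a d z).map (starRingEnd ℂ) := by
  refine pd_comp (T := C.T a d) (T_ev C hz)
    (fun l => (hα.smooth d _ (T_mem_Ω C hz) l).differentiableAt (by simp)) ?_
  filter_upwards [(C.O_open a d).mem_nhds hz] with y hy
  exact hα.change a d y hy

/-- the density of the divergence -/
def dens (K : KM C) (b : C.I → Cm n → Matrix (Fin n) (Fin n) ℂ) (α : C.I → Cm n → Fin n → ℂ)
    (a : C.I) (z : Cm n) : ℝ := ((b a z).adjugate * pd (α a) z).trace.re / vol (K.w a) z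

theorem vol_ne (K : KM C) {a : C.I} {z : Cm n} (hz : z ∈ C.Ω a) : vol (K.w a) z ≠ 0 :=
  (K.lam_pos.trans_le (K.vol_low a z hz)).ne'

theorem mc_pd (hα : CF C α) {a : C.I} {z : Cm n} (hz : z ∈ C.Ω a) : MC ∞ (pd (α a)) z :=
  fun r l => contDiffAt_dz (m := ∞) r (hα.smooth a z hz l) (by norm_num)

theorem tr_smooth (hb : CB C b) (hα : CF C α) {a : C.I} {z : Cm n} (hz : z ∈ C.Ω a) :
    ContDiffAt ℝ ∞ (fun y => ((b a y).adjugate * pd (α a) y).trace) z :=
  (MC.mul (MC.adjugate (fun i j => hb.smooth a z hz i j)) (mc_pd hα hz)).trace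

theorem dens_BD (K : KM C) (hb : CB C b) (hα : CF C α) : BD C (dens K b α) where
  cont a z hz := by
    refine ContinuousAt.continuousWithinAt ?_
    exact (re_smooth (tr_smooth hb hα hz)).continuousAt.div
      (smooth_vol (K.ku a) hz).continuousAt (vol_ne K hz)
  compat a d z hz _ _ := by
    have h1 : vol (K.w a) z = vol (K.w d) (C.T a d z) * ‖(jac C a d z).det‖ ^ 2 :=
      H730.V.vol_law (K.change a d z hz)
    have hne := vol_ne K (O_sub_Ω C hz)
    have h2 : ‖(jac C a d z).det‖ ^ 2 ≠ 0 := by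
      intro h0
      rw [h1, h0, mul_zero] at hne
      exact hne rfl
    rw [dens, dens, hb.change a d z hz, hα.pd_change hz, adj_pull, Complex.re_ofReal_mul, h1,
      mul_comm (vol _ _), mul_div_mul_left _ _ h2]

/-- the form cut off by the partition of unity -/
def cutF (P : PU C) (α : C.I → Cm n → Fin n → ℂ) (d a : C.I) (z : Cm n) (l : Fin n) : ℂ :=
  (P.χ d a z : ℂ) * α a z l

theorem cutF_CF (P : PU C) (hα : CF C α) (d : C.I) : CF C (cutF P α d) where
  smooth a z hz l := (contDiffAt_ofReal (P.smooth d a z hz)).mul (hα.smooth a z hz l)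
  change a e z hz := by
    have h1 : ∀ a z, cutF P α d a z = (P.χ d a z : ℂ) • α a z := fun a z => rfl
    rw [h1, h1, P.compat d a e z hz, hα.change a e z hz, Matrix.mulVec_smul]

theorem pd_cut (P : PU C) (hα : CF C α) {a : C.I} {z : Cm n} (hz : z ∈ C.Ω a) :
    pd (α a) z = ∑ d, pd (cutF P α d a) z := by
  ext r l
  rw [Matrix.sum_apply]
  simp only [pd, Matrix.of_apply]
  rw [← C2.dz_sum r Finset.univ fun d _ =>
    ((cutF_CF P hα d).smooth a z hz l).differentiableAt (by simp)]
  refine C2.dz_congr r ?_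
  filter_upwards [(isOpen_Ω C a).mem_nhds hz] with y hy
  simp only [cutF]
  rw [← Finset.sum_mul]
  have h1 : (∑ b, (P.χ b a y : ℂ)) = 1 := by exact_mod_cast P.sum_one a y hy
  rw [h1, one_mul]

theorem dens_cut (P : PU C) (K : KM C) (hα : CF C α) {a : C.I} {z : Cm n}
    (hz : z ∈ C.Ω a) : dens K b α a z = ∑ d, dens K b (cutF P α d) a z := by
  simp only [dens]
  rw [pd_cut P hα hz, Matrix.mul_sum, Matrix.trace_sum, Complex.re_sum, Finset.sum_div]

theorem BInt_congr (P : PU C) (K : KM C) {F G : C.I → Cm n → ℝ}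
    (h : ∀ a, ∀ z ∈ C.V a, F a z = G a z) : BInt P K F = BInt P K G := by
  unfold BInt
  refine Finset.sum_congr rfl fun a _ => setIntegral_congr_fun measurableSet_ball fun z hz => ?_
  simp only [h a z hz]

theorem BInt_sum (P : PU C) (K : KM C) {ι : Type*} (s : Finset ι) {F : ι → C.I → Cm n → ℝ}
    (hF : ∀ i ∈ s, BD C (F i)) :
    BInt P K (fun a z => ∑ i ∈ s, F i a z) = ∑ i ∈ s, BInt P K (F i) := by
  unfold BInt
  rw [Finset.sum_comm]
  refine Finset.sum_congr rfl fun a _ => ?_
  rw [← integral_finsetSum _ fun i hi => (hF i hi).int_chi P K a a]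
  refine setIntegral_congr_fun measurableSet_ball fun z _ => ?_
  simp only [Finset.mul_sum, Finset.sum_mul]

theorem BInt_smul (P : PU C) (K : KM C) (c : ℝ) (F : C.I → Cm n → ℝ) :
    BInt P K (fun a z => c * F a z) = c * BInt P K F := by
  unfold BInt
  rw [Finset.mul_sum]
  refine Finset.sum_congr rfl fun a _ => ?_
  rw [← integral_const_mul]
  refine setIntegral_congr_fun measurableSet_ball fun z _ => ?_
  ring

theorem intVC {a : C.I} {h : Cm n → ℂ} (hh : ContinuousOn h (C.Ω a)) :
    IntegrableOn h (C.V a) :=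
  ((hh.mono (closed_sub_Ω C a)).integrableOn_compact (isCompact_closedBall _ _)).mono_set
    (V_sub_closed C a)

theorem int_cut (P : PU C) (K : KM C) (hb : CB C b) (hα : CF C α) (d : C.I) :
    BInt P K (dens K b (cutF P α d)) = 0 := by
  have hc := cutF_CF P hα d
  rw [(dens_BD K hb hc).piece P K d]
  · set A : Cm n → Fin n → ℂ := (C.Ω d).indicator (cutF P α d d) with hA
    have hAin : ∀ z ∈ C.Ω d, A z = cutF P α d d z := fun z hz => indicator_of_mem hz _
    have hAev : ∀ z ∈ C.Ω d, ∀ l, (fun y => A y l) =ᶠ[𝓝 z] fun y => cutF P α d d y l := by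
      intro z hz l
      filter_upwards [(isOpen_Ω C d).mem_nhds hz] with y hy
      rw [hAin y hy]
    have h1 := div_integral (U := C.V d) isOpen_ball (b := b d)
      (fun z hz => hb.smooth d z (V_sub_Ω C d hz)) (fun z hz => hb.closed d z (V_sub_Ω C d hz))
      (a := A) (K := P.K d) (P.compactK d) (P.K_sub d)
      (fun z hz l => (hc.smooth d z (V_sub_Ω C d hz) l).congr_of_eventuallyEq
        (hAev z (V_sub_Ω C d hz) l)) (fun z hz l => ?_)
    · have h2 : ∫ z in C.V d, ((b d z).adjugate * pd (cutF P α d d) z).trace = 0 := by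
        rw [← h1]
        refine setIntegral_congr_fun measurableSet_ball fun z hz => ?_
        rw [← sum_det_row']
        refine Finset.sum_congr rfl fun r _ => ?_
        congr 2
        ext l
        rw [pd, Matrix.of_apply, C2.dz_congr r (hAev z (V_sub_Ω C d hz) l)]
      have h3 : IntegrableOn (fun z => ((b d z).adjugate * pd (cutF P α d d) z).trace) (C.V d) :=
        intVC fun z hz => (tr_smooth hb hc hz).continuousAt.continuousWithinAt
      have h4 := Complex.reCLM.integral_comp_comm h3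
      rw [h2] at h4
      simp only [Complex.reCLM_apply, Complex.zero_re] at h4
      rw [← h4]
      refine setIntegral_congr_fun measurableSet_ball fun z hz => ?_
      simp only [dens]
      rw [div_mul_cancel₀ _ (vol_ne K (V_sub_Ω C d hz))]
    · by_cases hz' : z ∈ C.Ω d
      · rw [hAin z hz']
        have h0 : P.χ d d z = 0 := by
          by_contra h0
          have h2 := (P.supp d d z hz' h0).2
          rw [C.T_self d z (mem_O_self C hz')] at h2
          exact hz h2
        rw [cutF, h0]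
        simp
      · rw [hA, indicator_of_notMem hz']
        rfl
  · intro a z hz hne
    by_contra hn
    have hn' : ¬ (z ∈ C.O a d ∧ C.T a d z ∈ P.K d) := fun h => hn ⟨h.1, P.K_sub d h.2⟩
    apply hne
    have e := chi_ev P d (V_sub_Ω C a hz) hn'
    have h0 : pd (cutF P α d a) z = 0 := by
      ext r l
      rw [pd, Matrix.of_apply, C2.dz_congr (g := fun _ => 0) r, C2.dz_const]
      · rfl
      · filter_upwards [e] with y hy
        rw [cutF, hy]
        simp
    rw [dens, h0]
    simp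

/-- **The divergence theorem on the base.** -/
theorem glob_div (P : PU C) (K : KM C) (hb : CB C b) (hα : CF C α) :
    BInt P K (dens K b α) = 0 := by
  rw [BInt_congr P K fun a z hz => dens_cut (b := b) P K hα (V_sub_Ω C a hz),
    BInt_sum P K Finset.univ fun d _ => dens_BD K hb (cutF_CF P hα d)]
  exact Finset.sum_eq_zero fun d _ => int_cut P K hb hα d

/-- a nonnegative continuous function with integral zero vanishes -/
theorem vanish (P : PU C) (K : KM C) {F : C.I → Cm n → ℝ} (hF : BD C F)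
    (h0 : ∀ a, ∀ z ∈ C.Ω a, 0 ≤ F a z) (hi : BInt P K F = 0) (a : C.I) {z : Cm n}
    (hz : z ∈ C.V a) : F a z = 0 := by
  have h1 := hF.le P K h0 a
  rw [hi] at h1
  have hnn : ∀ z ∈ C.V a, 0 ≤ F a z * vol (K.w a) z := fun z hz =>
    mul_nonneg (h0 a z (V_sub_Ω C a hz)) (vol_nn K (V_sub_Ω C a hz))
  have hcont : ContinuousOn (fun z => F a z * vol (K.w a) z) (C.V a) :=
    ((hF.cont a).mul (vol_cont K a)).mono (V_sub_Ω C a)
  have hint := hF.int_vol K a
  have h2 : ∫ z in C.V a, F a z * vol (K.w a) z = 0 :=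
    le_antisymm h1 (setIntegral_nonneg measurableSet_ball hnn)
  have h3 : (fun z => F a z * vol (K.w a) z) =ᵐ[volume.restrict (C.V a)] 0 := by
    refine (integral_eq_zero_iff_of_nonneg_ae ?_ hint).1 h2
    filter_upwards [ae_restrict_mem measurableSet_ball] with z hz using hnn z hz
  have h4 : EqOn (fun z => F a z * vol (K.w a) z) 0 (C.V a) := by
    refine Measure.eqOn_open_of_ae_eq h3 isOpen_ball hcont continuousOn_const
  have h5 := h4 hz
  simp only [Pi.zero_apply, mul_eq_zero] at h5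
  exact h5.resolve_right (vol_ne K (V_sub_Ω C a hz))

end glob

end Vale.Agent.P284.H66.S7
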