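import Vale.Agent.P284.H66.Pio
import Vale.Agent.P272.K.INT.Poly

/-!
# P284, theorem V, block V2: the Kähler identity in `ℂⁿ`
-/

open scoped Manifold ContDiff Topology Pointwise ComplexConjugate ComplexOrder
open Filter Set Metric MeasureTheory

noncomputable section

namespace Vale.Agent.P284.H66

open Vale.Agent.P272.K Vale.Agent.P284.H248 Vale.Agent.P284.H894
  Vale.Agent.P284.H894.V

variable {n : ℕ}

/-- two rows of the identity matrix replaced -/
theorem det_two_rows {r q : Fin n} (h : r ≠ q) (x y : Fin n → ℂ) :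
    (((1 : Matrix (Fin n) (Fin n) ℂ).updateRow r x).updateRow q y).det =
      x r * y q - x q * y r := by
  classical
  set U : Matrix (Fin n) (Fin 2) ℂ := Matrix.of fun i k =>
    if k = 0 then (if i = r then 1 else 0) else (if i = q then 1 else 0) with hU
  set V : Matrix (Fin 2) (Fin n) ℂ := Matrix.of fun k j =>
    if k = 0 then x j - (if r = j then 1 else 0) else y j - (if q = j then 1 else 0) with hV
  have e : ((1 : Matrix (Fin n) (Fin n) ℂ).updateRow r x).updateRow q y = 1 + U * V := by
    ext i j
    rw [Matrix.add_apply, Matrix.mul_apply, Fin.sum_univ_two]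
    simp only [hU, hV, Matrix.of_apply, if_true, one_ne_zero, if_false]
    by_cases hi : i = q
    · subst hi
      rw [Matrix.updateRow_self, if_neg (Ne.symm h), if_pos rfl, Matrix.one_apply]
      ring
    · rw [Matrix.updateRow_ne hi, if_neg hi]
      by_cases hr : i = r
      · subst hr
        rw [Matrix.updateRow_self, if_pos rfl, Matrix.one_apply]
        ring
      · rw [Matrix.updateRow_ne hr, if_neg hr, Matrix.one_apply]
        ring
  rw [e, Matrix.det_one_add_mul_comm, Matrix.det_fin_two]
  have h1 : ∀ k l, (V * U) k l = V k (if l = 0 then r else q) := by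
    intro k l
    rw [Matrix.mul_apply]
    simp only [hU, Matrix.of_apply]
    by_cases hl : l = 0
    · simp [hl]
    · simp [hl]
  simp only [Matrix.add_apply, h1]
  simp only [hV, Matrix.of_apply, if_true, one_ne_zero, if_false,
    Matrix.one_apply_eq, Matrix.one_apply_ne one_ne_zero, Matrix.one_apply_ne zero_ne_one,
    if_neg h, if_neg h.symm]
  ring

theorem two_rows {w F N : Matrix (Fin n) (Fin n) ℂ} (hw : w.det ≠ 0) :
    ∑ r, ∑ q, ((w.updateRow r (F r)).updateRow q ((N.updateRow r 0) q)).det =
      ((w⁻¹ * F).trace * (w⁻¹ * N).trace - (w⁻¹ * F * (w⁻¹ * N)).trace) * w.det := by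
  classical
  set X := F * w⁻¹ with hX
  set Y := N * w⁻¹ with hY
  have hu : IsUnit w.det := isUnit_iff_ne_zero.2 hw
  have hXw : X * w = F := by rw [hX, Matrix.mul_assoc, Matrix.nonsing_inv_mul _ hu, mul_one]
  have hYw : Y * w = N := by rw [hY, Matrix.mul_assoc, Matrix.nonsing_inv_mul _ hu, mul_one]
  have h1 : ∀ r q, ((w.updateRow r (F r)).updateRow q ((N.updateRow r 0) q)).det =
      (X r r * Y q q - X r q * Y q r) * w.det := by
    intro r q
    by_cases h : r = q
    · subst h
      have : ((w.updateRow r (F r)).updateRow r ((N.updateRow r 0) r)).det = 0 := by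
        refine Matrix.det_eq_zero_of_row_eq_zero r fun l => ?_
        rw [Matrix.updateRow_self, Matrix.updateRow_self]
        rfl
      rw [this]; ring
    · rw [Matrix.updateRow_ne (Ne.symm h)]
      have e : (w.updateRow r (F r)).updateRow q (N q) =
          (((1 : Matrix (Fin n) (Fin n) ℂ).updateRow r (X r)).updateRow q (Y q)) * w := by
        ext i j
        rw [Matrix.mul_apply]
        by_cases hi : i = q
        · subst hi
          simp only [Matrix.updateRow_self]
          rw [← Matrix.mul_apply, hYw]
        · by_cases hr : i = r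
          · subst hr
            simp only [Matrix.updateRow_ne hi, Matrix.updateRow_self]
            rw [← Matrix.mul_apply, hXw]
          · simp only [Matrix.updateRow_ne hi, Matrix.updateRow_ne hr]
            rw [← Matrix.mul_apply, one_mul]
      rw [e, Matrix.det_mul, det_two_rows h]
  simp only [h1]
  rw [Matrix.trace_mul_comm w⁻¹ F, Matrix.trace_mul_comm w⁻¹ N]
  have h2 : (w⁻¹ * F * (w⁻¹ * N)).trace = (X * Y).trace := by
    rw [hX, hY, Matrix.mul_assoc, Matrix.trace_mul_comm]
    simp only [Matrix.mul_assoc]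
  rw [h2]
  simp only [Matrix.trace, Matrix.diag_apply, Matrix.mul_apply, ← hX, ← hY]
  rw [Finset.sum_mul_sum, ← Finset.sum_sub_distrib, Finset.sum_mul]
  refine Finset.sum_congr rfl fun r _ => ?_
  rw [← Finset.sum_sub_distrib, Finset.sum_mul]

/-- the trace of `w⁻¹ H`, `w` positive, `H` Hermitian, is real -/
theorem trace_real {w H : Matrix (Fin n) (Fin n) ℂ} (hw : w.IsHermitian) (hH : H.IsHermitian) :
    ((w⁻¹ * H).trace.re : ℂ) = (w⁻¹ * H).trace := by
  rw [← Complex.conj_eq_iff_re]
  have h1 : conj (w⁻¹ * H).trace = ((w⁻¹ * H).conjTranspose).trace := by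
    rw [Matrix.trace_conjTranspose]; rfl
  rw [h1, Matrix.conjTranspose_mul, Matrix.conjTranspose_nonsing_inv, hw.eq, hH.eq,
    Matrix.trace_mul_comm]

theorem det_real {w : Matrix (Fin n) (Fin n) ℂ} (hw : w.PosDef) : (w.det.re : ℂ) = w.det := by
  have h := hw.det_pos
  rw [Complex.lt_def] at h
  exact Complex.ext (by simp) (by simpa using h.2)

/-- **V2** -/
theorem v2Stmt : V2Stmt := by
  intro n U w hw f h hf hh'
  have hU := hw.isOpen
  have hfs : ∀ z, ContDiffAt ℝ ∞ f z := fun z => hf.smooth.contDiffAt
  -- the two matrices in the line `A r z + s B r z`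
  set A : Fin n → Cm n → Matrix (Fin n) (Fin n) ℂ := fun r z => (w z).updateRow r (cHess f z r)
    with hA
  set B : Fin n → Cm n → Matrix (Fin n) (Fin n) ℂ := fun r z => (cHess h z).updateRow r 0 with hB
  have hAB : ∀ r z (s : ℂ), (w z + s • cHess h z).updateRow r (cHess f z r) =
      A r z + s • B r z := by
    intro r z s
    ext i j
    by_cases hi : i = r
    · subst hi
      simp [hA, hB, Matrix.updateRow_self]
    · simp [hA, hB, Matrix.updateRow_ne hi]
  set D : ℝ → Cm n → ℝ := fun s z => ∑ r, (A r z + (s : ℂ) • B r z).det.re with hD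
  -- step 1: the integral of `D s` is zero
  have hclos : ∀ s : ℝ, ∀ z ∈ U, ∀ i k l, dz i (fun y => (w y + (s : ℂ) • cHess h y) k l) z =
      dz k (fun y => (w y + (s : ℂ) • cHess h y) i l) z := by
    intro s z hz i k l
    have e1 := (hw.smooth z hz k l).differentiableAt (n := ∞) (by simp)
    have e2 := (hw.smooth z hz i l).differentiableAt (n := ∞) (by simp)
    have f1 := (INT.smooth_cHess (hh' z hz) k l).differentiableAt (by simp)
    have f2 := (INT.smooth_cHess (hh' z hz) i l).differentiableAt (by simp)
    change dz i (fun y => w y k l + (s : ℂ) * cHess h y k l) z =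
      dz k (fun y => w y i l + (s : ℂ) * cHess h y i l) z
    rw [INT.dz_add e1 (f1.const_mul _), INT.dz_add e2 (f2.const_mul _), INT.dz_const_mul _ f1,
      INT.dz_const_mul _ f2, hw.closed z hz k l i, INT.cHess_closed (hh' z hz) i k l]
  have hsm : ∀ s : ℝ, ∀ z ∈ U, ∀ i j, ContDiffAt ℝ ∞ (fun y => (w y + (s : ℂ) • cHess h y) i j) z :=
    fun s z hz i j => (hw.smooth z hz i j).add
      (contDiffAt_const.mul (INT.smooth_cHess (hh' z hz) i j))
  have hcont : ∀ s : ℝ, ∀ r, ContinuousOn (fun z => (A r z + (s : ℂ) • B r z).det) U := by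
    intro s r z hz
    refine ContinuousAt.continuousWithinAt ?_
    have : (fun z => (A r z + (s : ℂ) • B r z).det) = fun z =>
        ((w z + (s : ℂ) • cHess h z).updateRow r (cHess f z r)).det := by
      ext y; rw [hAB]
    rw [this]
    refine (INT.contDiffAt_det (k := ∞) fun i j => ?_).continuousAt
    by_cases hi : i = r
    · subst hi
      simp only [Matrix.updateRow_self]
      exact INT.smooth_cHess (hfs z) i j
    · simp only [Matrix.updateRow_ne hi]
      exact hsm s z hz i j
  have hzero : ∀ s : ℝ, ∀ r z, z ∉ tsupport f → (A r z + (s : ℂ) • B r z).det = 0 := by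
    intro s r z hz
    rw [← hAB]
    refine Matrix.det_eq_zero_of_row_eq_zero r fun l => ?_
    rw [Matrix.updateRow_self, INT.cHess_zero_of_notMem hz]
    rfl
  have hintC : ∀ s : ℝ, ∀ r, IntegrableOn (fun z => (A r z + (s : ℂ) • B r z).det) U := by
    intro s r
    have h1 : IntegrableOn (fun z => (A r z + (s : ℂ) • B r z).det) (tsupport f) :=
      ((hcont s r).mono hf.supp).integrableOn_compact hf.compact
    exact h1.of_forall_sdiff_eq_zero hU.measurableSet fun z hz => hzero s r z hz.2
  have hintD : ∀ s : ℝ, IntegrableOn (D s) U := fun s =>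
    integrable_finsetSum _ fun r _ => (hintC s r).re
  have hD0 : ∀ s : ℝ, ∫ z in U, D s z = 0 := by
    intro s
    have h1 := div_integral hU (hsm s) (hclos s) (a := fun y l => dzb l (fun y => (f y : ℂ)) y)
      (K := tsupport f) hf.compact hf.supp
      (fun z _ l => INT.smooth_dzb (INT.ofReal_contDiffAt (hfs z)))
      (fun z hz l => INT.dzb_zero_of_notMem hz l)
    have h2 : ∀ z, D s z = (∑ r, ((w z + (s : ℂ) • cHess h z).updateRow r
        (fun l => dz r (fun y => dzb l (fun y => (f y : ℂ)) y) z)).det).re := by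
      intro z
      rw [Complex.re_sum]
      refine Finset.sum_congr rfl fun r _ => ?_
      rw [← hAB]
      rfl
    simp only [h2]
    have h3 : Integrable (fun z => ∑ r, ((w z + (s : ℂ) • cHess h z).updateRow r
        (fun l => dz r (fun y => dzb l (fun y => (f y : ℂ)) y) z)).det) (volume.restrict U) := by
      refine integrable_finsetSum _ fun r _ => ?_
      have := hintC s r
      refine this.congr (ae_of_all _ fun z => ?_)
      simp only
      rw [← hAB]
      rfl
    have h4 := Complex.reCLM.integral_comp_comm h3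
    simp only [Complex.reCLM_apply] at h4
    rw [h4, h1, Complex.zero_re]
  -- step 2: `D` is a polynomial in `s`
  have hpoly : ∀ z, deriv (fun s => D s z) 0 =
      ∑ j : Fin (n + 1), deriv (INT.lag n j) 0 * D j z := by
    intro z
    have h1 : ∀ r, INT.IsPolyN n fun s => (A r z + (s : ℂ) • B r z).det.re := fun r =>
      INT.isPolyN_det _ _
    have h2 : deriv (fun s => D s z) 0 =
        ∑ r, deriv (fun s : ℝ => (A r z + (s : ℂ) • B r z).det.re) 0 := by
      simp only [hD]
      exact deriv_fun_sum fun r _ => (h1 r).differentiable.differentiableAt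
    rw [h2]
    simp only [hD, (h1 _).deriv, Finset.mul_sum]
    rw [Finset.sum_comm]
  have hder : ∫ z in U, deriv (fun s => D s z) 0 = 0 := by
    simp only [hpoly]
    have hj : ∀ j : Fin (n + 1), Integrable (fun z => deriv (INT.lag n j) 0 * D (j : ℝ) z)
        (volume.restrict U) := fun j => (hintD _).const_mul _
    rw [integral_finsetSum _ fun j _ => hj j]
    refine Finset.sum_eq_zero fun j _ => ?_
    rw [integral_const_mul, hD0, mul_zero]
  -- step 3: the derivative
  rw [← hder]
  refine setIntegral_congr_fun hU.measurableSet fun z hz => ?_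
  have hpos := hw.pos z hz
  have hF := H639.V.two_le
  have hHf : (cHess f z).IsHermitian := C2.cHess_isHermitian ((hfs z).of_le H639.V.two_le)
  have hHh : (cHess h z).IsHermitian := C2.cHess_isHermitian ((hh' z hz).of_le H639.V.two_le)
  have hdet : (w z).det ≠ 0 := hpos.det_pos.ne'
  have h1 : HasDerivAt (fun s => D s z)
      (∑ r, (∑ q, ((A r z + ((0 : ℝ) : ℂ) • B r z).updateRow q (B r z q)).det).re) 0 := by
    simp only [hD]
    exact HasDerivAt.fun_sum fun r _ => INT.hasDerivAt_det_line (A r z) (B r z) 0
  rw [h1.deriv, ← Complex.re_sum]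
  simp only [Complex.ofReal_zero, zero_smul, add_zero, hA, hB]
  rw [two_rows hdet, ← trace_real hpos.isHermitian hHf, ← trace_real hpos.isHermitian hHh,
    ← det_real hpos]
  simp only [lap, hh, vol]
  rw [← Complex.ofReal_mul, Complex.re_mul_ofReal, Complex.sub_re, Complex.ofReal_re]

end Vale.Agent.P284.H66
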