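import Vale.Agent.P284.H66.S7bLoc
import Vale.Agent.P284.H66.V2

/-!
# P284, theorem A: the polarised Piola identity for twisted forms on the base
-/

open scoped Manifold ContDiff Topology Pointwise ComplexConjugate ComplexOrder Matrix
open Filter Set Metric MeasureTheory

noncomputable section

namespace Vale.Agent.P284.H66.TK

open Vale.Agent.P272.K Vale.Agent.P272.K.C2 Vale.Agent.P284.H248 Vale.Agent.P284.H894
  Vale.Agent.P284.H894.V Vale.Agent.P284.H639.V Vale.Agent.P284.H66 Vale.Agent.P284.H913.V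
  Vale.Agent.P284.H66.S7

section loc
variable {n : ℕ}

/-- `q(X, Z) = tr (g X) tr (g Z) - tr (g X g Z)` -/
def qq (g X Z : Matrix (Fin n) (Fin n) ℂ) : ℂ :=
  (g * X).trace * (g * Z).trace - (g * X * (g * Z)).trace

/-- The polarised Piola identity in a chart. -/
theorem pp_local {U : Set (Cm n)} {w : Cm n → Matrix (Fin n) (Fin n) ℂ} (hw : KU U w)
    {Z : Cm n → Matrix (Fin n) (Fin n) ℂ}
    (hZs : ∀ z ∈ U, ∀ i j, ContDiffAt ℝ ∞ (fun y => Z y i j) z)
    (hZc : ∀ z ∈ U, ∀ i k l, dz i (fun y => Z y k l) z = dz k (fun y => Z y i l) z)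
    {a : Cm n → Fin n → ℂ} {K : Set (Cm n)} (hK : IsCompact K) (hKU : K ⊆ U)
    (ha : ∀ z ∈ U, ∀ l, ContDiffAt ℝ ∞ (fun y => a y l) z) (ha0 : ∀ z ∉ K, ∀ l, a z l = 0) :
    ∫ z in U, (qq (w z)⁻¹ (pd a z) (Z z)).re * vol w z = 0 := by
  have hU := hw.isOpen
  have hpd0 : ∀ z, z ∉ K → pd a z = 0 := by
    intro z hz
    ext r l
    rw [pd, Matrix.of_apply, C2.dz_congr (g := fun _ => 0) r, C2.dz_const]
    · rfl
    · filter_upwards [hK.isClosed.isOpen_compl.mem_nhds hz] with y hy
      exact ha0 y hy l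
  have hpds : ∀ z ∈ U, ∀ r l, ContDiffAt ℝ ∞ (fun y => pd a y r l) z := fun z hz r l =>
    contDiffAt_dz (m := ∞) r (ha z hz l) (by norm_num)
  set A : Fin n → Cm n → Matrix (Fin n) (Fin n) ℂ := fun r z => (w z).updateRow r (pd a z r)
    with hA
  set B : Fin n → Cm n → Matrix (Fin n) (Fin n) ℂ := fun r z => (Z z).updateRow r 0 with hB
  have hAB : ∀ r z (s : ℂ), (w z + s • Z z).updateRow r (pd a z r) = A r z + s • B r z := by
    intro r z s
    ext i j
    by_cases hi : i = r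
    · subst hi
      simp [hA, hB, Matrix.updateRow_self]
    · simp [hA, hB, Matrix.updateRow_ne hi]
  set D : ℝ → Cm n → ℝ := fun s z => ∑ r, (A r z + (s : ℂ) • B r z).det.re with hD
  have hclos : ∀ s : ℝ, ∀ z ∈ U, ∀ i k l, dz i (fun y => (w y + (s : ℂ) • Z y) k l) z =
      dz k (fun y => (w y + (s : ℂ) • Z y) i l) z := by
    intro s z hz i k l
    have e1 := (hw.smooth z hz k l).differentiableAt (n := ∞) (by simp)
    have e2 := (hw.smooth z hz i l).differentiableAt (n := ∞) (by simp)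
    have f1 := (hZs z hz k l).differentiableAt (by simp)
    have f2 := (hZs z hz i l).differentiableAt (by simp)
    change dz i (fun y => w y k l + (s : ℂ) * Z y k l) z =
      dz k (fun y => w y i l + (s : ℂ) * Z y i l) z
    rw [C2.dz_add i e1 (f1.const_mul _), C2.dz_add k e2 (f2.const_mul _), C2.dz_const_mul i _ f1,
      C2.dz_const_mul k _ f2, hw.closed z hz k l i, hZc z hz i k l]
  have hsm : ∀ s : ℝ, ∀ z ∈ U, ∀ i j, ContDiffAt ℝ ∞ (fun y => (w y + (s : ℂ) • Z y) i j) z :=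
    fun s z hz i j => (hw.smooth z hz i j).add (contDiffAt_const.mul (hZs z hz i j))
  have hcont : ∀ s : ℝ, ∀ r, ContinuousOn (fun z => (A r z + (s : ℂ) • B r z).det) U := by
    intro s r z hz
    refine ContinuousAt.continuousWithinAt ?_
    have : (fun z => (A r z + (s : ℂ) • B r z).det) = fun z =>
        ((w z + (s : ℂ) • Z z).updateRow r (pd a z r)).det := by
      ext y; rw [hAB]
    rw [this]
    refine (INT.contDiffAt_det (k := ∞) fun i j => ?_).continuousAt
    by_cases hi : i = r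
    · subst hi
      simp only [Matrix.updateRow_self]
      exact hpds z hz i j
    · simp only [Matrix.updateRow_ne hi]
      exact hsm s z hz i j
  have hzero : ∀ s : ℝ, ∀ r z, z ∉ K → (A r z + (s : ℂ) • B r z).det = 0 := by
    intro s r z hz
    rw [← hAB]
    refine Matrix.det_eq_zero_of_row_eq_zero r fun l => ?_
    rw [Matrix.updateRow_self, hpd0 z hz]
    rfl
  have hintC : ∀ s : ℝ, ∀ r, IntegrableOn (fun z => (A r z + (s : ℂ) • B r z).det) U := by
    intro s r
    have h1 : IntegrableOn (fun z => (A r z + (s : ℂ) • B r z).det) K :=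
      ((hcont s r).mono hKU).integrableOn_compact hK
    exact h1.of_forall_sdiff_eq_zero hU.measurableSet fun z hz => hzero s r z hz.2
  have hintD : ∀ s : ℝ, IntegrableOn (D s) U := fun s =>
    integrable_finsetSum _ fun r _ => (hintC s r).re
  have hD0 : ∀ s : ℝ, ∫ z in U, D s z = 0 := by
    intro s
    have h1 := div_integral hU (hsm s) (hclos s) (a := a) hK hKU ha ha0
    have h2 : ∀ z, D s z = (∑ r, ((w z + (s : ℂ) • Z z).updateRow r
        (fun l => dz r (fun y => a y l) z)).det).re := by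
      intro z
      rw [Complex.re_sum]
      refine Finset.sum_congr rfl fun r _ => ?_
      rw [← hAB]
      rfl
    simp only [h2]
    have h3 : Integrable (fun z => ∑ r, ((w z + (s : ℂ) • Z z).updateRow r
        (fun l => dz r (fun y => a y l) z)).det) (volume.restrict U) := by
      refine integrable_finsetSum _ fun r _ => ?_
      have := hintC s r
      refine this.congr (ae_of_all _ fun z => ?_)
      simp only
      rw [← hAB]
      rfl
    have h4 := Complex.reCLM.integral_comp_comm h3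
    simp only [Complex.reCLM_apply] at h4
    rw [h4, h1, Complex.zero_re]
  have hpoly : ∀ z, deriv (fun s => D s z) 0 =
      ∑ j : Fin (n + 1), deriv (INT.lag n j) 0 * D j z := by
    intro z
    have h1 : ∀ r, INT.IsPolyN n fun s => (A r z + (s : ℂ) • B r z).det.re := fun r =>
      INT.isPolyN_det _ _
    have h2 : deriv (fun s => D s z) 0 =
        ∑ r, deriv (fun s : ℝ => (A r z + (s : ℂ) • B r z).det.re) 0 := by
      simp only [hD]
      exact deriv_fun_sum fun r _ => (h1 r).differentiable.differentiableAt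
    rw [h2]
    simp only [hD, (h1 _).deriv, Finset.mul_sum]
    rw [Finset.sum_comm]
  have hder : ∫ z in U, deriv (fun s => D s z) 0 = 0 := by
    simp only [hpoly]
    have hj : ∀ j : Fin (n + 1), Integrable (fun z => deriv (INT.lag n j) 0 * D (j : ℝ) z)
        (volume.restrict U) := fun j => (hintD _).const_mul _
    rw [integral_finsetSum _ fun j _ => hj j]
    refine Finset.sum_eq_zero fun j _ => ?_
    rw [integral_const_mul, hD0, mul_zero]
  rw [← hder]
  refine setIntegral_congr_fun hU.measurableSet fun z hz => ?_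
  have hpos := hw.pos z hz
  have hdet : (w z).det ≠ 0 := hpos.det_pos.ne'
  have h1 : HasDerivAt (fun s => D s z)
      (∑ r, (∑ q, ((A r z + ((0 : ℝ) : ℂ) • B r z).updateRow q (B r z q)).det).re) 0 := by
    simp only [hD]
    exact HasDerivAt.fun_sum fun r _ => INT.hasDerivAt_det_line (A r z) (B r z) 0
  rw [h1.deriv, ← Complex.re_sum]
  simp only [Complex.ofReal_zero, zero_smul, add_zero, hA, hB]
  rw [two_rows hdet]
  simp only [vol, qq]
  rw [← det_real hpos, Complex.re_mul_ofReal, Complex.ofReal_re]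

theorem qq_smul_left (g X Z : Matrix (Fin n) (Fin n) ℂ) (c : ℂ) :
    qq g (c • X) Z = c * qq g X Z := by
  simp only [qq, Matrix.mul_smul, Matrix.smul_mul, Matrix.trace_smul, smul_eq_mul]
  ring

theorem qq_smul_right (g X Z : Matrix (Fin n) (Fin n) ℂ) (c : ℂ) :
    qq g X (c • Z) = c * qq g X Z := by
  simp only [qq, Matrix.mul_smul, Matrix.trace_smul, smul_eq_mul]
  ring

theorem qq_add_left (g X X' Z : Matrix (Fin n) (Fin n) ℂ) :
    qq g (X + X') Z = qq g X Z + qq g X' Z := by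
  simp only [qq, Matrix.mul_add, Matrix.add_mul, Matrix.trace_add]
  ring

theorem qq_add_right (g X Z Z' : Matrix (Fin n) (Fin n) ℂ) :
    qq g X (Z + Z') = qq g X Z + qq g X Z' := by
  simp only [qq, Matrix.mul_add, Matrix.trace_add]
  ring

theorem qq_sum_left {ι : Type*} (s : Finset ι) (g Z : Matrix (Fin n) (Fin n) ℂ)
    (X : ι → Matrix (Fin n) (Fin n) ℂ) : qq g (∑ i ∈ s, X i) Z = ∑ i ∈ s, qq g (X i) Z := by
  classical
  induction s using Finset.induction_on with
  | empty => simp [qq]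
  | insert a s ha ih => rw [Finset.sum_insert ha, Finset.sum_insert ha, qq_add_left, ih]

theorem qq_zero_left (g Z : Matrix (Fin n) (Fin n) ℂ) : qq g 0 Z = 0 := by
  simp [qq]

theorem qq_comm (g X Z : Matrix (Fin n) (Fin n) ℂ) : qq g X Z = qq g Z X := by
  simp only [qq]
  rw [Matrix.trace_mul_comm (g * X), mul_comm]

theorem qq_conj {g : Matrix (Fin n) (Fin n) ℂ} (hg : g.IsHermitian)
    (X Z : Matrix (Fin n) (Fin n) ℂ) : conj (qq g X Z) = qq g Xᴴ Zᴴ := by
  have h1 : ∀ Y : Matrix (Fin n) (Fin n) ℂ, conj Y.trace = (Yᴴ).trace := fun Y => by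
    rw [Matrix.trace_conjTranspose]; rfl
  have h2 : ∀ Y : Matrix (Fin n) (Fin n) ℂ, conj (g * Y).trace = (g * Yᴴ).trace := fun Y => by
    rw [h1, Matrix.conjTranspose_mul, hg.eq, Matrix.trace_mul_comm]
  have h3 : conj (g * X * (g * Z)).trace = (g * Xᴴ * (g * Zᴴ)).trace := by
    rw [h1]
    simp only [Matrix.conjTranspose_mul, hg.eq]
    rw [← Matrix.mul_assoc, Matrix.trace_mul_comm, Matrix.trace_mul_comm (g * Xᴴ)]
    simp only [Matrix.mul_assoc]
  simp only [qq, map_sub, map_mul, h2, h3]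

/-- change of coordinates -/
theorem qq_pull {g J X Z : Matrix (Fin n) (Fin n) ℂ} :
    qq g (Jᵀ * X * J.map (starRingEnd ℂ)) (Jᵀ * Z * J.map (starRingEnd ℂ)) =
      qq (J.map (starRingEnd ℂ) * g * Jᵀ) X Z := by
  simp only [qq]
  rw [H730.V.trace_pull, H730.V.trace_pull, H730.V.trace_pull2]

end loc

section glob
variable {n : ℕ} {Γ : Type} [Group Γ] {C : Coc n Γ}

/-- twisted form of type `(0,1)` on the covering -/
structure TwF (C : Coc n Γ) (c : Γ → ℂ) (α : Γ → C.I → Cm n → Fin n → ℂ) : Prop where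
  smooth : ∀ γ a, ∀ z ∈ C.Ω a, ∀ l, ContDiffAt ℝ ∞ (fun y => α γ a y l) z
  change : ∀ γ a d, ∀ z ∈ C.O a d,
    α γ a z = (jac C a d z)ᴴ *ᵥ α (γ * C.κ a d z) d (C.T a d z)
  equi : ∀ g γ a, ∀ z ∈ C.Ω a, α (g * γ) a z = c g • α γ a z

/-- twisted `∂`-closed matrix function on the covering -/
structure TwM (C : Coc n Γ) (c : Γ → ℂ) (Z : Γ → C.I → Cm n → Matrix (Fin n) (Fin n) ℂ) :
    Prop where
  smooth : ∀ γ a, ∀ z ∈ C.Ω a, ∀ i j, ContDiffAt ℝ ∞ (fun y => Z γ a y i j) z
  closed : ∀ γ a, ∀ z ∈ C.Ω a, ∀ i k l,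
    dz i (fun y => Z γ a y k l) z = dz k (fun y => Z γ a y i l) z
  change : ∀ γ a d, ∀ z ∈ C.O a d, Z γ a z =
    (jac C a d z)ᵀ * Z (γ * C.κ a d z) d (C.T a d z) * (jac C a d z).map (starRingEnd ℂ)
  equi : ∀ g γ a, ∀ z ∈ C.Ω a, Z (g * γ) a z = c g • Z γ a z

variable {c c' : Γ → ℂ} {α : Γ → C.I → Cm n → Fin n → ℂ}
  {Z : Γ → C.I → Cm n → Matrix (Fin n) (Fin n) ℂ}

theorem TwF.pd_change (hα : TwF C c α) {a d : C.I} {z : Cm n} (hz : z ∈ C.O a d) :
    pd (α 1 a) z = c (C.κ a d z) • ((jac C a d z)ᵀ * pd (α 1 d) (C.T a d z) *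
      (jac C a d z).map (starRingEnd ℂ)) := by
  have hT := T_mem_Ω C hz
  have h1 : pd (α 1 a) z = (jac C a d z)ᵀ * pd (α (C.κ a d z) d) (C.T a d z) *
      (jac C a d z).map (starRingEnd ℂ) := by
    refine pd_comp (T := C.T a d) (T_ev C hz)
      (fun l => (hα.smooth _ d _ hT l).differentiableAt (by simp)) ?_
    filter_upwards [(C.O_open a d).mem_nhds hz, C.κ_loc a d z hz] with y hy hk
    rw [hα.change 1 a d y hy, one_mul, hk]
    rfl
  have h2 : pd (α (C.κ a d z) d) (C.T a d z) = c (C.κ a d z) • pd (α 1 d) (C.T a d z) := by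
    ext r l
    rw [pd, Matrix.of_apply, C2.dz_congr (g := fun y => c (C.κ a d z) * α 1 d y l) r,
      C2.dz_const_mul r _ ((hα.smooth 1 d _ hT l).differentiableAt (by simp))]
    · rfl
    · filter_upwards [(isOpen_Ω C d).mem_nhds hT] with y hy
      have := hα.equi (C.κ a d z) 1 d y hy
      rw [mul_one] at this
      rw [this]
      rfl
  rw [h1, h2, Matrix.mul_smul, Matrix.smul_mul]

theorem TwM.val_change (hZ : TwM C c Z) {a d : C.I} {z : Cm n} (hz : z ∈ C.O a d) :
    Z 1 a z = c (C.κ a d z) • ((jac C a d z)ᵀ * Z 1 d (C.T a d z) *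
      (jac C a d z).map (starRingEnd ℂ)) := by
  have := hZ.equi (C.κ a d z) 1 d _ (T_mem_Ω C hz)
  rw [mul_one] at this
  rw [hZ.change 1 a d z hz, one_mul, this, Matrix.mul_smul, Matrix.smul_mul]

/-- the density -/
def qD (K : KM C) (α : Γ → C.I → Cm n → Fin n → ℂ) (Z : Γ → C.I → Cm n → Matrix (Fin n) (Fin n) ℂ)
    (a : C.I) (z : Cm n) : ℝ := (qq (K.w a z)⁻¹ (pd (α 1 a) z) (Z 1 a z)).re

theorem g_change (K : KM C) {a d : C.I} {z : Cm n} (hz : z ∈ C.O a d) :
    (jac C a d z).map (starRingEnd ℂ) * (K.w a z)⁻¹ * (jac C a d z)ᵀ = (K.w d (C.T a d z))⁻¹ :=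
  H730.V.inv_law (KU_det (K.ku a) (O_sub_Ω C hz)) (K.change a d z hz)

theorem mc_pd' (hα : TwF C c α) (γ : Γ) {a : C.I} {z : Cm n} (hz : z ∈ C.Ω a) :
    MC ∞ (pd (α γ a)) z :=
  fun r l => contDiffAt_dz (m := ∞) r (hα.smooth γ a z hz l) (by norm_num)

theorem qq_smooth {g X Z : Cm n → Matrix (Fin n) (Fin n) ℂ} {z : Cm n} (hg : MC ∞ g z)
    (hX : MC ∞ X z) (hZ : MC ∞ Z z) : ContDiffAt ℝ ∞ (fun y => qq (g y) (X y) (Z y)) z :=
  ((hg.mul hX).trace.mul (hg.mul hZ).trace).sub (((hg.mul hX).mul (hg.mul hZ)).trace)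

theorem qD_BD (K : KM C) (hα : TwF C c α) (hZ : TwM C c' Z) (hc : ∀ g, c g * c' g = 1) :
    BD C (qD K α Z) where
  cont a z hz := by
    refine ContinuousAt.continuousWithinAt ?_
    exact (re_smooth (qq_smooth (KU_inv (K.ku a) hz) (mc_pd' hα 1 hz)
      (fun i j => hZ.smooth 1 a z hz i j))).continuousAt
  compat a d z hz _ _ := by
    rw [qD, qD, hα.pd_change hz, hZ.val_change hz, qq_smul_left, qq_smul_right, ← mul_assoc, hc,
      one_mul, qq_pull, g_change K hz]

/-- the form cut off by the partition of unity -/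
def cutT (P : PU C) (α : Γ → C.I → Cm n → Fin n → ℂ) (d : C.I) (γ : Γ) (a : C.I) (z : Cm n)
    (l : Fin n) : ℂ := (P.χ d a z : ℂ) * α γ a z l

theorem cutT_TwF (P : PU C) (hα : TwF C c α) (d : C.I) : TwF C c (cutT P α d) where
  smooth γ a z hz l := (contDiffAt_ofReal (P.smooth d a z hz)).mul (hα.smooth γ a z hz l)
  change γ a e z hz := by
    have h1 : ∀ γ a z, cutT P α d γ a z = (P.χ d a z : ℂ) • α γ a z := fun γ a z => rfl
    rw [h1, h1, P.compat d a e z hz, hα.change γ a e z hz, Matrix.mulVec_smul]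
  equi g γ a z hz := by
    have h1 : ∀ γ a z, cutT P α d γ a z = (P.χ d a z : ℂ) • α γ a z := fun γ a z => rfl
    rw [h1, h1, hα.equi g γ a z hz, smul_comm]

theorem pd_cutT (P : PU C) (hα : TwF C c α) {a : C.I} {z : Cm n} (hz : z ∈ C.Ω a) :
    pd (α 1 a) z = ∑ d, pd (cutT P α d 1 a) z := by
  ext r l
  rw [Matrix.sum_apply]
  simp only [pd, Matrix.of_apply]
  rw [← C2.dz_sum r Finset.univ fun d _ =>
    ((cutT_TwF P hα d).smooth 1 a z hz l).differentiableAt (by simp)]
  refine C2.dz_congr r ?_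
  filter_upwards [(isOpen_Ω C a).mem_nhds hz] with y hy
  simp only [cutT]
  rw [← Finset.sum_mul]
  have h1 : (∑ b, (P.χ b a y : ℂ)) = 1 := by exact_mod_cast P.sum_one a y hy
  rw [h1, one_mul]

theorem int_cutT (P : PU C) (K : KM C) (hα : TwF C c α) (hZ : TwM C c' Z)
    (hc : ∀ g, c g * c' g = 1) (d : C.I) : BInt P K (qD K (cutT P α d) Z) = 0 := by
  have hcF := cutT_TwF P hα d
  rw [(qD_BD K hcF hZ hc).piece P K d]
  · set A : Cm n → Fin n → ℂ := (C.Ω d).indicator (cutT P α d 1 d) with hA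
    have hAin : ∀ z ∈ C.Ω d, A z = cutT P α d 1 d z := fun z hz => indicator_of_mem hz _
    have hAev : ∀ z ∈ C.Ω d, ∀ l, (fun y => A y l) =ᶠ[𝓝 z] fun y => cutT P α d 1 d y l := by
      intro z hz l
      filter_upwards [(isOpen_Ω C d).mem_nhds hz] with y hy
      rw [hAin y hy]
    have h1 := pp_local (U := C.V d) (KU_V K d) (Z := Z 1 d)
      (fun z hz => hZ.smooth 1 d z (V_sub_Ω C d hz)) (fun z hz => hZ.closed 1 d z (V_sub_Ω C d hz))
      (a := A) (K := P.K d) (P.compactK d) (P.K_sub d)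
      (fun z hz l => (hcF.smooth 1 d z (V_sub_Ω C d hz) l).congr_of_eventuallyEq
        (hAev z (V_sub_Ω C d hz) l)) (fun z hz l => ?_)
    · rw [← h1]
      refine setIntegral_congr_fun measurableSet_ball fun z hz => ?_
      have h2 : pd A z = pd (cutT P α d 1 d) z := by
        ext r l
        exact C2.dz_congr r (hAev z (V_sub_Ω C d hz) l)
      simp only [qD, h2]
    · by_cases hz' : z ∈ C.Ω d
      · rw [hAin z hz']
        have h0 : P.χ d d z = 0 := by
          by_contra h0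
          have h2 := (P.supp d d z hz' h0).2
          rw [C.T_self d z (mem_O_self C hz')] at h2
          exact hz h2
        rw [cutT, h0]
        simp
      · rw [hA, indicator_of_notMem hz']
        rfl
  · intro a z hz hne
    by_contra hn
    have hn' : ¬ (z ∈ C.O a d ∧ C.T a d z ∈ P.K d) := fun h => hn ⟨h.1, P.K_sub d h.2⟩
    apply hne
    have e := chi_ev P d (V_sub_Ω C a hz) hn'
    have h0 : pd (cutT P α d 1 a) z = 0 := by
      ext r l
      rw [pd, Matrix.of_apply, C2.dz_congr (g := fun _ => 0) r, C2.dz_const]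
      · rfl
      · filter_upwards [e] with y hy
        rw [cutT, hy]
        simp
    rw [qD, h0, qq_zero_left, Complex.zero_re]

/-- **The polarised Piola identity on the base.** -/
theorem pp_glob (P : PU C) (K : KM C) (hα : TwF C c α) (hZ : TwM C c' Z)
    (hc : ∀ g, c g * c' g = 1) : BInt P K (qD K α Z) = 0 := by
  have h1 : ∀ a, ∀ z ∈ C.V a, qD K α Z a z = ∑ d, qD K (cutT P α d) Z a z := by
    intro a z hz
    simp only [qD]
    rw [pd_cutT P hα (V_sub_Ω C a hz), qq_sum_left, Complex.re_sum]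
  rw [BInt_congr P K h1, BInt_sum P K Finset.univ fun d _ => qD_BD K (cutT_TwF P hα d) hZ hc]
  exact Finset.sum_eq_zero fun d _ => int_cutT P K hα hZ hc d

end glob

end Vale.Agent.P284.H66.TK
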