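import Vale.Agent.P284.H66.TwK
import Vale.Agent.P284.H409.SpecA

/-!
# P284, theorem A: the twisted Kähler identity, inequality form (row A2)
-/

open scoped Manifold ContDiff Topology Pointwise ComplexConjugate ComplexOrder Matrix
open Filter Set Metric MeasureTheory

noncomputable section

namespace Vale.Agent.P284.H66.TK

open Vale.Agent.P272.K Vale.Agent.P272.K.C2 Vale.Agent.P284.H248 Vale.Agent.P284.H894
  Vale.Agent.P284.H894.V Vale.Agent.P284.H639.V Vale.Agent.P284.H66 Vale.Agent.P284.H913.V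
  Vale.Agent.P284.H66.S7

section alg
variable {n : ℕ}

theorem rk_pull (J : Matrix (Fin n) (Fin n) ℂ) (a b : Fin n → ℂ) :
    rk (Jᵀ *ᵥ a) (Jᵀ *ᵥ b) = Jᵀ * rk a b * J.map (starRingEnd ℂ) := by
  ext j k
  simp only [rk, Matrix.of_apply, Matrix.mul_apply, Matrix.mulVec, dotProduct,
    Matrix.transpose_apply, Matrix.map_apply, map_sum, map_mul, Finset.sum_mul, Finset.mul_sum]
  exact Finset.sum_congr rfl fun p _ => Finset.sum_congr rfl fun q _ => by ring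

theorem WE_pull (g J : Matrix (Fin n) (Fin n) ℂ) (a b : Fin n → ℂ) :
    WE g (Jᵀ *ᵥ b) (Jᵀ *ᵥ a) = WE (J.map (starRingEnd ℂ) * g * Jᵀ) b a := by
  simp only [WE, ipg, H730.V.S_pull]

theorem WE_smul (g : Matrix (Fin n) (Fin n) ℂ) (c : ℂ) (a b : Fin n → ℂ) :
    WE g b (c • a) = ‖c‖ ^ 2 * WE g b a := by
  simp only [WE, ip_smul_left, ip_smul_right]
  have h1 : conj c * (c * ipg g a a) = ((‖c‖ ^ 2 : ℝ) : ℂ) * ipg g a a := by
    rw [← mul_assoc, mul_comm (conj c), Complex.mul_conj, Complex.normSq_eq_norm_sq]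
  rw [h1, Complex.re_ofReal_mul, norm_mul, mul_pow]
  ring

theorem rk_smul_left (c : ℂ) (a b : Fin n → ℂ) : rk (c • a) b = c • rk a b := by
  ext j k
  simp only [rk, Matrix.of_apply, Matrix.smul_apply, Pi.smul_apply, smul_eq_mul]
  ring

theorem rk_smul_right (c : ℂ) (a b : Fin n → ℂ) : rk a (c • b) = conj c • rk a b := by
  ext j k
  simp only [rk, Matrix.of_apply, Matrix.smul_apply, Pi.smul_apply, smul_eq_mul, map_mul]
  ring

theorem ipg_smooth {g : Cm n → Matrix (Fin n) (Fin n) ℂ} {a b : Cm n → Fin n → ℂ} {z : Cm n}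
    (hg : MC ∞ g z) (ha : ∀ j, ContDiffAt ℝ ∞ (fun y => a y j) z)
    (hb : ∀ j, ContDiffAt ℝ ∞ (fun y => b y j) z) :
    ContDiffAt ℝ ∞ (fun y => ipg (g y) (a y) (b y)) z := by
  simp only [ipg, H730.V.S]
  exact ContDiffAt.sum fun j _ => ContDiffAt.sum fun k _ =>
    ((hg k j).mul (ha j)).mul (C2.contDiffAt_conj (hb k))

end alg

section glob
variable {n : ℕ} {Γ : Type} [Group Γ] {C : Coc n Γ}
variable {χ f : Γ → ℂ} {ψ : Γ → C.I → Cm n → ℝ} {u : Γ → C.I → Cm n → ℂ}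

theorem d1_smooth (hu : Tw C χ f u) (γ : Γ) {a : C.I} {z : Cm n} (hz : z ∈ C.Ω a) (j : Fin n) :
    ContDiffAt ℝ ∞ (fun y => d1 (u γ a) y j) z :=
  contDiffAt_dz (m := ∞) j (hu.smooth γ a z hz) (by norm_num)

theorem d1_smoothR (hψ : Psi C χ ψ) (γ : Γ) {a : C.I} {z : Cm n} (hz : z ∈ C.Ω a) (j : Fin n) :
    ContDiffAt ℝ ∞ (fun y => d1 (rc (ψ γ a)) y j) z :=
  contDiffAt_dz (m := ∞) j (rc_smooth (hψ.smooth γ a z hz)) (by norm_num)

theorem Tw.d1_base (hu : Tw C χ f u) {a d : C.I} {z : Cm n} (hz : z ∈ C.O a d) :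
    d1 (u 1 a) z = χ (C.κ a d z) • ((jac C a d z)ᵀ *ᵥ d1 (u 1 d) (C.T a d z)) := by
  have h1 : d1 (u (C.κ a d z) d) (C.T a d z) = χ (C.κ a d z) • d1 (u 1 d) (C.T a d z) := by
    ext j
    have := hu.dz_equi (C.κ a d z) 1 (T_mem_Ω C hz) j
    rw [mul_one] at this
    exact this
  rw [hu.d1_change 1 hz, one_mul, h1, Matrix.mulVec_smul]

theorem Psi.d1_base (hψ : Psi C χ ψ) {a d : C.I} {z : Cm n} (hz : z ∈ C.O a d) :
    d1 (rc (ψ 1 a)) z = (jac C a d z)ᵀ *ᵥ d1 (rc (ψ 1 d)) (C.T a d z) := by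
  have h1 := hψ.d1_equi (C.κ a d z) 1 (T_mem_Ω C hz)
  rw [mul_one] at h1
  rw [hψ.d1_change 1 hz, one_mul, h1]

theorem Psi.exp_base (hψ : Psi C χ ψ) {a d : C.I} {z : Cm n} (hz : z ∈ C.O a d) :
    Real.exp (-2 * ψ 1 a z) =
      (‖χ (C.κ a d z)‖ ^ 2)⁻¹ * Real.exp (-2 * ψ 1 d (C.T a d z)) := by
  have h1 := hψ.exp_equi (C.κ a d z) 1 (T_mem_Ω C hz)
  rw [mul_one] at h1
  rw [hψ.compat 1 a d z hz, one_mul, h1]

theorem char_sq (hψ : Psi C χ ψ) (g : Γ) (x : ℝ) : (‖χ g‖ ^ 2)⁻¹ * (‖χ g‖ ^ 2 * x) = x := by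
  have h0 : (‖χ g‖ ^ 2) ≠ 0 := by
    have := norm_pos_iff.2 (hψ.ne g)
    positivity
  rw [← mul_assoc, inv_mul_cancel₀ h0, one_mul]

theorem TT_change (hψ : Psi C χ ψ) (hu : Tw C χ f u) {a d : C.I} {z : Cm n} (hz : z ∈ C.O a d) :
    TT (ψ 1 a) (u 1 a) z = χ (C.κ a d z) • ((jac C a d z)ᵀ * TT (ψ 1 d) (u 1 d) (C.T a d z) *
      (jac C a d z).map (starRingEnd ℂ)) := by
  have hO := O_sub_Ω C hz
  have hT := T_mem_Ω C hz
  have h1 := (VV_TwM hu.conj).val_change hz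
  simp only [cju_cju, Complex.conj_conj] at h1
  rw [TT_eq (hψ.smooth 1 a z hO) (hu.smooth 1 a z hO), TT_eq (hψ.smooth 1 d _ hT)
    (hu.smooth 1 d _ hT), h1, hu.d1_base hz, hψ.d1_base hz, hu.conj.d1_base hz, rk_smul_left,
    rk_smul_right, rk_pull, rk_pull, Complex.conj_conj]
  simp only [Matrix.mul_sub, Matrix.sub_mul, smul_sub]

theorem TT_smooth (hψ : Psi C χ ψ) (hu : Tw C χ f u) {a : C.I} {z : Cm n} (hz : z ∈ C.Ω a) :
    MC ∞ (TT (ψ 1 a) (u 1 a)) z := by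
  intro j k
  have hus := hu.smooth 1 a z hz
  have hps := rc_smooth (hψ.smooth 1 a z hz)
  exact ((contDiffAt_dz (m := ∞) j (contDiffAt_dzb (m := ∞) k hus (by norm_num))
    (by norm_num)).sub ((contDiffAt_dz (m := ∞) j hus (by norm_num)).mul
      (contDiffAt_dzb (m := ∞) k hps (by norm_num)))).sub
      ((contDiffAt_dz (m := ∞) j hps (by norm_num)).mul
        (contDiffAt_dzb (m := ∞) k hus (by norm_num)))

theorem tau_smooth (K : KM C) (hψ : Psi C χ ψ) (hu : Tw C χ f u) {a : C.I} {z : Cm n}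
    (hz : z ∈ C.Ω a) : ContDiffAt ℝ ∞ (tau (K.w a) (ψ 1 a) (u 1 a)) z :=
  ((KU_inv (K.ku a) hz).mul (TT_smooth hψ hu hz)).trace

theorem tau_change (K : KM C) (hψ : Psi C χ ψ) (hu : Tw C χ f u) {a d : C.I} {z : Cm n}
    (hz : z ∈ C.O a d) : tau (K.w a) (ψ 1 a) (u 1 a) z =
      χ (C.κ a d z) * tau (K.w d) (ψ 1 d) (u 1 d) (C.T a d z) := by
  rw [tau, TT_change hψ hu hz, Matrix.mul_smul, Matrix.trace_smul, H730.V.trace_pull,
    g_change K hz, smul_eq_mul]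
  rfl

theorem exp_cont (hψ : Psi C χ ψ) (a : C.I) :
    ContinuousOn (fun z => Real.exp (-2 * ψ 1 a z)) (C.Ω a) := fun z hz =>
  (exp_smooth (hψ.smooth 1 a z hz)).continuousAt.continuousWithinAt

/-- `e^{-2ψ} |τ|²` -/
theorem tau_BD (K : KM C) (hψ : Psi C χ ψ) (hu : Tw C χ f u) :
    BD C (fun a z => Real.exp (-2 * ψ 1 a z) * ‖tau (K.w a) (ψ 1 a) (u 1 a) z‖ ^ 2) where
  cont a := (exp_cont hψ a).mul (ContinuousOn.pow (ContinuousOn.norm fun z hz =>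
    (tau_smooth K hψ hu hz).continuousAt.continuousWithinAt) 2)
  compat a d z hz _ _ := by
    rw [tau_change K hψ hu hz, hψ.exp_base hz, norm_mul, mul_pow, mul_assoc,
      mul_left_comm (Real.exp _), char_sq hψ]

/-- `e^{-2ψ} |T|²` -/
theorem nT_BD (K : KM C) (hψ : Psi C χ ψ) (hu : Tw C χ f u) :
    BD C (fun a z => Real.exp (-2 * ψ 1 a z) * nT (K.w a) (ψ 1 a) (u 1 a) z) where
  cont a := (exp_cont hψ a).mul fun z hz => by
    have h1 := TT_smooth hψ hu hz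
    have h2 : MC ∞ (fun y => (TT (ψ 1 a) (u 1 a) y)ᴴ) z := fun j k => C2.contDiffAt_conj (h1 k j)
    have hg := KU_inv (K.ku a) hz
    exact (re_smooth (((hg.mul h1).mul (hg.mul h2)).trace)).continuousAt.continuousWithinAt
  compat a d z hz _ _ := by
    have h1 := TT_change hψ hu hz
    have h2 : (TT (ψ 1 a) (u 1 a) z)ᴴ = conj (χ (C.κ a d z)) • ((jac C a d z)ᵀ *
        (TT (ψ 1 d) (u 1 d) (C.T a d z))ᴴ * (jac C a d z).map (starRingEnd ℂ)) := by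
      have h5 : ((jac C a d z).map (starRingEnd ℂ))ᴴ = (jac C a d z)ᵀ := by
        ext i j
        simp
      have h6 : ((jac C a d z)ᵀ)ᴴ = (jac C a d z).map (starRingEnd ℂ) := by
        ext i j
        simp
      rw [h1, Matrix.conjTranspose_smul, Matrix.conjTranspose_mul, Matrix.conjTranspose_mul, h5,
        h6, Matrix.mul_assoc, ← Matrix.mul_assoc]
      rfl
    simp only [nT]
    rw [h2, h1]
    simp only [Matrix.mul_smul, Matrix.smul_mul, Matrix.trace_smul]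
    rw [H730.V.trace_pull2, g_change K hz, smul_eq_mul, smul_eq_mul, ← mul_assoc]
    have h3 : conj (χ (C.κ a d z)) * χ (C.κ a d z) = ((‖χ (C.κ a d z)‖ ^ 2 : ℝ) : ℂ) := by
      rw [mul_comm, Complex.mul_conj, Complex.normSq_eq_norm_sq]
    rw [h3, Complex.re_ofReal_mul, hψ.exp_base hz, mul_assoc, mul_left_comm (Real.exp _), 
      char_sq hψ]

/-- `e^{-2ψ} |∂ψ ∧ ∂u|²` -/
theorem W1_BD (K : KM C) (hψ : Psi C χ ψ) (hu : Tw C χ f u) :
    BD C (fun a z => Real.exp (-2 * ψ 1 a z) * W1 (K.w a) (ψ 1 a) (u 1 a) z) where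
  cont a := (exp_cont hψ a).mul fun z hz => by
    have hg := KU_inv (K.ku a) hz
    have hA := d1_smooth hu 1 hz
    have hb := d1_smoothR hψ 1 hz
    have h1 := (re_smooth (ipg_smooth hg hb hb)).continuousAt
    have h2 := (re_smooth (ipg_smooth hg hA hA)).continuousAt
    have h3 := (ipg_smooth hg hA hb).continuousAt
    exact ((h1.mul h2).sub (h3.norm.pow 2)).continuousWithinAt
  compat a d z hz _ _ := by
    simp only [W1]
    rw [hu.d1_base hz, hψ.d1_base hz, WE_smul, WE_pull, g_change K hz, hψ.exp_base hz, mul_assoc,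
      mul_left_comm (Real.exp _), char_sq hψ]

theorem W2_eq (w : Cm n → Matrix (Fin n) (Fin n) ℂ) (ψ : Cm n → ℝ) (u : Cm n → ℂ) (z : Cm n) :
    W2 w ψ u z = W1 w ψ (cju u) z := rfl

/-- `e^{-2ψ} |∂̄ψ ∧ ∂̄u|²` -/
theorem W2_BD (K : KM C) (hψ : Psi C χ ψ) (hu : Tw C χ f u) :
    BD C (fun a z => Real.exp (-2 * ψ 1 a z) * W2 (K.w a) (ψ 1 a) (u 1 a) z) := by
  have h := W1_BD K hψ.conj hu.conj
  simp only [W2_eq]
  exact h

theorem W1_nonneg (K : KM C) (ψ : Cm n → ℝ) (u : Cm n → ℂ) {a : C.I} {z : Cm n} (hz : z ∈ C.Ω a) :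
    0 ≤ W1 (K.w a) ψ u z := WE_nonneg ((K.ku a).pos z hz).inv _ _

theorem BInt_nn (P : PU C) (K : KM C) {F : C.I → Cm n → ℝ} (h : ∀ a, ∀ z ∈ C.V a, 0 ≤ F a z) :
    0 ≤ BInt P K F := by
  unfold BInt
  refine Finset.sum_nonneg fun a _ => setIntegral_nonneg measurableSet_ball fun z hz => ?_
  have hzΩ := V_sub_Ω C a hz
  exact mul_nonneg (mul_nonneg (P.nonneg a a z) (h a z hz)) (H913.V.vol_nn K hzΩ)

/-- **The twisted Kähler identity, inequality form.** -/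
theorem twK_le (P : PU C) (K : KM C) (hψ : Psi C χ ψ) (hu : Tw C χ f u) :
    BInt P K (fun a z => Real.exp (-2 * ψ 1 a z) *
      (W1 (K.w a) (ψ 1 a) (u 1 a) z + W2 (K.w a) (ψ 1 a) (u 1 a) z)) ≤
    BInt P K (fun a z => Real.exp (-2 * ψ 1 a z) * ‖tau (K.w a) (ψ 1 a) (u 1 a) z‖ ^ 2) := by
  have hW1 := W1_BD K hψ hu
  have hW2 := W2_BD K hψ hu
  have hnT := nT_BD K hψ hu
  have e1 : BInt P K (fun a z => Real.exp (-2 * ψ 1 a z) * ‖tau (K.w a) (ψ 1 a) (u 1 a) z‖ ^ 2) =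
      BInt P K (twD K ψ u) + BInt P K (fun a z => Real.exp (-2 * ψ 1 a z) *
        nT (K.w a) (ψ 1 a) (u 1 a) z) + BInt P K (fun a z => Real.exp (-2 * ψ 1 a z) *
      (W1 (K.w a) (ψ 1 a) (u 1 a) z + W2 (K.w a) (ψ 1 a) (u 1 a) z)) := by
    have hW : BD C (fun a z => Real.exp (-2 * ψ 1 a z) *
      (W1 (K.w a) (ψ 1 a) (u 1 a) z + W2 (K.w a) (ψ 1 a) (u 1 a) z)) := by
      have := BD_add hW1 hW2
      simpa only [mul_add] using this
    have h2 := BD_add (BD_add (tau_BD K hψ hu) (BD_smul' hnT (-1))) (BD_smul' hW (-1))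
    have h3 : BInt P K (twD K ψ u) = BInt P K (fun a z => (Real.exp (-2 * ψ 1 a z) *
        ‖tau (K.w a) (ψ 1 a) (u 1 a) z‖ ^ 2 + (-1) * (Real.exp (-2 * ψ 1 a z) *
        nT (K.w a) (ψ 1 a) (u 1 a) z)) + (-1) * (Real.exp (-2 * ψ 1 a z) *
      (W1 (K.w a) (ψ 1 a) (u 1 a) z + W2 (K.w a) (ψ 1 a) (u 1 a) z))) :=
      BInt_congr P K fun a z _ => by
        rw [twD]
        ring
    rw [h3, BInt_add P K (BD_add (tau_BD K hψ hu) (BD_smul' hnT (-1))) (BD_smul' hW (-1)),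
      BInt_add P K (tau_BD K hψ hu) (BD_smul' hnT (-1)), BInt_smul, BInt_smul]
    ring
  have h1 : 0 ≤ BInt P K (fun a z => Real.exp (-2 * ψ 1 a z) *
        nT (K.w a) (ψ 1 a) (u 1 a) z) := BInt_nn P K fun a z hz =>
    mul_nonneg (Real.exp_nonneg _) (nT_nonneg ((K.ku a).pos z (V_sub_Ω C a hz)).inv _)
  rw [e1, twK P K hψ hu]
  linarith

end glob

/-! ### the row of the spec -/

theorem tau_spec {n : ℕ} (w : Cm n → Matrix (Fin n) (Fin n) ℂ) (ψ : Cm n → ℝ) (u : Cm n → ℂ)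
    (z : Cm n) : H409.A.tau w ψ u z = tau w ψ u z := by
  simp only [H409.A.tau, tau, Matrix.trace, Matrix.diag_apply, Matrix.mul_apply, TT,
    Matrix.of_apply]
  rw [Finset.sum_comm]
  rfl

theorem W1_spec {n : ℕ} (w : Cm n → Matrix (Fin n) (Fin n) ℂ) (ψ : Cm n → ℝ) (u : Cm n → ℂ)
    (z : Cm n) : H409.A.W1 w ψ u z = W1 w ψ u z := rfl

theorem W2_spec {n : ℕ} (w : Cm n → Matrix (Fin n) (Fin n) ℂ) (ψ : Cm n → ℝ) (u : Cm n → ℂ)
    (z : Cm n) : H409.A.W2 w ψ u z = W2 w ψ u z := rfl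

theorem twKStmt : H409.A.TwKStmt := by
  intro n Γ _ C P K χ f ψ u hψ hu
  have h1 : Psi C χ ψ := ⟨hψ.ne, hψ.smooth, hψ.hess, hψ.compat, hψ.equi⟩
  have h2 : Tw C χ f u := ⟨hu.smooth, hu.compat, hu.equi⟩
  simp only [tau_spec]
  exact twK_le P K h1 h2

end Vale.Agent.P284.H66.TK
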