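import Vale.Agent.P284.H66.FDs3
import Vale.Agent.P284.H894.F.DefsZ
import Mathlib.Analysis.Meromorphic.Order

/-!
# P284 (helper66), FD★, part 4: the pluriharmonic functions with bounded gradient on a covering of a
compact manifold form a finite-dimensional space as soon as the directions of the entire curves of order
at most `ρ` through ONE point of the manifold contain an open set, or only are Zariski dense.
-/

open scoped Manifold ContDiff Topology Pointwise ComplexConjugate ComplexOrder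
open Filter Set Metric MeasureTheory Asymptotics

noncomputable section

namespace Vale.Agent.P284.H66.FDs

open Vale.Agent.P272.K Vale.Agent.P284.H894.V Vale.Agent.P284.H894.F Vale.Agent.P284.H5.V
  Vale.Agent.P284.H894

variable {n : ℕ}

/-! ### Jets -/

/-- the `k`-th term of the Taylor series of `G - G(z₀)` at `z₀`, times `k!` -/
def jet (G : Cm n → ℂ) (z₀ : Cm n) (k : ℕ) (v : Cm n) : ℂ :=
  iteratedDeriv k (fun t : ℂ => G (z₀ + t • v) - G z₀) 0

theorem line_mem {z₀ : Cm n} {r : ℝ} (hr : 0 < r) (v : Cm n) :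
    ∀ᶠ t : ℂ in 𝓝 0, z₀ + t • v ∈ ball z₀ r := by
  have h1 : ContinuousAt (fun t : ℂ => z₀ + t • v) 0 := by fun_prop
  refine h1.eventually (isOpen_ball.mem_nhds ?_)
  simpa using hr

theorem line_analytic {G : Cm n → ℂ} {z₀ : Cm n} {r : ℝ} (hr : 0 < r)
    (hG : DifferentiableOn ℂ G (ball z₀ r)) (v : Cm n) :
    AnalyticAt ℂ (fun t : ℂ => G (z₀ + t • v) - G z₀) 0 := by
  have h1 : AnalyticAt ℂ G (z₀ + (0 : ℂ) • v) := by
    rw [zero_smul, add_zero]
    exact Vale.Agent.P281.MF.analyticAt_of_differentiableOn isOpen_ball hG (mem_ball_self hr)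
  have h2 : AnalyticAt ℂ (fun t : ℂ => z₀ + t • v) 0 := by fun_prop
  exact (AnalyticAt.comp (g := G) (f := fun t : ℂ => z₀ + t • v) (x := 0) h1 h2).sub
    analyticAt_const

theorem jet_add {G₁ G₂ G₃ : Cm n → ℂ} {z₀ : Cm n} {r : ℝ} (hr : 0 < r)
    (h1 : DifferentiableOn ℂ G₁ (ball z₀ r)) (h2 : DifferentiableOn ℂ G₂ (ball z₀ r))
    (h : ∀ z ∈ ball z₀ r, G₃ z - G₃ z₀ = (G₁ z - G₁ z₀) + (G₂ z - G₂ z₀)) (k : ℕ) (v : Cm n) :
    jet G₃ z₀ k v = jet G₁ z₀ k v + jet G₂ z₀ k v := by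
  unfold jet
  rw [← iteratedDeriv_fun_add (line_analytic hr h1 v).contDiffAt
    (line_analytic hr h2 v).contDiffAt]
  refine Filter.EventuallyEq.iteratedDeriv_eq k ?_
  filter_upwards [line_mem hr v] with t ht
  exact h _ ht

theorem jet_smul {G₁ G₃ : Cm n → ℂ} {z₀ : Cm n} {r : ℝ} (hr : 0 < r)
    (h1 : DifferentiableOn ℂ G₁ (ball z₀ r)) (c : ℝ)
    (h : ∀ z ∈ ball z₀ r, G₃ z - G₃ z₀ = c • (G₁ z - G₁ z₀)) (k : ℕ) (v : Cm n) :
    jet G₃ z₀ k v = c • jet G₁ z₀ k v := by
  unfold jet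
  rw [← iteratedDeriv_fun_const_smul (line_analytic hr h1 v).contDiffAt]
  refine Filter.EventuallyEq.iteratedDeriv_eq k ?_
  filter_upwards [line_mem hr v] with t ht
  exact h _ ht

theorem jet_mem {G : Cm n → ℂ} {z₀ : Cm n} {r : ℝ} (hr : 0 < r)
    (hG : DifferentiableOn ℂ G (ball z₀ r)) {k m : ℕ} (hk : k ≤ m) :
    jet G z₀ k ∈ PG n m := by
  have hf := ff_diff hG
  have hz₀ : z₀ ∈ ball z₀ (r / 2) := mem_ball_self (by linarith)
  obtain ⟨-, q, hq⟩ := Vale.Agent.P284.H5.analytic_snd isOpen_ball hf hz₀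
  have h1 : jet G z₀ k = fun v => (k.factorial : ℂ) * q k (fun _ => v) := by
    funext v
    rw [← Vale.Agent.P284.H5.iteratedDeriv_series isOpen_ball hf hz₀ hq k v]
    unfold jet
    simp only [ff_line]
  have h2 : ContDiff ℂ ∞ fun v : Cm n => (k.factorial : ℂ) * q k (fun _ => v) := by
    refine contDiff_const.mul ?_
    exact (q k).contDiff.comp (contDiff_pi.2 fun _ => contDiff_id)
  rw [h1]
  refine ⟨⟨h2.restrict_scalars ℝ, fun z j => dzb_of_holo (h2.differentiable (by simp) z)⟩,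
    k.factorial * ‖q k‖, fun v => ?_⟩
  rw [norm_mul, mul_assoc]
  have h3 : ‖(k.factorial : ℂ)‖ = k.factorial := by simp
  rw [h3]
  refine mul_le_mul_of_nonneg_left ?_ (Nat.cast_nonneg _)
  refine ((q k).le_opNorm _).trans (mul_le_mul_of_nonneg_left ?_ (norm_nonneg _))
  rw [Finset.prod_const, Finset.card_univ, Fintype.card_fin]
  have h4 : ‖v‖ ^ k ≤ (1 + ‖v‖) ^ k :=
    pow_le_pow_left₀ (norm_nonneg v) (by linarith) k
  exact h4.trans (pow_le_pow_right₀ (by linarith [norm_nonneg v]) hk)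

theorem bigO_of_jet {G : Cm n → ℂ} {z₀ : Cm n} {r : ℝ} (hr : 0 < r)
    (hG : DifferentiableOn ℂ G (ball z₀ r)) {q : ℕ} {v : Cm n}
    (h : ∀ k < q, jet G z₀ k v = 0) :
    (fun t : ℂ => G (z₀ + t • v) - G z₀) =O[𝓝 0] fun t : ℂ => t ^ q := by
  have h1 := line_analytic hr hG v
  have h2 := (natCast_le_analyticOrderAt_iff_iteratedDeriv_eq_zero h1).2 h
  obtain ⟨g, hg, he⟩ := (natCast_le_analyticOrderAt h1).1 h2
  have h3 : (fun t : ℂ => t ^ q * g t) =O[𝓝 0] fun t : ℂ => t ^ q * 1 :=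
    (isBigO_refl _ _).mul (hg.continuousAt.tendsto.isBigO_one ℂ)
  refine IsBigO.congr' h3 ?_ (Eventually.of_forall fun t => mul_one _)
  filter_upwards [he] with t ht
  rw [ht, sub_zero, smul_eq_mul]

/-! ### The curves -/

section
variable {X : Type} [TopologicalSpace X] [ChartedSpace (Cm n) X] [IsManifold 𝓘(ℂ, Cm n) ω X]
  {E : Type} [TopologicalSpace E]
  {p : E → X} {w : Chart n X → Cm n → Matrix (Fin n) (Fin n) ℂ} {u : E → ℝ} {B : ℝ}
  {f : ℂ → X}

/-- The Taylor expansion of `G ∘ τ` is that of an entire function with derivative of polynomial growth. -/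
theorem curve_match (hw : IsHermitian w) (hp : IsCoveringMap p) (hu : IsPHB p w u B) {y₀ : E}
    {v : Cm n} {ρ : ℝ} (hf : FiniteOrderCurve w (p y₀) v ρ f) {r : ℝ} {σ : Cm n → E}
    (hσ : LSec p (chartAt (Cm n) (p y₀)) y₀ r σ) {G : Cm n → ℂ}
    (hG : DifferentiableOn ℂ G (ball (chartAt (Cm n) (p y₀) (p y₀)) r))
    (hGr : ∀ z ∈ ball (chartAt (Cm n) (p y₀) (p y₀)) r, (G z).re = u (σ z)) {m : ℕ}
    (hm : ρ ≤ 2 * m) :
    ∃ (τ : ℂ → Cm n) (A : ℂ → ℂ) (C : ℝ), HasDerivAt τ v 0 ∧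
      τ 0 = chartAt (Cm n) (p y₀) (p y₀) ∧
      Differentiable ℂ A ∧ (∀ t, ‖deriv A t‖ ≤ C * (1 + ‖t‖) ^ m) ∧
      ∀ᶠ t in 𝓝 (0 : ℂ), G (τ t) - G (chartAt (Cm n) (p y₀) (p y₀)) = A t - A 0 := by
  obtain ⟨F, ⟨hF0, hpF'⟩, -⟩ :=
    hp.existsUnique_continuousMap_lifts ⟨f, hf.holo.continuous⟩ 0 y₀ hf.base.symm
  have hpF : ∀ t, p (F t) = f t := fun t => congrFun hpF' t
  obtain ⟨A, hA, hAr, hAB⟩ := exists_entire hw hu F.continuous hpF hf.holo
  have hAt : At (chartAt (Cm n) (p y₀)) (f 0) := by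
    rw [hf.base]
    exact at_chartAt _
  set e := chartAt (Cm n) (p y₀) with he
  have hτ := tau_sm hf.holo hAt
  have hd : HasDerivAt (fun t => e (f t)) v 0 := by
    have h1 : deriv (fun t => e (f t)) 0 = v := by
      rw [← vel_eq hf.holo hAt]
      funext k
      exact hf.vel k
    rw [← h1]
    exact (hτ.differentiableAt (by simp)).hasDerivAt
  have h0 : e (f 0) = e (p y₀) := by rw [hf.base]
  -- growth
  obtain ⟨C, hC⟩ := hf.order
  have hsc := speed_continuous hw hf.holo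
  have hsn := speed_nonneg hw hf.holo
  have hdA : Continuous (deriv A) := by
    have h2 : ContDiff ℂ 1 A := hA.contDiff
    exact h2.continuous_deriv le_rfl
  have hint : ∀ {g : ℂ → ℝ}, Continuous g → ∀ r : ℝ, IntegrableOn g (ball (0 : ℂ) r) :=
    fun hg r => (hg.continuousOn.integrableOn_compact
      (isCompact_closedBall 0 r)).mono_set ball_subset_closedBall
  obtain ⟨C', hC'⟩ := growth hA (C := 2 * |B| * C) (ρ := ρ) (fun r hr => by
    calc ∫ t in ball (0 : ℂ) r, ‖deriv A t‖ ^ 2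
        ≤ ∫ t in ball (0 : ℂ) r, 2 * |B| * speedSq w f t := by
          refine setIntegral_mono_on (hint (hdA.norm.pow 2) r)
            (hint (continuous_const.mul hsc) r) measurableSet_ball fun t _ => ?_
          refine (hAB t).trans ?_
          exact mul_le_mul_of_nonneg_right
            (mul_le_mul_of_nonneg_left (le_abs_self B) (by norm_num)) (hsn t)
      _ = 2 * |B| * ∫ t in ball (0 : ℂ) r, speedSq w f t := integral_const_mul _ _
      _ ≤ 2 * |B| * (C * r ^ ρ) := mul_le_mul_of_nonneg_left (hC r hr) (by positivity)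
      _ = _ := by ring) hm
  refine ⟨fun t => e (f t), A, C', hd, h0, hA, hC', ?_⟩
  -- matching
  have h1 : ∀ᶠ t in 𝓝 (0 : ℂ), e (f t) ∈ ball (e (p y₀)) r := by
    refine hτ.continuousAt.eventually (isOpen_ball.mem_nhds ?_)
    show e (f 0) ∈ ball (e (p y₀)) r
    rw [h0]
    exact mem_ball_self hσ.pos
  have h2 : ∀ᶠ t in 𝓝 (0 : ℂ), σ (e (p (F t))) = F t := by
    have h3 : Tendsto F (𝓝 0) (𝓝 y₀) := by
      have := F.continuous.tendsto 0
      rwa [hF0] at this
    exact h3.eventually hσ.near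
  have h3 : ∀ᶠ t in 𝓝 (0 : ℂ), DifferentiableAt ℂ (fun t => e (f t)) t := by
    filter_upwards [hτ.eventually (by simp)] with t ht
    exact ht.differentiableAt (by simp)
  obtain ⟨δ, hδ, hb⟩ := Metric.eventually_nhds_iff_ball.1 (h1.and (h2.and h3))
  have h4 : ∀ t ∈ ball (0 : ℂ) δ, DifferentiableAt ℂ (fun t => G (e (f t)) - A t) t := by
    intro t ht
    obtain ⟨ha, -, hc⟩ := hb t ht
    have h5 : DifferentiableAt ℂ G (e (f t)) := hG.differentiableAt (isOpen_ball.mem_nhds ha)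
    exact (DifferentiableAt.comp (g := G) t h5 hc).sub (hA t)
  have h5 : ∀ t ∈ ball (0 : ℂ) δ, (G (e (f t)) - A t).re = 0 := by
    intro t ht
    obtain ⟨ha, hb', -⟩ := hb t ht
    rw [Complex.sub_re, hGr _ ha, hAr, ← hpF t, hb', sub_self]
  have h6 : ∀ t ∈ ball (0 : ℂ) δ, G (e (f t)) - A t = G (e (f 0)) - A 0 := by
    intro t ht
    refine isOpen_ball.is_const_of_deriv_eq_zero (f := fun t => G (e (f t)) - A t)
      (convex_ball (0 : ℂ) δ).isPreconnected
      (fun s hs => (h4 s hs).differentiableWithinAt) ?_ ht (mem_ball_self hδ)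
    intro s hs
    refine deriv_zero_of_re (h4 s hs).hasDerivAt ?_
    filter_upwards [isOpen_ball.mem_nhds hs] with s' hs'
    exact h5 s' hs'
  filter_upwards [ball_mem_nhds (0 : ℂ) hδ] with t ht
  have h7 := h6 t ht
  rw [h0] at h7
  linear_combination h7

end

/-! ### The theorem -/

/-- The pluriharmonic functions with bounded gradient on a covering of a compact manifold form a
finite-dimensional space if the velocities of the entire curves of order at most `ρ` through ONE point of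
the manifold are Zariski dense. -/
theorem fdStarZ {n : ℕ} {X : Type} [TopologicalSpace X] [T2Space X] [CompactSpace X]
    [ConnectedSpace X] [ChartedSpace (Cm n) X] [IsManifold 𝓘(ℂ, Cm n) ω X]
    (w : Chart n X → Cm n → Matrix (Fin n) (Fin n) ℂ) (hw : IsHermitian w) (x : X)
    (h : CurveDense w x) (E : Type) [TopologicalSpace E] [ConnectedSpace E] (p : E → X)
    (hp : IsCoveringMap p) (hs : Function.Surjective p) :
    ∃ V : Submodule ℝ (E → ℝ), FiniteDimensional ℝ V ∧ ∀ u, u ∈ V ↔ ∃ B, IsPHB p w u B := by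
  obtain ⟨y₀, rfl⟩ := hs x
  obtain ⟨ρ, hρ⟩ := h
  obtain ⟨D, hDdef⟩ : ∃ D : Set (Cm n), D = {v | ∃ f, FiniteOrderCurve w (p y₀) v ρ f} := ⟨_, rfl⟩
  have hcv : ∀ v ∈ D, ∃ f, FiniteOrderCurve w (p y₀) v ρ f := fun v hv => by
    rw [hDdef] at hv
    exact hv
  have hD : HomDense D := fun k P hP h0 => hρ k P hP fun v f hf => h0 v (by
    rw [hDdef]
    exact ⟨f, hf⟩)
  obtain ⟨m, hm⟩ : ∃ m : ℕ, ρ ≤ 2 * m := by
    obtain ⟨m, hm⟩ := exists_nat_ge ρ
    exact ⟨m, by have : (0 : ℝ) ≤ m := Nat.cast_nonneg m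
                 linarith⟩
  have hAt : At (chartAt (Cm n) (p y₀)) (p y₀) := at_chartAt _
  obtain ⟨r, σ, hσ⟩ := exists_lsec hp (e := chartAt (Cm n) (p y₀)) hAt.2
  set z₀ : Cm n := chartAt (Cm n) (p y₀) (p y₀) with hz₀
  have hr := hσ.pos
  have hsz : σ z₀ = y₀ := hσ.near.self_of_nhds
  have hex : ∀ u : phb p w, ∃ G : Cm n → ℂ, DifferentiableOn ℂ G (ball z₀ r) ∧
      ∀ z ∈ ball z₀ r, (G z).re = (u : E → ℝ) (σ z) := by
    rintro ⟨u, B, hu⟩
    exact sec_re hu hAt hσ
  choose g hg1 hg2 using hex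
  refine ⟨phb p w, ?_, fun u => Iff.rfl⟩
  have hfin := PG.finite n (m + 1)
  have hadd : ∀ a b : phb p w, ∀ z ∈ ball z₀ r,
      g (a + b) z - g (a + b) z₀ = (g a z - g a z₀) + (g b z - g b z₀) := by
    intro a b z hz
    have h1 := Vale.Agent.P301.H949.const_of_re_zero (D := fun z => g (a + b) z - g a z - g b z)
      isOpen_ball (convex_ball z₀ r) (((hg1 (a + b)).sub (hg1 a)).sub (hg1 b))
      (fun y hy => by
        rw [Complex.sub_re, Complex.sub_re, hg2 _ y hy, hg2 _ y hy, hg2 _ y hy]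
        show ((a : E → ℝ) + (b : E → ℝ)) (σ y) - _ - _ = 0
        rw [Pi.add_apply]
        ring) hz (mem_ball_self hr)
    have h2 : g (a + b) z - g a z - g b z = g (a + b) z₀ - g a z₀ - g b z₀ := h1
    linear_combination h2
  have hsmul : ∀ (c : ℝ) (a : phb p w), ∀ z ∈ ball z₀ r,
      g (c • a) z - g (c • a) z₀ = c • (g a z - g a z₀) := by
    intro c a z hz
    have h1 := Vale.Agent.P301.H949.const_of_re_zero (D := fun z => g (c • a) z - (c : ℂ) * g a z)
      isOpen_ball (convex_ball z₀ r) ((hg1 (c • a)).sub ((hg1 a).const_mul (c : ℂ)))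
      (fun y hy => by
        rw [Complex.sub_re, Complex.re_ofReal_mul, hg2 _ y hy, hg2 _ y hy]
        show (c • (a : E → ℝ)) (σ y) - _ = 0
        rw [Pi.smul_apply, smul_eq_mul]
        ring) hz (mem_ball_self hr)
    have h2 : g (c • a) z - (c : ℂ) * g a z = g (c • a) z₀ - (c : ℂ) * g a z₀ := h1
    rw [Complex.real_smul]
    linear_combination h2
  have hmem : ∀ (a : phb p w) (k : Fin (m + 2)), jet (g a) z₀ k ∈ PG n (m + 1) := fun a k =>
    jet_mem hr (hg1 a) (by omega)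
  let L : phb p w →ₗ[ℝ] (Fin (m + 2) → PG n (m + 1)) × ℝ :=
    { toFun := fun u => (fun k => ⟨_, hmem u k⟩, (u : E → ℝ) y₀)
      map_add' := by
        intro a b
        refine Prod.ext ?_ rfl
        funext k
        refine Subtype.ext ?_
        funext v
        exact jet_add hr (hg1 a) (hg1 b) (hadd a b) k v
      map_smul' := by
        intro c a
        refine Prod.ext ?_ rfl
        funext k
        refine Subtype.ext ?_
        funext v
        exact jet_smul hr (hg1 a) c (hsmul c a) k v }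
  have hL : Function.Injective L := by
    rw [injective_iff_map_eq_zero]
    intro a ha
    have h1 : (a : E → ℝ) y₀ = 0 := congrArg Prod.snd ha
    have h2 : ∀ k < m + 2, ∀ v, jet (g a) z₀ k v = 0 := by
      intro k hk v
      have := congrFun (congrArg Prod.fst ha) ⟨k, hk⟩
      exact congrFun (congrArg Subtype.val this) v
    have hV : Van (m + 2) (ball z₀ (r / 2)) (ff (g a) z₀) :=
      (van_iff hr).2 fun v => bigO_of_jet hr (hg1 a) fun k hk => h2 k hk v
    obtain ⟨B, hB⟩ := a.2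
    have hc := const_of_van hr (hg1 a) hD (fun v hv => by
      obtain ⟨f, hf⟩ := hcv v hv
      exact curve_match hw hp hB hf hσ (hg1 a) (hg2 a) hm) hV
    have h3 : ∀ᶠ y in 𝓝 y₀, (a : E → ℝ) y = (a : E → ℝ) y₀ := by
      have hq : Tendsto (fun y' => chartAt (Cm n) (p y₀) (p y')) (𝓝 y₀) (𝓝 z₀) :=
        (map_nhds_chart hp hAt.2).le
      filter_upwards [hσ.near, hq.eventually (ball_mem_nhds z₀ (half_pos hr))] with y h4 h5
      have h6 : chartAt (Cm n) (p y₀) (p y) ∈ ball z₀ r := ball_subset_ball (by linarith) h5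
      have h7 := congrArg Complex.re (hc _ h5)
      rw [hg2 a _ h6, hg2 a _ (mem_ball_self hr), h4, hsz] at h7
      exact h7
    refine Subtype.ext ?_
    funext y
    rw [eq_const_of_eventually hp hB h3 y, h1]
    rfl
  exact FiniteDimensional.of_injective L hL

section
variable {X : Type} [TopologicalSpace X] [ChartedSpace (Cm n) X]
  {w : Chart n X → Cm n → Matrix (Fin n) (Fin n) ℂ} {x : X}

/-- directions which contain an open set are dense -/
theorem curveDense_of_rich (h : CurveRich w x) : CurveDense w x := by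
  obtain ⟨ρ, D, hD, hc⟩ := h
  refine ⟨ρ, fun k P hP h0 => homDense_of_interior hD k P hP fun v hv => ?_⟩
  obtain ⟨f, hf⟩ := hc v hv
  exact h0 v f hf

/-- a curve of order at most `ρ` is a curve of order at most `ρ' ≥ ρ` -/
theorem order_mono {v : Cm n} {ρ ρ' : ℝ} {f : ℂ → X} (hf : FiniteOrderCurve w x v ρ f)
    (h : ρ ≤ ρ') : FiniteOrderCurve w x v ρ' f := by
  refine ⟨hf.holo, hf.base, hf.vel, ?_⟩
  obtain ⟨C, hC⟩ := hf.order
  refine ⟨|C|, fun r hr => (hC r hr).trans ?_⟩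
  have h1 : (0 : ℝ) ≤ r ^ ρ := Real.rpow_nonneg (by linarith) _
  calc C * r ^ ρ ≤ |C| * r ^ ρ := mul_le_mul_of_nonneg_right (le_abs_self C) h1
    _ ≤ |C| * r ^ ρ' :=
      mul_le_mul_of_nonneg_left (Real.rpow_le_rpow_of_exponent_le hr h) (abs_nonneg C)

/-- The order may depend on the curve: it is enough that every direction in an open set is tangent to an
entire curve of finite order (Baire). -/
theorem curveDense_of_open (h : ∃ D : Set (Cm n), (interior D).Nonempty ∧
    ∀ v ∈ D, ∃ ρ f, FiniteOrderCurve w x v ρ f) : CurveDense w x := by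
  obtain ⟨D, hD, hc⟩ := h
  by_contra hcon
  have h1 : ∀ m : ℕ, ∃ P : MvPolynomial (Fin n) ℂ, P ≠ 0 ∧
      ∀ v f, FiniteOrderCurve w x v (m : ℝ) f → MvPolynomial.eval v P = 0 := by
    intro m
    by_contra hm
    refine hcon ⟨m, fun k P _ h0 => ?_⟩
    by_contra hP
    exact hm ⟨P, hP, h0⟩
  choose P hP0 hP using h1
  have h2 : ∀ m, IsOpen {v : Cm n | MvPolynomial.eval v (P m) ≠ 0} := fun m =>
    isOpen_ne_fun (continuousOn_univ.1 (AnalyticOnNhd.eval_mvPolynomial (𝕜 := ℂ) (P m)).continuousOn)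
      continuous_const
  have h3 : ∀ m, Dense {v : Cm n | MvPolynomial.eval v (P m) ≠ 0} := by
    intro m
    have h4 : interior {v : Cm n | MvPolynomial.eval v (P m) = 0} = ∅ := by
      by_contra h5
      have h6 : AnalyticOnNhd ℂ (fun v : Cm n => MvPolynomial.eval v (P m)) univ :=
        AnalyticOnNhd.eval_mvPolynomial _
      have h7 := entire_zero (L := fun v => MvPolynomial.eval v (P m)) h6.differentiableOn
        (Set.nonempty_iff_ne_empty.2 h5) fun v hv => hv
      exact hP0 m (MvPolynomial.funext fun v => by rw [map_zero]; exact h7 v)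
    exact interior_eq_empty_iff_dense_compl.1 h4
  obtain ⟨v, hv, hv2⟩ := (dense_iInter_of_isOpen h2 h3).inter_open_nonempty _ isOpen_interior hD
  obtain ⟨ρ, f, hf⟩ := hc v (interior_subset hv)
  obtain ⟨m, hm⟩ := exists_nat_ge ρ
  exact (mem_iInter.1 hv2 m) (hP m v f (order_mono hf hm))

end

theorem fdStar {n : ℕ} {X : Type} [TopologicalSpace X] [T2Space X] [CompactSpace X]
    [ConnectedSpace X] [ChartedSpace (Cm n) X] [IsManifold 𝓘(ℂ, Cm n) ω X]
    (w : Chart n X → Cm n → Matrix (Fin n) (Fin n) ℂ) (hw : IsHermitian w) (x : X)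
    (h : CurveRich w x) (E : Type) [TopologicalSpace E] [ConnectedSpace E] (p : E → X)
    (hp : IsCoveringMap p) (hs : Function.Surjective p) :
    ∃ V : Submodule ℝ (E → ℝ), FiniteDimensional ℝ V ∧ ∀ u, u ∈ V ↔ ∃ B, IsPHB p w u B :=
  fdStarZ w hw x (curveDense_of_rich h) E p hp hs

end Vale.Agent.P284.H66.FDs


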