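import Vale.Agent.P284.H66.FDs1
import Vale.Agent.P284.H894.G.Defs
import Vale.Agent.P284.H894.F.DefsG

/-!
# P284 (helper66): holomorphic families of entire curves whose velocities span the tangent spaces of an
open set: every point of the open set is joined by a chain of entire curves to a countable set.
-/

open scoped Manifold ContDiff Topology
open Filter Set Metric

noncomputable section

namespace Vale.Agent.P284.H66.ChS

open Vale.Agent.P272.K Vale.Agent.P284.H894.G Vale.Agent.P284.H5.V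

variable {n : ℕ}

/-- A holomorphic family `G (·, y)` of entire curves, `y` near `x` (in the chart at `x`), the curve
`G (·, y)` starting at `y`, and the curve through `x` with velocity `v`. -/
structure Fam {X : Type} [TopologicalSpace X] [ChartedSpace (Cm n) X] (x : X) (v : Cm n) (r : ℝ)
    (G : ℂ × Cm n → X) : Prop where
  pos : 0 < r
  holo : ContMDiffOn 𝓘(ℂ, ℂ × Cm n) 𝓘(ℂ, Cm n) ω G
    (univ ×ˢ ball (chartAt (Cm n) x x) r)
  base : ∀ y ∈ ball (chartAt (Cm n) x x) r, G (0, y) = (chartAt (Cm n) x).symm y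
  vel : ∀ k, deriv (fun s => chartAt (Cm n) x (G (s, chartAt (Cm n) x x)) k) 0 = v k

/-! ### Composition of families -/

/-- the derivative of one step -/
theorem step_fderiv {W : Type} [NormedAddCommGroup W] [NormedSpace ℂ W] {F : W → Cm n}
    {w₀ : W} {z₀ : Cm n} (hF0 : F w₀ = z₀) (hF : DifferentiableAt ℂ F w₀) {g : ℂ × Cm n → Cm n}
    (hg : DifferentiableAt ℂ g (0, z₀)) (hg0 : ∀ᶠ y in 𝓝 z₀, g (0, y) = y) {v : Cm n}
    (hv : HasDerivAt (fun s => g (s, z₀)) v 0) (a : W) (b : ℂ) :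
    fderiv ℂ (fun p : W × ℂ => g (p.2, F p.1)) (w₀, 0) (a, b) = fderiv ℂ F w₀ a + b • v := by
  have h1 : HasFDerivAt (fun p : W × ℂ => (p.2, F p.1))
      ((ContinuousLinearMap.snd ℂ W ℂ).prod ((fderiv ℂ F w₀).comp (ContinuousLinearMap.fst ℂ W ℂ)))
      (w₀, 0) := by
    refine (hasFDerivAt_snd).prodMk ?_
    exact HasFDerivAt.comp (g := F) (w₀, (0 : ℂ)) hF.hasFDerivAt hasFDerivAt_fst
  have hg' : HasFDerivAt g (fderiv ℂ g (0, z₀)) (0, F w₀) := by
    rw [hF0]
    exact hg.hasFDerivAt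
  have h2 : HasFDerivAt (fun p : W × ℂ => g (p.2, F p.1)) ((fderiv ℂ g (0, z₀)).comp
      ((ContinuousLinearMap.snd ℂ W ℂ).prod ((fderiv ℂ F w₀).comp (ContinuousLinearMap.fst ℂ W ℂ))))
      (w₀, 0) := HasFDerivAt.comp (g := g) (w₀, (0 : ℂ)) hg' h1
  rw [h2.fderiv]
  have h3 : fderiv ℂ g (0, z₀) (1, 0) = v := by
    have h4 : HasDerivAt (fun s : ℂ => ((s, z₀) : ℂ × Cm n)) (1, 0) 0 :=
      (hasDerivAt_id (0 : ℂ)).prodMk (hasDerivAt_const _ _)
    have h5 : HasDerivAt (fun s : ℂ => g (s, z₀)) (fderiv ℂ g (0, z₀) (1, 0)) 0 :=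
      HasFDerivAt.comp_hasDerivAt (l := g) (f := fun s : ℂ => ((s, z₀) : ℂ × Cm n)) 0
        hg.hasFDerivAt h4
    exact h5.unique hv
  have h6 : ∀ ξ : Cm n, fderiv ℂ g (0, z₀) (0, ξ) = ξ := by
    intro ξ
    have h7 : HasFDerivAt (fun y : Cm n => ((0, y) : ℂ × Cm n))
        (ContinuousLinearMap.inr ℂ ℂ (Cm n)) z₀ := by
      have := (hasFDerivAt_const (0 : ℂ) z₀).prodMk (hasFDerivAt_id (𝕜 := ℂ) z₀)
      exact this
    have h8 : HasFDerivAt (fun y : Cm n => g (0, y))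
        ((fderiv ℂ g (0, z₀)).comp (ContinuousLinearMap.inr ℂ ℂ (Cm n))) z₀ :=
      HasFDerivAt.comp (g := g) z₀ hg.hasFDerivAt h7
    have h9 : HasFDerivAt (fun y : Cm n => g (0, y)) (ContinuousLinearMap.id ℂ (Cm n)) z₀ :=
      (hasFDerivAt_id (𝕜 := ℂ) z₀).congr_of_eventuallyEq hg0
    have := congrArg (fun L : Cm n →L[ℂ] Cm n => L ξ) (h8.unique h9)
    simpa using this
  have h10 : ((b, fderiv ℂ F w₀ a) : ℂ × Cm n) = b • (1, 0) + (0, fderiv ℂ F w₀ a) := by
    simp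
  show fderiv ℂ g (0, z₀) (b, fderiv ℂ F w₀ a) = _
  rw [h10, map_add, map_smul, h3, h6, add_comm]

section
variable {X : Type} [TopologicalSpace X] [ChartedSpace (Cm n) X] [IsManifold 𝓘(ℂ, Cm n) ω X]

omit [IsManifold 𝓘(ℂ, Cm n) ω X] in
/-- the family is made of entire curves -/
theorem Fam.onCurve {x : X} {v : Cm n} {r : ℝ} {G : ℂ × Cm n → X} (hG : Fam x v r G)
    {y : Cm n} (hy : y ∈ ball (chartAt (Cm n) x x) r) (s : ℂ) :
    OnCurve n X (G (s, y)) ((chartAt (Cm n) x).symm y) := by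
  refine ⟨fun t => G ((1 - t) * s, y), ?_, ?_, ?_⟩
  · have h1 : ContDiff ℂ ω fun t : ℂ => (((1 - t) * s, y) : ℂ × Cm n) := by fun_prop
    exact hG.holo.comp_contMDiff h1.contMDiff (fun t => ⟨mem_univ _, hy⟩)
  · show G ((1 - 0) * s, y) = _
    rw [sub_zero, one_mul]
  · show G ((1 - 1) * s, y) = _
    rw [sub_self, zero_mul, hG.base y hy]

omit [IsManifold 𝓘(ℂ, Cm n) ω X] in
theorem Fam.start {x : X} {v : Cm n} {r : ℝ} {G : ℂ × Cm n → X} (hG : Fam x v r G) :
    G (0, chartAt (Cm n) x x) = x := by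
  rw [hG.base _ (mem_ball_self hG.pos)]
  exact (chartAt (Cm n) x).left_inv (mem_chart_source _ x)

omit [IsManifold 𝓘(ℂ, Cm n) ω X] in
theorem Fam.contMDiffAt {x : X} {v : Cm n} {r : ℝ} {G : ℂ × Cm n → X} (hG : Fam x v r G) :
    ContMDiffAt 𝓘(ℂ, ℂ × Cm n) 𝓘(ℂ, Cm n) ω G (0, chartAt (Cm n) x x) :=
  hG.holo.contMDiffAt ((isOpen_univ.prod isOpen_ball).mem_nhds
    ⟨mem_univ _, mem_ball_self hG.pos⟩)

theorem Fam.contDiffAt {x : X} {v : Cm n} {r : ℝ} {G : ℂ × Cm n → X} (hG : Fam x v r G) :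
    ContDiffAt ℂ ω (fun q => chartAt (Cm n) x (G q)) (0, chartAt (Cm n) x x) := by
  rw [← contMDiffAt_iff_contDiffAt]
  refine ContMDiffAt.comp (0, chartAt (Cm n) x x) ?_ hG.contMDiffAt
  rw [hG.start]
  exact chart_contMDiffAt (at_chartAt x)

theorem Fam.hasDerivAt {x : X} {v : Cm n} {r : ℝ} {G : ℂ × Cm n → X} (hG : Fam x v r G) :
    HasDerivAt (fun s => chartAt (Cm n) x (G (s, chartAt (Cm n) x x))) v 0 := by
  have h1 : DifferentiableAt ℂ (fun s : ℂ => chartAt (Cm n) x (G (s, chartAt (Cm n) x x))) 0 := by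
    have h2 : DifferentiableAt ℂ (fun s : ℂ => ((s, chartAt (Cm n) x x) : ℂ × Cm n)) 0 := by
      fun_prop
    exact DifferentiableAt.comp (g := fun q => chartAt (Cm n) x (G q)) (0 : ℂ)
      (hG.contDiffAt.differentiableAt (by simp)) h2
  have h3 : deriv (fun s => chartAt (Cm n) x (G (s, chartAt (Cm n) x x))) 0 = v := by
    funext k
    rw [← hG.vel k]
    exact (((hasDerivAt_pi.1 h1.hasDerivAt) k).deriv).symm
  rw [← h3]
  exact h1.hasDerivAt

/-- the tangent directions which are reached -/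
def Reach (x : X) (M : Submodule ℂ (Cm n)) : Prop :=
  ∃ (W : Type) (_ : NormedAddCommGroup W) (_ : NormedSpace ℂ W) (_ : CompleteSpace W) (w₀ : W)
    (F : W → Cm n), F w₀ = chartAt (Cm n) x x ∧ ContDiffAt ℂ ω F w₀ ∧
    (∀ᶠ a in 𝓝 w₀, Chain n X ((chartAt (Cm n) x).symm (F a)) x) ∧
    M ≤ LinearMap.range (fderiv ℂ F w₀ : W →ₗ[ℂ] Cm n)

omit [IsManifold 𝓘(ℂ, Cm n) ω X] in
theorem reach_bot (x : X) : Reach x (⊥ : Submodule ℂ (Cm n)) := by
  refine ⟨Unit → ℂ, inferInstance, inferInstance, inferInstance, 0, fun _ => chartAt (Cm n) x x,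
    rfl, contDiffAt_const, Eventually.of_forall fun _ => ?_, bot_le⟩
  rw [(chartAt (Cm n) x).left_inv (mem_chart_source _ x)]
  exact Relation.ReflTransGen.refl

theorem reach_step {x : X} {M : Submodule ℂ (Cm n)} (hM : Reach x M) {v : Cm n} {r : ℝ}
    {G : ℂ × Cm n → X} (hG : Fam x v r G) : Reach x (Submodule.span ℂ {v} ⊔ M) := by
  obtain ⟨W, i1, i2, i3, w₀, F, hF0, hF, hch, hr⟩ := hM
  set e := chartAt (Cm n) x with he
  have hg := hG.contDiffAt
  rw [← he] at hg
  have hg0 : ∀ᶠ y in 𝓝 (e x), e (G (0, y)) = y := by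
    filter_upwards [ball_mem_nhds (e x) hG.pos,
      e.open_target.mem_nhds (e.map_source (mem_chart_source _ x))] with y h1 h2
    rw [hG.base y h1]
    exact e.right_inv h2
  have hF' : Tendsto F (𝓝 w₀) (𝓝 (e x)) := by
    have := hF.continuousAt.tendsto
    rwa [hF0] at this
  have hin : Tendsto (fun p : W × ℂ => (p.2, F p.1)) (𝓝 (w₀, 0)) (𝓝 (0, e x)) := by
    rw [nhds_prod_eq, nhds_prod_eq]
    exact tendsto_snd.prodMk (hF'.comp tendsto_fst)
  refine ⟨W × ℂ, inferInstance, inferInstance, inferInstance, (w₀, 0),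
    fun p => e (G (p.2, F p.1)), ?_, ?_, ?_, ?_⟩
  · show e (G (0, F w₀)) = e x
    rw [hF0, hG.start]
  · have h1 : ContDiffAt ℂ ω (fun p : W × ℂ => (p.2, F p.1)) (w₀, 0) :=
      contDiffAt_snd.prodMk (ContDiffAt.comp (g := F) (w₀, (0 : ℂ)) hF contDiffAt_fst)
    have h2 : ContDiffAt ℂ ω (fun q => e (G q)) ((0 : ℂ), F w₀) := by
      rw [hF0]
      exact hg
    exact ContDiffAt.comp (g := fun q => e (G q)) (w₀, (0 : ℂ)) h2 h1
  · have h1 : ∀ᶠ q in 𝓝 ((0 : ℂ), e x), G q ∈ e.source ∧ q.2 ∈ ball (e x) r := by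
      have h2 : ContinuousAt G (0, e x) := hG.contMDiffAt.continuousAt
      have h3 : ∀ᶠ q in 𝓝 ((0 : ℂ), e x), G q ∈ e.source := by
        refine h2.eventually (e.open_source.mem_nhds ?_)
        rw [hG.start]
        exact mem_chart_source _ x
      have h4 : ∀ᶠ q in 𝓝 ((0 : ℂ), e x), q.2 ∈ ball (e x) r :=
        continuousAt_snd.eventually (ball_mem_nhds (e x) hG.pos)
      exact h3.and h4
    have h5 : ∀ᶠ p in 𝓝 ((w₀, 0) : W × ℂ), Chain n X (e.symm (F p.1)) x :=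
      (continuousAt_fst (p := ((w₀, 0) : W × ℂ))).eventually hch
    filter_upwards [hin.eventually h1, h5] with p h6 h7
    show Chain n X (e.symm (e (G (p.2, F p.1)))) x
    rw [e.left_inv h6.1]
    exact Relation.ReflTransGen.head (hG.onCurve h6.2 p.2) h7
  · have hst := step_fderiv hF0 (hF.differentiableAt (by simp))
      (g := fun q => e (G q)) (hg.differentiableAt (by simp)) hg0 hG.hasDerivAt
    refine sup_le ?_ ?_
    · rw [Submodule.span_singleton_le_iff_mem]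
      refine ⟨(0, 1), ?_⟩
      show fderiv ℂ (fun p : W × ℂ => e (G (p.2, F p.1))) (w₀, 0) (0, 1) = v
      rw [hst 0 1, map_zero, zero_add, one_smul]
    · intro ξ hξ
      obtain ⟨a, ha⟩ := hr hξ
      refine ⟨(a, 0), ?_⟩
      show fderiv ℂ (fun p : W × ℂ => e (G (p.2, F p.1))) (w₀, 0) (a, 0) = ξ
      rw [hst a 0, zero_smul, add_zero]
      exact ha

variable (n) in
omit [IsManifold 𝓘(ℂ, Cm n) ω X] in
/-- the velocities of the families through `x` -/
def vels (x : X) : Set (Cm n) := {v | ∃ r G, Fam x v r G}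

theorem chain_near {x : X} (h : Submodule.span ℂ (vels n x) = ⊤) :
    ∀ᶠ y in 𝓝 x, Chain n X y x := by
  classical
  have h1 : ∀ t : Finset (Cm n), (t : Set (Cm n)) ⊆ vels n x →
      Reach x (Submodule.span ℂ (t : Set (Cm n))) := by
    intro t
    induction t using Finset.induction_on with
    | empty =>
      intro _
      rw [Finset.coe_empty, Submodule.span_empty]
      exact reach_bot x
    | insert a t _ ih =>
      intro ht
      rw [Finset.coe_insert] at ht ⊢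
      rw [Submodule.span_insert]
      obtain ⟨r, G, hG⟩ := ht (mem_insert a _)
      exact reach_step (ih ((subset_insert _ _).trans ht)) hG
  obtain ⟨t, ht, hts⟩ : ∃ t : Finset (Cm n), (t : Set (Cm n)) ⊆ vels n x ∧
      Submodule.span ℂ (t : Set (Cm n)) = ⊤ := by
    have h2 : (⊤ : Submodule ℂ (Cm n)).FG := Module.finite_def.1 inferInstance
    rw [← h] at h2
    obtain ⟨t, ht1, ht2⟩ := (Submodule.fg_span_iff_fg_span_finset_subset (vels n x)).1 h2
    exact ⟨t, ht1, by rw [← ht2, h]⟩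
  obtain ⟨W, i1, i2, i3, w₀, F, hF0, hF, hch, hr⟩ := h1 t ht
  rw [hts, top_le_iff] at hr
  have h3 : HasStrictFDerivAt F (fderiv ℂ F w₀) w₀ := hF.hasStrictFDerivAt (by simp)
  have h4 : map F (𝓝 w₀) = 𝓝 (chartAt (Cm n) x x) := by
    rw [← hF0]
    exact h3.map_nhds_eq_of_surj hr
  have h5 : ∀ᶠ y in 𝓝 (chartAt (Cm n) x x), Chain n X ((chartAt (Cm n) x).symm y) x := by
    rw [← h4, eventually_map]
    exact hch
  have h6 : ContinuousAt (chartAt (Cm n) x) x :=
    (chartAt (Cm n) x).continuousAt (mem_chart_source _ x)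
  filter_upwards [h6.eventually h5,
    (chartAt (Cm n) x).open_source.mem_nhds (mem_chart_source _ x)] with y h7 h8
  rwa [(chartAt (Cm n) x).left_inv h8] at h7

/-- **Families of entire curves with spanning velocities on `U`**: `U` is joined by chains of entire
curves to a countable set. -/
theorem chain_of_span [CompactSpace X] {U : Set X}
    (h : ∀ x ∈ U, Submodule.span ℂ (vels n x) = ⊤) :
    ∃ Q ⊆ U, Q.Countable ∧ ∀ y ∈ U, ∃ q ∈ Q, Chain n X y q := by
  have : SecondCountableTopology X := ChartedSpace.secondCountable_of_sigmaCompact (Cm n) X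
  obtain ⟨Q, hQU, hQ, hcov⟩ := TopologicalSpace.countable_cover_nhdsWithin
    (f := fun x : X => {y | Chain n X y x}) (s := U)
    (fun x hx => nhdsWithin_le_nhds (chain_near (h x hx)))
  refine ⟨Q, hQU, hQ, fun y hy => ?_⟩
  obtain ⟨q, hq, hyq⟩ := mem_iUnion₂.1 (hcov hy)
  exact ⟨q, hq, hyq⟩

open Vale.Agent.P284.H894.F in
/-- `VirtCurveConnected` from families of entire curves with spanning velocities on an open set `U` such
that the image of `π₁(U)` has finite index. -/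
theorem virtCurveConnected_of_span [CompactSpace X] {U : Set X} {x : X} (hx : x ∈ U)
    (hU : IsOpen U) (hfi : (piImage U x hx).FiniteIndex)
    (h : ∀ y ∈ U, Submodule.span ℂ (vels n y) = ⊤) : VirtCurveConnected n X x := by
  obtain ⟨Q, -, hQ, hc⟩ := chain_of_span h
  exact ⟨U, Q, hx, hU, hfi, hQ, hc⟩

end

end Vale.Agent.P284.H66.ChS
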