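import Vale.Agent.P284.H894.F.DefsS
import Vale.Agent.P284.H5.V16
import Vale.Agent.P301.H949.Loc
import Vale.Agent.P284.H731.S2

/-!
# P284 (helper66), FD★, part 1: the speed of an entire curve; the lift of a pluriharmonic function
-/

open scoped Manifold ContDiff Topology Pointwise ComplexConjugate ComplexOrder
open Filter Set Metric MeasureTheory

noncomputable section

namespace Vale.Agent.P284.H66.FDs

open Vale.Agent.P272.K Vale.Agent.P284.H894.V Vale.Agent.P284.H894.F Vale.Agent.P284.H5.V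

variable {n : ℕ}

section
variable {X : Type} [TopologicalSpace X] [ChartedSpace (Cm n) X] [IsManifold 𝓘(ℂ, Cm n) ω X]
  {E : Type} [TopologicalSpace E]
  {p : E → X} {w : Chart n X → Cm n → Matrix (Fin n) (Fin n) ℂ} {u : E → ℝ} {B : ℝ}
  {f : ℂ → X}

theorem tau_sm (hf : ContMDiff 𝓘(ℂ) 𝓘(ℂ, Cm n) ω f) {t : ℂ} {e : Chart n X}
    (he : At e (f t)) : ContDiffAt ℂ ω (fun s => e (f s)) t := by
  rw [← contMDiffAt_iff_contDiffAt]
  exact ContMDiffAt.comp t (chart_contMDiffAt he) hf.contMDiffAt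

omit [IsManifold 𝓘(ℂ, Cm n) ω X] in
theorem at_nr (hf : ContMDiff 𝓘(ℂ) 𝓘(ℂ, Cm n) ω f) {t : ℂ} {e : Chart n X}
    (he : At e (f t)) : ∀ᶠ s in 𝓝 t, At e (f s) := by
  filter_upwards [hf.continuous.continuousAt.eventually (e.open_source.mem_nhds he.2)] with ξ hξ
  exact ⟨he.1, hξ⟩

/-- the velocity in a chart -/
theorem vel_eq (hf : ContMDiff 𝓘(ℂ) 𝓘(ℂ, Cm n) ω f) {t : ℂ} {e : Chart n X}
    (he : At e (f t)) : (fun k => deriv (fun s => e (f s) k) t) = deriv (fun s => e (f s)) t := by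
  have h1 := (tau_sm hf he).differentiableAt (by simp)
  funext k
  exact ((hasDerivAt_pi.1 h1.hasDerivAt) k).deriv

/-- the speed in a chart -/
theorem speed_eq (hw : IsHermitian w) (hf : ContMDiff 𝓘(ℂ) 𝓘(ℂ, Cm n) ω f) {t : ℂ}
    {e : Chart n X} (he : At e (f t)) :
    speedSq w f t = (qf (w e (e (f t))) (deriv (fun s => e (f s)) t)).re := by
  have h0 : speedSq w f t = (qf (w (chartAt (Cm n) (f t)) (chartAt (Cm n) (f t) (f t)))
      (fun k => deriv (fun s => chartAt (Cm n) (f t) (f s) k) t)).re := rfl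
  rw [h0]
  set e₁ := chartAt (Cm n) (f t) with he₁
  have hAt : At e₁ (f t) := at_chartAt _
  rw [vel_eq hf hAt, hw.change e₁ e (f t) hAt he, qf_change]
  congr 2
  have hd1 : DifferentiableAt ℂ (fun s => e₁ (f s)) t := (tau_sm hf hAt).differentiableAt (by simp)
  have hd2 := transition_differentiableAt hAt he
  have h1 : (fun s => e (f s)) =ᶠ[𝓝 t] fun s => e (e₁.symm (e₁ (f s))) := by
    filter_upwards [at_nr hf hAt] with ξ hξ
    rw [hξ.left_inv]
  have h2 : HasDerivAt (fun s => e (e₁.symm (e₁ (f s))))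
      (fderiv ℂ (fun z => e (e₁.symm z)) (e₁ (f t)) (deriv (fun s => e₁ (f s)) t)) t :=
    HasFDerivAt.comp_hasDerivAt (l := fun z => e (e₁.symm z)) (f := fun s => e₁ (f s)) t
      hd2.hasFDerivAt hd1.hasDerivAt
  rw [h1.deriv_eq, h2.deriv]
  funext k
  rw [jmat_mulVec hd2, jacM_eq]
  rfl

theorem speed_nonneg (hw : IsHermitian w) (hf : ContMDiff 𝓘(ℂ) 𝓘(ℂ, Cm n) ω f) (t : ℂ) :
    0 ≤ speedSq w f t := by
  have hAt := at_chartAt (n := n) (f t)
  rw [speed_eq hw hf hAt]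
  exact qf_nonneg (hw.posDef _ _ hAt) _

theorem speed_continuous (hw : IsHermitian w) (hf : ContMDiff 𝓘(ℂ) 𝓘(ℂ, Cm n) ω f) :
    Continuous (speedSq w f) := by
  rw [continuous_iff_continuousAt]
  intro t
  set e := chartAt (Cm n) (f t) with he
  have hAt : At e (f t) := at_chartAt _
  have hτ := tau_sm hf hAt
  have h1 : speedSq w f =ᶠ[𝓝 t] fun s => (qf (w e (e (f s))) (deriv (fun s => e (f s)) s)).re := by
    filter_upwards [at_nr hf hAt] with ξ hξ
    exact speed_eq hw hf hξ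
  refine ContinuousAt.congr ?_ h1.symm
  have hw' : ∀ k l, ContinuousAt (fun s => w e (e (f s)) k l) t := fun k l =>
    ContinuousAt.comp (f := fun s => e (f s)) (g := fun z => w e z k l)
      (hw.smooth e _ hAt k l).continuousAt hτ.continuousAt
  have hd0 : ContinuousAt (fun s => deriv (fun s => e (f s)) s) t := by
    have h2 : AnalyticAt ℂ (fun s => e (f s)) t := hτ.analyticAt
    exact h2.deriv.continuousAt
  have hd : ∀ k, ContinuousAt (fun s => deriv (fun s => e (f s)) s k) t := fun k =>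
    (continuousAt_pi.1 hd0) k
  refine Complex.continuous_re.continuousAt.comp ?_
  unfold qf
  refine tendsto_finsetSum _ fun k _ => tendsto_finsetSum _ fun l _ => ?_
  exact ((hw' k l).mul (hd k)).mul (Complex.continuous_conj.continuousAt.comp (hd l))

end

/-- a differentiable function with real part zero near `t` has derivative zero -/
theorem deriv_zero_of_re {D : ℂ → ℂ} {t D' : ℂ} (hD : HasDerivAt D D' t)
    (h0 : ∀ᶠ s in 𝓝 t, (D s).re = 0) : D' = 0 := by
  have h1 : HasFDerivAt (fun s => (D s).re) (Complex.reCLM.comp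
      ((ContinuousLinearMap.toSpanSingleton ℂ D').restrictScalars ℝ)) t :=
    Complex.reCLM.hasFDerivAt.comp t (hD.hasFDerivAt.restrictScalars ℝ)
  have h2 : HasFDerivAt (fun s => (D s).re) (0 : ℂ →L[ℝ] ℝ) t :=
    (hasFDerivAt_const (0 : ℝ) t).congr_of_eventuallyEq (by filter_upwards [h0] with s hs using hs)
  have h3 := h1.unique h2
  have h4 : ∀ x : ℂ, (x * D').re = 0 := by
    intro x
    have := congrArg (fun L : ℂ →L[ℝ] ℝ => L x) h3
    simpa using this
  apply Complex.ext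
  · simpa using h4 1
  · have := h4 Complex.I
    simpa using this

theorem two_le' : (2 : WithTop ℕ∞) ≤ ∞ := by decide

section
variable {X : Type} [TopologicalSpace X] [ChartedSpace (Cm n) X] [IsManifold 𝓘(ℂ, Cm n) ω X]
  {E : Type} [TopologicalSpace E]
  {p : E → X} {w : Chart n X → Cm n → Matrix (Fin n) (Fin n) ℂ} {u : E → ℝ} {B : ℝ}
  {f : ℂ → X}

/-- near every point `u ∘ F = Re (G ∘ e ∘ f)` with `G` holomorphic on a ball -/
theorem lift_loc (hw : IsHermitian w) (hu : IsPHB p w u B) {F : ℂ → E} (hF : Continuous F)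
    (hpF : ∀ t, p (F t) = f t) (hf : ContMDiff 𝓘(ℂ) 𝓘(ℂ, Cm n) ω f) (t : ℂ) :
    ∃ (G : Cm n → ℂ) (r : ℝ), 0 < r ∧
      DifferentiableOn ℂ G (ball (chartAt (Cm n) (f t) (f t)) r) ∧
      (∀ᶠ s in 𝓝 t, chartAt (Cm n) (f t) (f s) ∈ ball (chartAt (Cm n) (f t) (f t)) r) ∧
      (∀ᶠ s in 𝓝 t, u (F s) = (G (chartAt (Cm n) (f t) (f s))).re) ∧
      ‖fderiv ℂ G (chartAt (Cm n) (f t) (f t))
        (deriv (fun s => chartAt (Cm n) (f t) (f s)) t)‖ ^ 2 ≤ 2 * B * speedSq w f t := by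
  set e := chartAt (Cm n) (f t) with he
  have hAt : At e (f t) := at_chartAt _
  obtain ⟨g, hug, hg, hB⟩ := hu (F t) e (by rw [hpF]; exact hAt)
  rw [hpF] at hg hB
  obtain ⟨r, hr, hb⟩ := Metric.eventually_nhds_iff_ball.1 hg
  obtain ⟨G, hG, hGr⟩ := Vale.Agent.P301.H949.exists_re (U := ball (e (f t)) r) isOpen_ball
    (convex_ball _ _) (fun z hz => (hb z hz).1.of_le two_le') (fun z hz => (hb z hz).2)
  have hτ := tau_sm hf hAt
  have hev : ∀ᶠ s in 𝓝 t, e (f s) ∈ ball (e (f t)) r :=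
    hτ.continuousAt.eventually (ball_mem_nhds _ hr)
  refine ⟨G, r, hr, hG, hev, ?_, ?_⟩
  · filter_upwards [hF.continuousAt.eventually hug, hev] with s h1 h2
    rw [h1, hpF, hGr _ h2]
  · rw [speed_eq hw hf hAt]
    set ξ := deriv (fun s => e (f s)) t with hξ
    have hd : DifferentiableAt ℂ G (e (f t)) := hG.differentiableAt (ball_mem_nhds _ hr)
    have hgr : g =ᶠ[𝓝 (e (f t))] fun z => (G z).re := by
      filter_upwards [ball_mem_nhds _ hr] with z hz
      exact (hGr z hz).symm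
    have hdr : HasFDerivAt G ((fderiv ℂ G (e (f t))).restrictScalars ℝ) (e (f t)) :=
      hd.hasFDerivAt.restrictScalars ℝ
    have h3 : fderiv ℝ g (e (f t)) = Complex.reCLM.comp
        ((fderiv ℂ G (e (f t))).restrictScalars ℝ) := by
      rw [hgr.fderiv_eq]
      exact (Complex.reCLM.hasFDerivAt.comp (e (f t)) hdr).fderiv
    have e1 : fderiv ℝ g (e (f t)) ξ = (fderiv ℂ G (e (f t)) ξ).re := by rw [h3]; rfl
    have e2 : fderiv ℝ g (e (f t)) (Complex.I • ξ) = -(fderiv ℂ G (e (f t)) ξ).im := by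
      rw [h3]
      show (fderiv ℂ G (e (f t)) (Complex.I • ξ)).re = _
      rw [map_smul]
      simp
    have ha : fderiv ℝ g (e (f t)) ξ ^ 2 ≤ B * (qf (w e (e (f t))) ξ).re := hB ξ
    have hb' : fderiv ℝ g (e (f t)) (Complex.I • ξ) ^ 2 ≤ B * (qf (w e (e (f t))) ξ).re := by
      rw [← qf_I]
      exact hB (Complex.I • ξ)
    rw [e1] at ha
    rw [e2] at hb'
    rw [← Complex.normSq_eq_norm_sq, Complex.normSq_apply]
    nlinarith

/-- the entire function with real part `u ∘ F` -/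
theorem exists_entire (hw : IsHermitian w) (hu : IsPHB p w u B) {F : ℂ → E} (hF : Continuous F)
    (hpF : ∀ t, p (F t) = f t) (hf : ContMDiff 𝓘(ℂ) 𝓘(ℂ, Cm n) ω f) :
    ∃ A : ℂ → ℂ, Differentiable ℂ A ∧ (∀ t, (A t).re = u (F t)) ∧
      ∀ t, ‖deriv A t‖ ^ 2 ≤ 2 * B * speedSq w f t := by
  have hre : ∀ ζ₀ : Cm 1, ContDiffAt ℝ ∞ (fun ζ : Cm 1 => u (F (ζ 0))) ζ₀ ∧
      cHess (fun ζ : Cm 1 => u (F (ζ 0))) ζ₀ = 0 := by
    intro ζ₀
    obtain ⟨G, r, hr, hG, h1, h2, -⟩ := lift_loc hw hu hF hpF hf (ζ₀ 0)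
    set e := chartAt (Cm n) (f (ζ₀ 0)) with he
    have hAt : At e (f (ζ₀ 0)) := at_chartAt _
    have hpr : ContinuousAt (fun ζ : Cm 1 => ζ 0) ζ₀ := (continuous_apply 0).continuousAt
    have hH : ∀ᶠ ζ in 𝓝 ζ₀, DifferentiableAt ℂ (fun ζ : Cm 1 => Complex.I * G (e (f (ζ 0)))) ζ := by
      have h3 : ∀ᶠ s in 𝓝 (ζ₀ 0), DifferentiableAt ℂ (fun s => G (e (f s))) s := by
        have h4 : ∀ᶠ s in 𝓝 (ζ₀ 0), ContDiffAt ℂ ω (fun s => e (f s)) s :=
          (tau_sm hf hAt).eventually (by simp)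
        filter_upwards [h1, h4] with s hs hs'
        exact DifferentiableAt.comp (g := G) s (hG.differentiableAt (isOpen_ball.mem_nhds hs))
          (hs'.differentiableAt (by simp))
      filter_upwards [hpr.eventually h3] with ζ hζ
      have h5 : DifferentiableAt ℂ (fun ζ : Cm 1 => ζ 0) ζ := by fun_prop
      exact (DifferentiableAt.comp (g := fun s => G (e (f s))) ζ hζ h5).const_mul _
    have hcg : (fun ζ : Cm 1 => u (F (ζ 0))) =ᶠ[𝓝 ζ₀]
        fun ζ => (Complex.I * G (e (f (ζ 0)))).im := by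
      filter_upwards [hpr.eventually h2] with ζ hζ
      rw [hζ]
      simp
    refine ⟨ContDiffAt.congr_of_eventuallyEq (Vale.Agent.P284.H731.S2.im_contDiffAt hH) hcg, ?_⟩
    rw [cHess_congr hcg]
    exact Vale.Agent.P284.H731.S2.cHess_im hH
  obtain ⟨A', hA', hAr⟩ := Vale.Agent.P301.H949.exists_re (U := univ) isOpen_univ
    convex_univ (fun z _ => (hre z).1.of_le two_le') (fun z _ => (hre z).2)
  have hι : Differentiable ℂ fun t : ℂ => (fun _ => t : Cm 1) := by fun_prop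
  have hA : Differentiable ℂ fun t : ℂ => A' (fun _ => t) :=
    fun t => DifferentiableAt.comp (g := A') t (hA'.differentiableAt univ_mem) (hι t)
  refine ⟨fun t => A' (fun _ => t), hA, fun t => by simpa using hAr (fun _ => t) (mem_univ _),
    fun t => ?_⟩
  obtain ⟨G, r, hr, hG, h1, h2, h3⟩ := lift_loc hw hu hF hpF hf t
  set e := chartAt (Cm n) (f t) with he
  have hAt : At e (f t) := at_chartAt _
  have h4 : HasDerivAt (fun s => G (e (f s)))
      (fderiv ℂ G (e (f t)) (deriv (fun s => e (f s)) t)) t :=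
    HasFDerivAt.comp_hasDerivAt (l := G) (f := fun s => e (f s)) t
      (hG.differentiableAt (ball_mem_nhds _ hr)).hasFDerivAt
      ((tau_sm hf hAt).differentiableAt (by simp)).hasDerivAt
  have h5 := deriv_zero_of_re ((hA t).hasDerivAt.sub h4) (by
    filter_upwards [h2] with s hs
    have := hAr (fun _ => s) (mem_univ _)
    simp only [Pi.sub_apply, Complex.sub_re]
    rw [this, ← hs, sub_self])
  rw [sub_eq_zero.1 h5]
  exact h3

end

end Vale.Agent.P284.H66.FDs
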