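import Vale.Agent.P284.H66.FDs1
import Vale.Agent.P284.H5.D0

/-!
# P284 (helper66), FD★, part 2: entire functions of one variable with derivative of finite order
-/

open scoped Manifold ContDiff Topology Pointwise ComplexConjugate ComplexOrder
open Filter Set Metric MeasureTheory Asymptotics

noncomputable section

namespace Vale.Agent.P284.H66.FDs

open Vale.Agent.P272.K Vale.Agent.P284.H5.V

theorem ball_pre (r : ℝ) : (MeasurableEquiv.funUnique (Fin 1) ℂ) ⁻¹' (ball (0 : ℂ) r) =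
    ball (0 : Cm 1) r := by
  ext ζ
  simp only [mem_preimage, mem_ball, dist_zero_right]
  have h : ‖ζ‖ = ‖ζ 0‖ := by
    apply le_antisymm
    · rw [pi_norm_le_iff_of_nonneg (norm_nonneg _)]
      intro i
      rw [Subsingleton.elim i 0]
    · exact norm_le_pi_norm ζ 0
  rw [h]
  rfl

theorem int_ball (g : ℂ → ℝ) (r : ℝ) :
    ∫ ζ in ball (0 : Cm 1) r, g (ζ 0) = ∫ t in ball (0 : ℂ) r, g t := by
  have h := (volume_preserving_funUnique (Fin 1) ℂ).setIntegral_preimage_emb
    (MeasurableEquiv.funUnique (Fin 1) ℂ).measurableEmbedding g (ball (0 : ℂ) r)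
  rw [ball_pre] at h
  exact h

/-- polynomial growth from the `L²` bound -/
theorem growth {A : ℂ → ℂ} (hA : Differentiable ℂ A) {C ρ : ℝ}
    (hC : ∀ r : ℝ, 1 ≤ r → ∫ t in ball (0 : ℂ) r, ‖deriv A t‖ ^ 2 ≤ C * r ^ ρ) {m : ℕ}
    (hm : ρ ≤ 2 * m) : ∃ C' : ℝ, ∀ t, ‖deriv A t‖ ≤ C' * (1 + ‖t‖) ^ m := by
  have h1 : ContDiff ℂ ∞ (deriv A) := by
    have h2 : ContDiff ℂ (∞ + 1) A := hA.contDiff
    exact ((contDiff_succ_iff_deriv (n := ∞)).1 h2).2.2
  have hd : Differentiable ℂ (deriv A) := h1.differentiable (by simp)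
  have hol : Hol (fun ζ : Cm 1 => deriv A (ζ 0)) := by
    refine ⟨?_, fun z k => ?_⟩
    · have h3 : ContDiff ℝ ∞ (deriv A) := h1.restrict_scalars ℝ
      exact h3.comp (contDiff_apply ℝ ℂ (0 : Fin 1))
    · refine dzb_of_holo ?_
      have h5 : DifferentiableAt ℂ (fun ζ : Cm 1 => ζ 0) z := by fun_prop
      exact DifferentiableAt.comp (g := deriv A) z (hd _) h5
  have h2 := mem_PG_of_L2 hol (C := C) (ρ := ρ) (fun r hr => by
    rw [int_ball (fun t => ‖deriv A t‖ ^ 2)]
    exact hC r hr) hm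
  obtain ⟨-, C', hC'⟩ := h2
  refine ⟨C', fun t => ?_⟩
  have h3 := hC' (fun _ => t)
  have h4 : ‖(fun _ => t : Cm 1)‖ = ‖t‖ := by
    rw [pi_norm_const]
  rw [h4] at h3
  exact h3

/-- the high derivatives at `0` vanish -/
theorem high {h : ℂ → ℂ} (hh : Differentiable ℂ h) {C : ℝ} {m : ℕ}
    (hC : ∀ t, ‖h t‖ ≤ C * (1 + ‖t‖) ^ m) {k : ℕ} (hk : m < k) : iteratedDeriv k h 0 = 0 := by
  have hC0 : 0 ≤ C := by
    have := hC 0
    simp only [norm_zero, add_zero, one_pow, mul_one] at this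
    exact (norm_nonneg _).trans this
  have key : ∀ R : ℝ, 1 ≤ R → ‖iteratedDeriv k h 0‖ ≤ (k.factorial * C * 2 ^ m) / R := by
    intro R hR
    have hR0 : 0 < R := by linarith
    have h1 := Complex.norm_iteratedDeriv_le_of_forall_mem_sphere_norm_le k (c := 0) (R := R)
      (C := C * (2 * R) ^ m) (f := h) hR0 hh.diffContOnCl (by
        intro z hz
        have hz' : ‖z‖ = R := by simpa using hz
        refine (hC z).trans ?_
        rw [hz']
        gcongr
        linarith)
    refine h1.trans ?_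
    have h2 : R ^ k = R ^ m * R ^ (k - m - 1) * R := by
      rw [← pow_add, ← pow_succ]
      congr 1
      omega
    have h3 : (1 : ℝ) ≤ R ^ (k - m - 1) := one_le_pow₀ hR
    rw [h2, mul_pow, div_le_div_iff₀ (by positivity) hR0]
    have h4 : 0 ≤ (k.factorial : ℝ) * C * 2 ^ m * R ^ m * R := by positivity
    nlinarith
  have h2 : Tendsto (fun R : ℝ => (k.factorial * C * 2 ^ m) / R) atTop (𝓝 0) :=
    tendsto_const_nhds.div_atTop tendsto_id
  have h3 : ‖iteratedDeriv k h 0‖ ≤ 0 := by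
    refine ge_of_tendsto h2 ?_
    filter_upwards [eventually_ge_atTop 1] with R hR using key R hR
  exact norm_le_zero_iff.1 h3

/-- an entire function with derivative of growth `m` which is flat at `0` is constant near `0` -/
theorem flat_const {A : ℂ → ℂ} (hA : Differentiable ℂ A) {C : ℝ} {m : ℕ}
    (hC : ∀ t, ‖deriv A t‖ ≤ C * (1 + ‖t‖) ^ m) {q : ℕ} (hq : m + 2 ≤ q)
    (hO : (fun t => A t - A 0) =O[𝓝 0] fun t : ℂ => t ^ q) : ∀ᶠ t in 𝓝 (0 : ℂ), A t - A 0 = 0 := by
  have h1 : ContDiff ℂ ∞ (deriv A) := by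
    have h2 : ContDiff ℂ (∞ + 1) A := hA.contDiff
    exact ((contDiff_succ_iff_deriv (n := ∞)).1 h2).2.2
  have hd : Differentiable ℂ (deriv A) := h1.differentiable (by simp)
  have hg : AnalyticAt ℂ (fun t => A t - A 0) 0 := (hA.analyticAt 0).sub analyticAt_const
  have hall : ∀ k, iteratedDeriv k (fun t => A t - A 0) 0 = 0 := by
    intro k
    rcases lt_or_ge k q with h | h
    · exact Vale.Agent.P284.H5.lower hg hO h
    · obtain ⟨j, rfl⟩ : ∃ j, k = j + 1 := ⟨k - 1, by omega⟩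
      rw [iteratedDeriv_succ']
      have h2 : deriv (fun t => A t - A 0) = deriv A := by
        funext t
        rw [deriv_sub_const]
      rw [h2]
      exact high hd hC (by omega)
  rw [← analyticOrderAt_eq_top]
  rw [ENat.eq_top_iff_forall_ge]
  intro k
  exact (natCast_le_analyticOrderAt_iff_iteratedDeriv_eq_zero hg).2 fun i _ => hall i

end Vale.Agent.P284.H66.FDs
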