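import Vale.Agent.P284.H66.FDs2

/-!
# P284 (helper66), FD★, part 3: the local section; the leading term along the curves
-/

open scoped Manifold ContDiff Topology Pointwise ComplexConjugate ComplexOrder
open Filter Set Metric MeasureTheory Asymptotics

noncomputable section

namespace Vale.Agent.P284.H66.FDs

open Vale.Agent.P272.K Vale.Agent.P284.H894.V Vale.Agent.P284.H894.F Vale.Agent.P284.H5.V
  Vale.Agent.P284.H894

variable {n : ℕ}

/-- `f(z,w) = G(z₀ + w - z) - G(z₀)` -/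
def ff (G : Cm n → ℂ) (z₀ z w : Cm n) : ℂ := G (z₀ + (w - z)) - G z₀

theorem ff_line (G : Cm n → ℂ) (z₀ z y : Cm n) : ff G z₀ z (z + y) = G (z₀ + y) - G z₀ := by
  unfold ff
  rw [add_sub_cancel_left]

theorem ff_diff {G : Cm n → ℂ} {z₀ : Cm n} {r : ℝ} (hG : DifferentiableOn ℂ G (ball z₀ r)) :
    DifferentiableOn ℂ (fun p : Cm n × Cm n => ff G z₀ p.1 p.2)
      (ball z₀ (r / 2) ×ˢ ball z₀ (r / 2)) := by
  have h1 : DifferentiableOn ℂ (fun p : Cm n × Cm n => z₀ + (p.2 - p.1))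
      (ball z₀ (r / 2) ×ˢ ball z₀ (r / 2)) := by fun_prop
  have h2 : MapsTo (fun p : Cm n × Cm n => z₀ + (p.2 - p.1))
      (ball z₀ (r / 2) ×ˢ ball z₀ (r / 2)) (ball z₀ r) := by
    rintro ⟨a, b⟩ ⟨ha, hb⟩
    have ha' : ‖a - z₀‖ < r / 2 := by simpa [dist_eq_norm] using ha
    have hb' : ‖b - z₀‖ < r / 2 := by simpa [dist_eq_norm] using hb
    have : ‖z₀ + (b - a) - z₀‖ < r := by
      calc ‖z₀ + (b - a) - z₀‖ = ‖(b - z₀) - (a - z₀)‖ := by congr 1; abel
        _ ≤ ‖b - z₀‖ + ‖a - z₀‖ := norm_sub_le _ _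
        _ < r := by linarith
    simpa [dist_eq_norm] using this
  exact (hG.comp h1 h2).sub_const _

theorem van_iff {G : Cm n → ℂ} {z₀ : Cm n} {r : ℝ} (hr : 0 < r) {q : ℕ} :
    Van q (ball z₀ (r / 2)) (ff G z₀) ↔
      ∀ v : Cm n, (fun t : ℂ => G (z₀ + t • v) - G z₀) =O[𝓝 0] fun t : ℂ => t ^ q := by
  constructor
  · intro h v
    have := h z₀ (mem_ball_self (by linarith)) v
    simpa only [ff_line] using this
  · intro h z _ v
    simpa only [ff_line] using h v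

theorem lead_indep {G : Cm n → ℂ} {z₀ : Cm n} {q : ℕ} (z z' v : Cm n) :
    Lead q (ff G z₀) z v = Lead q (ff G z₀) z' v := by
  unfold Lead
  simp only [ff_line]

/-- a function analytic everywhere that vanishes on a set with interior vanishes -/
theorem entire_zero {L : Cm n → ℂ} (hL : DifferentiableOn ℂ L univ) {D : Set (Cm n)}
    (hD : (interior D).Nonempty) (h1 : ∀ v ∈ D, L v = 0) (v : Cm n) : L v = 0 := by
  have h4 : AnalyticOnNhd ℂ L univ := fun v _ =>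
    Vale.Agent.P281.MF.analyticAt_of_differentiableOn isOpen_univ hL (mem_univ v)
  obtain ⟨v₀, hv₀⟩ := hD
  have h5 : L =ᶠ[𝓝 v₀] 0 := by
    filter_upwards [isOpen_interior.mem_nhds hv₀] with v hv
    exact h1 v (interior_subset hv)
  exact h4.eqOn_zero_of_preconnected_of_eventuallyEq_zero isPreconnected_univ (mem_univ v₀) h5
    (mem_univ v)

/-- no nonzero homogeneous polynomial vanishes on `D` -/
def HomDense (D : Set (Cm n)) : Prop :=
  ∀ (k : ℕ) (P : MvPolynomial (Fin n) ℂ), P.IsHomogeneous k →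
    (∀ v ∈ D, MvPolynomial.eval v P = 0) → P = 0

theorem exists_poly {k : ℕ} (q : ContinuousMultilinearMap ℂ (fun _ : Fin k => Cm n) ℂ) :
    ∃ P : MvPolynomial (Fin n) ℂ, P.IsHomogeneous k ∧
      ∀ v, MvPolynomial.eval v P = q (fun _ => v) := by
  classical
  refine ⟨∑ r : Fin k → Fin n, MvPolynomial.C (q fun i => (Pi.single (r i) 1 : Cm n)) *
    ∏ i, MvPolynomial.X (r i), ?_, ?_⟩
  · refine MvPolynomial.IsHomogeneous.sum _ _ _ fun r _ => ?_
    refine MvPolynomial.IsHomogeneous.C_mul ?_ _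
    have := MvPolynomial.IsHomogeneous.prod Finset.univ
      (fun i => (MvPolynomial.X (r i) : MvPolynomial (Fin n) ℂ)) (fun _ => 1)
      (fun i _ => MvPolynomial.isHomogeneous_X ℂ (r i))
    simpa using this
  · intro v
    have h1 : (fun _ : Fin k => v) = fun _ => ∑ j, v j • (Pi.single j 1 : Cm n) := by
      funext i
      exact pi_eq_sum_univ' v
    rw [h1, q.map_sum, map_sum]
    refine Finset.sum_congr rfl fun r _ => ?_
    rw [q.map_smul_univ (fun i => v (r i)) fun i => (Pi.single (r i) 1 : Cm n)]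
    simp [mul_comm]

/-- a set with nonempty interior is dense in this sense -/
theorem homDense_of_interior {D : Set (Cm n)} (hD : (interior D).Nonempty) : HomDense D := by
  intro k P _ h
  have h1 : AnalyticOnNhd ℂ (fun v : Cm n => MvPolynomial.eval v P) univ :=
    AnalyticOnNhd.eval_mvPolynomial P
  have h2 := entire_zero (L := fun v => MvPolynomial.eval v P) h1.differentiableOn hD h
  exact MvPolynomial.funext fun v => by rw [map_zero]; exact h2 v

theorem lead_all {G : Cm n → ℂ} {z₀ : Cm n} {r : ℝ} (hr : 0 < r)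
    (hG : DifferentiableOn ℂ G (ball z₀ r)) {q : ℕ}
    (hV : Van q (ball z₀ (r / 2)) (ff G z₀)) {D : Set (Cm n)} (hD : HomDense D)
    (h1 : ∀ v ∈ D, Lead q (ff G z₀) z₀ v = 0) (v : Cm n) : Lead q (ff G z₀) z₀ v = 0 := by
  have hz₀ : z₀ ∈ ball z₀ (r / 2) := mem_ball_self (by linarith)
  obtain ⟨-, p, hp⟩ := Vale.Agent.P284.H5.analytic_snd isOpen_ball (ff_diff hG) hz₀
  have h2 := fun v => Vale.Agent.P284.H5.series_lead isOpen_ball (ff_diff hG) hV hz₀ hp v
  obtain ⟨P, hP, hPe⟩ := exists_poly (p q)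
  have h3 : P = 0 := hD q P hP fun v hv => by rw [hPe, ← h2, h1 v hv]
  rw [h2, ← hPe, h3, map_zero]

/-- The step: along the curves `G - G(z₀)` is a polynomial of bounded degree. -/
theorem van_step {G : Cm n → ℂ} {z₀ : Cm n} {r : ℝ} (hr : 0 < r)
    (hG : DifferentiableOn ℂ G (ball z₀ r)) {m : ℕ} {D : Set (Cm n)} (hD : HomDense D)
    (hc : ∀ v ∈ D, ∃ (τ : ℂ → Cm n) (A : ℂ → ℂ) (C : ℝ), HasDerivAt τ v 0 ∧ τ 0 = z₀ ∧
      Differentiable ℂ A ∧ (∀ t, ‖deriv A t‖ ≤ C * (1 + ‖t‖) ^ m) ∧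
      ∀ᶠ t in 𝓝 (0 : ℂ), G (τ t) - G z₀ = A t - A 0) {q : ℕ} (hq : m + 2 ≤ q)
    (hV : Van q (ball z₀ (r / 2)) (ff G z₀)) : Van (q + 1) (ball z₀ (r / 2)) (ff G z₀) := by
  have hf := ff_diff hG
  have hz₀ : z₀ ∈ ball z₀ (r / 2) := mem_ball_self (by linarith)
  -- on `D`
  have h1 : ∀ v ∈ D, Lead q (ff G z₀) z₀ v = 0 := by
    intro v hv
    obtain ⟨τ, A, C, hτ, hτ0, hA, hC, he⟩ := hc v hv
    have hy : HasDerivAt (fun t => τ t - z₀) v 0 := hτ.sub_const z₀
    have h2 := Vale.Agent.P284.H5.lead_curve isOpen_ball hf hV hz₀ hy (by simp [hτ0])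
    have h3 : Tendsto (fun t : ℂ => (A t - A 0) / t ^ q) (𝓝[≠] 0)
        (𝓝 (Lead q (ff G z₀) z₀ v)) := by
      refine h2.congr' ?_
      filter_upwards [he.filter_mono nhdsWithin_le_nhds] with t ht
      rw [ff_line, add_sub_cancel, ht]
    have h4 : (fun t => A t - A 0) =O[𝓝 0] fun t : ℂ => t ^ q := by
      have h5 : ∀ᶠ t in 𝓝[≠] (0 : ℂ),
          ‖(A t - A 0) / t ^ q‖ ≤ ‖Lead q (ff G z₀) z₀ v‖ + 1 := by
        have := h3.norm.eventually (gt_mem_nhds (lt_add_one ‖Lead q (ff G z₀) z₀ v‖))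
        filter_upwards [this] with t ht using ht.le
      rw [eventually_nhdsWithin_iff] at h5
      refine IsBigO.of_bound (‖Lead q (ff G z₀) z₀ v‖ + 1) ?_
      filter_upwards [h5] with t ht
      rcases eq_or_ne t 0 with rfl | h0
      · simp only [sub_self, norm_zero]
        positivity
      · have h6 := ht h0
        rw [norm_div, div_le_iff₀ (norm_pos_iff.2 (pow_ne_zero _ h0))] at h6
        exact h6
    have h5 := flat_const hA hC hq h4
    have h6 : Tendsto (fun t : ℂ => (A t - A 0) / t ^ q) (𝓝[≠] 0) (𝓝 0) := by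
      refine tendsto_const_nhds.congr' ?_
      filter_upwards [h5.filter_mono nhdsWithin_le_nhds] with t ht
      rw [ht, zero_div]
    exact tendsto_nhds_unique h3 h6
  exact Vale.Agent.P284.H5.lead_succ isOpen_ball hf hV fun z _ v => by
    rw [lead_indep z z₀ v]
    exact lead_all hr hG hV hD h1 v

theorem van_mono {G : Cm n → ℂ} {z₀ : Cm n} {V : Set (Cm n)} {q k : ℕ}
    (hV : Van (q + k) V (ff G z₀)) : Van k V (ff G z₀) := by
  intro z hz v
  refine (hV z hz v).trans ?_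
  have h1 : (fun t : ℂ => t ^ q) =O[𝓝 0] fun _ : ℂ => (1 : ℂ) := by
    refine (ContinuousAt.tendsto (x := (0 : ℂ)) (f := fun t : ℂ => t ^ q) ?_).isBigO_one ℂ
    fun_prop
  have h2 := h1.mul (isBigO_refl (fun t : ℂ => t ^ k) (𝓝 0))
  refine (h2.congr_left fun t => ?_).congr_right fun t => ?_
  · rw [pow_add]
  · rw [one_mul]

/-- flat to order `m + 2` implies constant near `z₀` -/
theorem const_of_van {G : Cm n → ℂ} {z₀ : Cm n} {r : ℝ} (hr : 0 < r)
    (hG : DifferentiableOn ℂ G (ball z₀ r)) {m : ℕ} {D : Set (Cm n)} (hD : HomDense D)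
    (hc : ∀ v ∈ D, ∃ (τ : ℂ → Cm n) (A : ℂ → ℂ) (C : ℝ), HasDerivAt τ v 0 ∧ τ 0 = z₀ ∧
      Differentiable ℂ A ∧ (∀ t, ‖deriv A t‖ ≤ C * (1 + ‖t‖) ^ m) ∧
      ∀ᶠ t in 𝓝 (0 : ℂ), G (τ t) - G z₀ = A t - A 0)
    (hV : Van (m + 2) (ball z₀ (r / 2)) (ff G z₀)) : ∀ z ∈ ball z₀ (r / 2), G z = G z₀ := by
  have h1 : ∀ k, Van (m + 2 + k) (ball z₀ (r / 2)) (ff G z₀) := by
    intro k
    induction k with
    | zero => exact hV
    | succ k ih => exact van_step hr hG hD hc (q := m + 2 + k) (by omega) ih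
  have h2 : ∀ q, Van q (ball z₀ (r / 2)) (ff G z₀) := fun q => van_mono (h1 q)
  intro z hz
  have h3 := Vale.Agent.P284.H5.lead_zero (ff_diff hG) h2 z₀ (mem_ball_self (by linarith)) z hz
  unfold ff at h3
  rw [add_sub_cancel] at h3
  exact sub_eq_zero.1 h3

/-! ### The local section -/

section
variable {X : Type} [TopologicalSpace X] {E : Type} [TopologicalSpace E] {p : E → X}

structure LSec (p : E → X) (e : Chart n X) (y₀ : E) (r : ℝ) (σ : Cm n → E) : Prop where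
  pos : 0 < r
  cont : ContinuousOn σ (ball (e (p y₀)) r)
  src : ∀ z ∈ ball (e (p y₀)) r, p (σ z) ∈ e.source
  inv : ∀ z ∈ ball (e (p y₀)) r, e (p (σ z)) = z
  near : ∀ᶠ y in 𝓝 y₀, σ (e (p y)) = y

theorem exists_lsec (hp : IsCoveringMap p) {e : Chart n X} {y₀ : E} (he : p y₀ ∈ e.source) :
    ∃ r σ, LSec p e y₀ r σ := by
  obtain ⟨ψ, hψ, hpψ⟩ := hp.isLocalHomeomorph y₀
  set Ω : Set (Cm n) := e.target ∩ e.symm ⁻¹' ψ.target with hΩ
  have hΩo : IsOpen Ω := e.isOpen_inter_preimage_symm ψ.open_target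
  have hmem : e (p y₀) ∈ Ω := by
    refine ⟨e.map_source he, ?_⟩
    show e.symm (e (p y₀)) ∈ ψ.target
    rw [e.left_inv he, hpψ]
    exact ψ.map_source hψ
  obtain ⟨r, hr, hb⟩ := Metric.isOpen_iff.1 hΩo _ hmem
  refine ⟨r, fun z => ψ.symm (e.symm z), hr, ?_, ?_, ?_, ?_⟩
  · exact ψ.symm.continuousOn.comp (e.symm.continuousOn.mono fun z hz => (hb hz).1)
      (fun z hz => (hb hz).2)
  · intro z hz
    have h1 : p (ψ.symm (e.symm z)) = e.symm z := by rw [hpψ]; exact ψ.right_inv (hb hz).2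
    rw [h1]
    exact e.map_target (hb hz).1
  · intro z hz
    have h1 : p (ψ.symm (e.symm z)) = e.symm z := by rw [hpψ]; exact ψ.right_inv (hb hz).2
    rw [h1]
    exact e.right_inv (hb hz).1
  · filter_upwards [ψ.open_source.mem_nhds hψ,
      hp.continuous.continuousAt.eventually (e.open_source.mem_nhds he)] with y h1 h2
    rw [e.left_inv h2, hpψ]
    exact ψ.left_inv h1

end

section
variable {X : Type} [TopologicalSpace X] [ChartedSpace (Cm n) X]
  {E : Type} [TopologicalSpace E]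
  {p : E → X} {w : Chart n X → Cm n → Matrix (Fin n) (Fin n) ℂ} {u : E → ℝ} {B : ℝ}

theorem sec_phb (hu : IsPHB p w u B) {e : Chart n X} {y₀ : E} (he : At e (p y₀)) {r : ℝ}
    {σ : Cm n → E} (hσ : LSec p e y₀ r σ) {z : Cm n} (hz : z ∈ ball (e (p y₀)) r) :
    ContDiffAt ℝ ∞ (fun z => u (σ z)) z ∧ cHess (fun z => u (σ z)) z = 0 := by
  obtain ⟨g, hug, hg, -⟩ := hu (σ z) e ⟨he.1, hσ.src z hz⟩
  rw [hσ.inv z hz] at hg
  have hc : ContinuousAt σ z := hσ.cont.continuousAt (isOpen_ball.mem_nhds hz)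
  have hcg : (fun z => u (σ z)) =ᶠ[𝓝 z] g := by
    filter_upwards [hc.eventually hug, isOpen_ball.mem_nhds hz] with z' h1 h2
    rw [h1, hσ.inv z' h2]
  refine ⟨ContDiffAt.congr_of_eventuallyEq hg.self_of_nhds.1 hcg, ?_⟩
  rw [cHess_congr hcg]
  exact hg.self_of_nhds.2

theorem sec_re (hu : IsPHB p w u B) {e : Chart n X} {y₀ : E} (he : At e (p y₀)) {r : ℝ}
    {σ : Cm n → E} (hσ : LSec p e y₀ r σ) : ∃ G : Cm n → ℂ,
    DifferentiableOn ℂ G (ball (e (p y₀)) r) ∧ ∀ z ∈ ball (e (p y₀)) r, (G z).re = u (σ z) :=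
  Vale.Agent.P301.H949.exists_re (U := ball (e (p y₀)) r) isOpen_ball
    (convex_ball _ _) (fun z hz => (sec_phb hu he hσ hz).1.of_le two_le')
    (fun z hz => (sec_phb hu he hσ hz).2)

end

end Vale.Agent.P284.H66.FDs
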