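import Vale.Agent.P284.H66.FDs3
import Mathlib.Combinatorics.Nullstellensatz
import Mathlib.Analysis.Normed.Module.FiniteDimension

/-!
# P284 (helper66), RANK★, part 1: Taylor polynomials on a grid
-/

open scoped Topology ContDiff
open Filter Set Metric Asymptotics

noncomputable section

namespace Vale.Agent.P284.H66.Rk

open Vale.Agent.P272.K Vale.Agent.P284.H66.FDs

variable {n : ℕ}

/-- the Taylor polynomial of order `M` of `G` at `y` -/
def tay (M : ℕ) (G : Cm n → ℂ) (y v : Cm n) : ℂ :=
  ∑ k ∈ Finset.range (M + 1), (k.factorial : ℂ)⁻¹ * iteratedFDeriv ℂ k G y fun _ => v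

/-- all derivatives of order at most `M` vanish -/
def Flat (M : ℕ) (G : Cm n → ℂ) (y : Cm n) : Prop :=
  ∀ k ≤ M, ∀ v, (iteratedFDeriv ℂ k G y fun _ => v) = 0

/-- the grid `{0, .., M}ⁿ` -/
def gr (M : ℕ) (g : Fin n → Fin (M + 1)) : Cm n := fun i => ((g i : ℕ) : ℂ)

theorem flat_of_grid {M : ℕ} {G : Cm n → ℂ} {y : Cm n}
    (h : ∀ g : Fin n → Fin (M + 1), tay M G y (gr M g) = 0) : Flat M G y := by
  classical
  choose P hP hPe using fun k : ℕ => exists_poly (iteratedFDeriv ℂ k G y)
  set Q : MvPolynomial (Fin n) ℂ :=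
    ∑ k ∈ Finset.range (M + 1), MvPolynomial.C ((k.factorial : ℂ)⁻¹) * P k with hQ
  have hQe : ∀ v, MvPolynomial.eval v Q = tay M G y v := by
    intro v
    rw [hQ, map_sum]
    refine Finset.sum_congr rfl fun k _ => ?_
    rw [map_mul, MvPolynomial.eval_C, hPe]
  have hdeg : Q.totalDegree ≤ M := by
    refine (MvPolynomial.totalDegree_finsetSum _ _).trans (Finset.sup_le fun k hk => ?_)
    refine ((hP k).C_mul _).totalDegree_le.trans ?_
    have := Finset.mem_range.1 hk
    omega
  have hinj : Function.Injective fun j : Fin (M + 1) => ((j : ℕ) : ℂ) := fun a b hab =>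
    Fin.ext (Nat.cast_injective hab)
  have hQ0 : Q = 0 := by
    refine MvPolynomial.eq_zero_of_eval_zero_at_prod_finset Q
      (fun _ => Finset.univ.image fun j : Fin (M + 1) => ((j : ℕ) : ℂ)) ?_ ?_
    · intro i
      rw [Finset.card_image_of_injective _ hinj, Finset.card_univ, Fintype.card_fin]
      exact Nat.lt_succ_of_le ((MvPolynomial.degreeOf_le_totalDegree Q i).trans hdeg)
    · intro x hx
      have hx' : ∀ i, ∃ j : Fin (M + 1), ((j : ℕ) : ℂ) = x i := by
        intro i
        obtain ⟨j, -, hj⟩ := Finset.mem_image.1 (hx i)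
        exact ⟨j, hj⟩
      choose g hg using hx'
      have hgx : gr M g = x := funext hg
      rw [← hgx, hQe]
      exact h g
  intro k hk v
  have h1 : MvPolynomial.homogeneousComponent k Q = MvPolynomial.C ((k.factorial : ℂ)⁻¹) * P k := by
    rw [hQ, map_sum, Finset.sum_eq_single k]
    · rw [MvPolynomial.homogeneousComponent_of_mem ((hP k).C_mul _), if_pos rfl]
    · intro j _ hj
      rw [MvPolynomial.homogeneousComponent_of_mem ((hP j).C_mul _), if_neg (Ne.symm hj)]
    · intro hk'
      exact absurd (Finset.mem_range.2 (Nat.lt_succ_of_le hk)) hk'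
  rw [hQ0, map_zero] at h1
  have h2 := congrArg (MvPolynomial.eval v) h1
  rw [map_zero, map_mul, MvPolynomial.eval_C, hPe] at h2
  have hk' : ((k.factorial : ℂ)⁻¹) ≠ 0 := inv_ne_zero (by exact_mod_cast k.factorial_ne_zero)
  exact (mul_eq_zero.1 h2.symm).resolve_left hk'

theorem grid_of_flat {M : ℕ} {G : Cm n → ℂ} {y : Cm n} (h : Flat M G y) (v : Cm n) :
    tay M G y v = 0 := by
  refine Finset.sum_eq_zero fun k hk => ?_
  rw [h k (Nat.le_of_lt_succ (Finset.mem_range.1 hk)) v, mul_zero]

theorem flat_isBigO {M : ℕ} {G : Cm n → ℂ} {y : Cm n} (hG : AnalyticAt ℂ G y)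
    (h : Flat M G y) : G =O[𝓝 y] fun z => ‖z - y‖ ^ (M + 1) := by
  obtain ⟨p, r, hp⟩ := hG
  have h1 := hp.hasFPowerSeriesAt.isBigO_sub_partialSum_pow (M + 1)
  have h2 : ∀ v, p.partialSum (M + 1) v = 0 := by
    intro v
    refine Finset.sum_eq_zero fun k hk => ?_
    have h3 := hp.factorial_smul v k
    rw [h k (Nat.le_of_lt_succ (Finset.mem_range.1 hk)) v, nsmul_eq_mul] at h3
    exact (mul_eq_zero.1 h3).resolve_left (by exact_mod_cast k.factorial_ne_zero)
  simp only [h2, sub_zero] at h1
  have h4 : Tendsto (fun z => z - y) (𝓝 y) (𝓝 0) := by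
    have : ContinuousAt (fun z => z - y) y := by fun_prop
    simpa [ContinuousAt] using this
  have h5 := h1.comp_tendsto h4
  refine h5.congr_left fun z => ?_
  show G (y + (z - y)) = G z
  rw [add_sub_cancel]

theorem isBigO_flat {M : ℕ} {G : Cm n → ℂ} {y : Cm n} (hG : AnalyticAt ℂ G y)
    (h : G =O[𝓝 y] fun z => ‖z - y‖ ^ (M + 1)) : Flat M G y := by
  obtain ⟨p, r, hp⟩ := hG
  have h4 : Tendsto (fun v => y + v) (𝓝 0) (𝓝 y) := by
    have : ContinuousAt (fun v => y + v) 0 := by fun_prop
    simpa [ContinuousAt] using this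
  have h5 : (fun v => G (y + v)) =O[𝓝 0] fun v => ‖v‖ ^ (M + 1) := by
    refine (h.comp_tendsto h4).congr_right fun v => ?_
    show ‖y + v - y‖ ^ (M + 1) = _
    rw [add_sub_cancel_left]
  have hk : ∀ k, k ≤ M → ∀ v : Cm n, (p k fun _ => v) = 0 := by
    intro k
    induction k using Nat.strong_induction_on with
    | _ k ih =>
      intro hkM
      have h1 := hp.hasFPowerSeriesAt.isBigO_sub_partialSum_pow (k + 1)
      have h2 : ∀ v, p.partialSum (k + 1) v = p k fun _ => v := by
        intro v
        unfold FormalMultilinearSeries.partialSum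
        rw [Finset.sum_range_succ, Finset.sum_eq_zero, zero_add]
        intro j hj
        exact ih j (Finset.mem_range.1 hj) ((Finset.mem_range.1 hj).le.trans hkM) v
      simp only [h2] at h1
      have h3 : (fun v : Cm n => G (y + v)) =O[𝓝 0] fun v => ‖v‖ ^ (k + 1) := by
        refine h5.trans ?_
        refine IsBigO.of_bound 1 ?_
        filter_upwards [ball_mem_nhds (0 : Cm n) one_pos] with v hv
        have hv' : ‖v‖ ≤ 1 := by
          have : ‖v‖ < 1 := by simpa using hv
          exact this.le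
        rw [one_mul, norm_pow, norm_pow, norm_norm]
        exact pow_le_pow_of_le_one (norm_nonneg _) hv' (by omega)
      have h6 : (fun v : Cm n => p k fun _ => v) =O[𝓝 0] fun v => ‖v‖ ^ (k + 1) := by
        have := h3.sub h1
        refine this.congr_left fun v => ?_
        ring
      intro v
      exact h6.continuousMultilinearMap_apply_eq_zero v
  intro k hkM v
  rw [← hp.factorial_smul v k, hk k hkM v, smul_zero]

end Vale.Agent.P284.H66.Rk
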