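import Vale.Agent.P284.H66.Rk1
import Mathlib.Analysis.Calculus.InverseFunctionTheorem.ContDiff
import Mathlib.Analysis.Calculus.MeanValue

/-!
# P284 (helper66), RANK★, part 2: the constant rank theorem
-/

open scoped Topology ContDiff
open Filter Set Metric Asymptotics

noncomputable section

namespace Vale.Agent.P284.H66.Rk

open Vale.Agent.P272.K

variable {n N : ℕ}

/-- the rank of the derivative -/
def rk (H : Cm n → Cm N) (z : Cm n) : ℕ :=
  Module.finrank ℂ (LinearMap.range (fderiv ℂ H z : Cm n →ₗ[ℂ] Cm N))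

theorem const_rank {H : Cm n → Cm N} {y : Cm n} (hH : ContDiffAt ℂ ω H y)
    (hr : ∀ᶠ z in 𝓝 y, rk H z ≤ rk H y) : ∃ (π : Cm n → Cm (rk H y)) (h : Cm (rk H y) → Cm N),
    ContDiffAt ℂ ω π y ∧ ContDiffAt ℂ ω h (π y) ∧ ∀ᶠ z in 𝓝 y, H z = h (π z) := by
  set L : Cm n →L[ℂ] Cm N := fderiv ℂ H y with hL
  set R : Submodule ℂ (Cm N) := LinearMap.range (L : Cm n →ₗ[ℂ] Cm N) with hR
  set K : Submodule ℂ (Cm n) := LinearMap.ker (L : Cm n →ₗ[ℂ] Cm N) with hK
  have hfr : Module.finrank ℂ R = Module.finrank ℂ (Cm (rk H y)) := by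
    rw [Module.finrank_fin_fun]
    rfl
  let φ : R ≃L[ℂ] Cm (rk H y) := ContinuousLinearEquiv.ofFinrankEq hfr
  obtain ⟨P₀, hP₀⟩ := R.subtype.exists_leftInverse_of_injective R.ker_subtype
  obtain ⟨κ₀, hκ₀⟩ := K.subtype.exists_leftInverse_of_injective K.ker_subtype
  let P : Cm N →L[ℂ] Cm (rk H y) := (φ : R →L[ℂ] Cm (rk H y)).comp (LinearMap.toContinuousLinearMap P₀)
  let κ : Cm n →L[ℂ] K := LinearMap.toContinuousLinearMap κ₀
  have hPR : ∀ v : R, P v = φ v := by
    intro v
    have := congrArg (fun f => f v) hP₀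
    show φ (P₀ v) = φ v
    congr 1
  have hκK : ∀ v : K, κ v = v := by
    intro v
    exact congrArg (fun f => f v) hκ₀
  -- the coordinates
  let Θ : Cm n → Cm (rk H y) × K := fun z => (P (H z), κ z)
  have hΘ : ContDiffAt ℂ ω Θ y := (P.contDiff.contDiffAt.comp y hH).prodMk κ.contDiff.contDiffAt
  have hd : HasFDerivAt Θ ((P.comp L).prod κ) y := by
    have h1 : HasFDerivAt H L y := (hH.differentiableAt (by simp)).hasFDerivAt
    exact (P.hasFDerivAt.comp y h1).prodMk κ.hasFDerivAt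
  have hinj : Function.Injective (((P.comp L).prod κ : Cm n →L[ℂ] Cm (rk H y) × K) :
      Cm n →ₗ[ℂ] Cm (rk H y) × K) := by
    rw [injective_iff_map_eq_zero]
    intro ξ hξ
    have h1 : P (L ξ) = 0 := congrArg Prod.fst hξ
    have h2 : κ ξ = 0 := congrArg Prod.snd hξ
    have h3 : L ξ = 0 := by
      have h4 := hPR ⟨L ξ, ⟨ξ, rfl⟩⟩
      have h5 : φ ⟨L ξ, ⟨ξ, rfl⟩⟩ = 0 := by rw [← h4]; exact h1
      have h6 := (map_eq_zero_iff φ φ.injective).1 h5
      exact congrArg Subtype.val h6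
    have h7 := hκK ⟨ξ, h3⟩
    have h8 : (⟨ξ, h3⟩ : K) = 0 := by rw [← h7]; exact h2
    exact congrArg Subtype.val h8
  have hdim : Module.finrank ℂ (Cm n) = Module.finrank ℂ (Cm (rk H y) × K) := by
    rw [Module.finrank_prod, ← hfr]
    exact (LinearMap.finrank_range_add_finrank_ker (L : Cm n →ₗ[ℂ] Cm N)).symm
  let eL : Cm n ≃L[ℂ] Cm (rk H y) × K :=
    (LinearEquiv.ofInjectiveOfFinrankEq _ hinj hdim).toContinuousLinearEquiv
  have heL : (eL : Cm n →L[ℂ] Cm (rk H y) × K) = (P.comp L).prod κ := by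
    ext v <;> rfl
  have hd' : HasFDerivAt Θ (eL : Cm n →L[ℂ] Cm (rk H y) × K) y := by rw [heL]; exact hd
  let T := hΘ.toOpenPartialHomeomorph Θ hd' (by simp)
  have hTy : y ∈ T.source := hΘ.mem_toOpenPartialHomeomorph_source hd' (by simp)
  have hTc : ∀ z, T z = Θ z := fun z => by
    rw [ContDiffAt.toOpenPartialHomeomorph_coe]
  have hχ : ContDiffAt ℂ ω T.symm (Θ y) := hΘ.to_localInverse hd' (by simp)
  have hχy : T.symm (Θ y) = y := by
    rw [← hTc]
    exact T.left_inv hTy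
  have hχt : Tendsto T.symm (𝓝 (Θ y)) (𝓝 y) := by
    have := hχ.continuousAt.tendsto
    rwa [hχy] at this
  -- the good set
  have hgood : ∀ᶠ b in 𝓝 (Θ y), b ∈ T.target ∧ DifferentiableAt ℂ T.symm b ∧
      rk H (T.symm b) ≤ rk H y ∧ DifferentiableAt ℂ H (T.symm b) := by
    have h1 : ∀ᶠ b in 𝓝 (Θ y), b ∈ T.target := by
      refine T.open_target.mem_nhds ?_
      rw [← hTc]
      exact T.map_source hTy
    have h2 : ∀ᶠ b in 𝓝 (Θ y), DifferentiableAt ℂ T.symm b :=
      (hχ.eventually (by simp)).mono fun b hb => hb.differentiableAt (by simp)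
    have h3 : ∀ᶠ b in 𝓝 (Θ y), DifferentiableAt ℂ H (T.symm b) :=
      hχt.eventually ((hH.eventually (by simp)).mono fun b hb => hb.differentiableAt (by simp))
    filter_upwards [h1, h2, hχt.eventually hr, h3] with b a1 a2 a3 a4
    exact ⟨a1, a2, a3, a4⟩
  obtain ⟨δ, hδ, hb⟩ := Metric.eventually_nhds_iff_ball.1 hgood
  -- `H ∘ χ` does not depend on the second variable
  have hind : ∀ s ∈ ball (P (H y)) δ, ∀ a ∈ ball (κ y) δ,
      H (T.symm (s, a)) = H (T.symm (s, κ y)) := by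
    intro s hs a ha
    have hmem : ∀ a ∈ ball (κ y) δ, (s, a) ∈ ball (Θ y) δ := by
      intro a ha
      rw [show Θ y = (P (H y), κ y) from rfl, ← ball_prod_same]
      exact ⟨hs, ha⟩
    have hda : ∀ a ∈ ball (κ y) δ, HasFDerivAt (fun a : K => H (T.symm (s, a)))
        (0 : K →L[ℂ] Cm N) a := by
      intro a ha
      obtain ⟨b1, b2, b3, b4⟩ := hb _ (hmem a ha)
      set b : Cm (rk H y) × K := (s, a) with hbdef
      set z := T.symm b with hz
      set D := fderiv ℂ T.symm b with hD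
      have e1 : HasFDerivAt T.symm D b := b2.hasFDerivAt
      have e2 : HasFDerivAt H (fderiv ℂ H z) z := b4.hasFDerivAt
      have e3 : HasFDerivAt Θ ((P.comp (fderiv ℂ H z)).prod κ) z :=
        (P.hasFDerivAt.comp z e2).prodMk κ.hasFDerivAt
      have e4 : HasFDerivAt (fun b => Θ (T.symm b)) (((P.comp (fderiv ℂ H z)).prod κ).comp D) b :=
        HasFDerivAt.comp (g := Θ) b e3 e1
      have e5 : HasFDerivAt (fun b => Θ (T.symm b))
          (ContinuousLinearMap.id ℂ (Cm (rk H y) × K)) b := by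
        refine (hasFDerivAt_id (𝕜 := ℂ) b).congr_of_eventuallyEq ?_
        filter_upwards [T.open_target.mem_nhds b1] with b' hb'
        rw [← hTc]
        exact T.right_inv hb'
      have e6 := e4.unique e5
      have e7 : ∀ β, P (fderiv ℂ H z (D β)) = β.1 := fun β =>
        congrArg Prod.fst (congrArg (fun f => f β) e6)
      -- the kernels agree
      have e8 : LinearMap.ker (fderiv ℂ H z : Cm n →ₗ[ℂ] Cm N) =
          LinearMap.ker ((P.comp (fderiv ℂ H z) : Cm n →L[ℂ] Cm (rk H y)) :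
            Cm n →ₗ[ℂ] Cm (rk H y)) := by
        refine Submodule.eq_of_le_of_finrank_le ?_ ?_
        · intro ξ hξ
          have hξ' : fderiv ℂ H z ξ = 0 := hξ
          show P (fderiv ℂ H z ξ) = 0
          rw [hξ', map_zero]
        · have f1 := LinearMap.finrank_range_add_finrank_ker (fderiv ℂ H z : Cm n →ₗ[ℂ] Cm N)
          have f2 := LinearMap.finrank_range_add_finrank_ker
            ((P.comp (fderiv ℂ H z) : Cm n →L[ℂ] Cm (rk H y)) : Cm n →ₗ[ℂ] Cm (rk H y))
          have f3 : LinearMap.range ((P.comp (fderiv ℂ H z) : Cm n →L[ℂ] Cm (rk H y)) :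
              Cm n →ₗ[ℂ] Cm (rk H y)) = ⊤ := by
            rw [LinearMap.range_eq_top]
            intro σ
            exact ⟨D (σ, 0), e7 (σ, 0)⟩
          rw [f3, finrank_top, Module.finrank_fin_fun] at f2
          have f4 : Module.finrank ℂ (LinearMap.range (fderiv ℂ H z : Cm n →ₗ[ℂ] Cm N)) ≤ rk H y := b3
          omega
      have e9 : ∀ α : K, fderiv ℂ H z (D (0, α)) = 0 := by
        intro α
        have g1 : D (0, α) ∈ LinearMap.ker ((P.comp (fderiv ℂ H z) :
            Cm n →L[ℂ] Cm (rk H y)) : Cm n →ₗ[ℂ] Cm (rk H y)) := e7 (0, α)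
        rw [← e8] at g1
        exact g1
      have e10 : HasFDerivAt (fun a : K => ((s, a) : Cm (rk H y) × K))
          (ContinuousLinearMap.inr ℂ (Cm (rk H y)) K) a := by
        have := (hasFDerivAt_const (𝕜 := ℂ) s a).prodMk (hasFDerivAt_id (𝕜 := ℂ) a)
        exact this
      have e11 : HasFDerivAt (fun a : K => H (T.symm (s, a)))
          ((fderiv ℂ H z).comp (D.comp (ContinuousLinearMap.inr ℂ (Cm (rk H y)) K))) a :=
        HasFDerivAt.comp (g := H) a e2 (HasFDerivAt.comp (g := T.symm) a e1 e10)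
      have e12 : (fderiv ℂ H z).comp (D.comp (ContinuousLinearMap.inr ℂ (Cm (rk H y)) K)) = 0 := by
        ext1 α
        exact e9 α
      rw [e12] at e11
      exact e11
    exact (isOpen_ball (x := κ y) (ε := δ)).is_const_of_fderiv_eq_zero (𝕜 := ℂ)
      (convex_ball (κ y) δ).isPreconnected
      (fun a ha => (hda a ha).differentiableAt.differentiableWithinAt)
      (fun a ha => (hda a ha).fderiv) ha (mem_ball_self hδ)
  refine ⟨fun z => P (H z), fun s => H (T.symm (s, κ y)), P.contDiff.contDiffAt.comp y hH, ?_, ?_⟩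
  · have h1 : ContDiffAt ℂ ω (fun s : Cm (rk H y) => ((s, κ y) : Cm (rk H y) × K)) (P (H y)) := by
      fun_prop
    have h2 : ContDiffAt ℂ ω (fun s : Cm (rk H y) => T.symm (s, κ y)) (P (H y)) :=
      ContDiffAt.comp (g := T.symm) (P (H y)) hχ h1
    have h3 : ContDiffAt ℂ ω H (T.symm (P (H y), κ y)) := by
      rw [show ((P (H y), κ y) : Cm (rk H y) × K) = Θ y from rfl, hχy]
      exact hH
    exact ContDiffAt.comp (g := H) (P (H y)) h3 h2
  · have h1 : ∀ᶠ z in 𝓝 y, Θ z ∈ ball (Θ y) δ :=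
      hΘ.continuousAt.eventually (ball_mem_nhds _ hδ)
    filter_upwards [h1, T.open_source.mem_nhds hTy] with z h2 h3
    rw [show Θ y = (P (H y), κ y) from rfl, ← ball_prod_same] at h2
    have h4 := hind (P (H z)) h2.1 (κ z) h2.2
    have h5 : T.symm (P (H z), κ z) = z := by
      rw [show ((P (H z), κ z) : Cm (rk H y) × K) = Θ z from rfl, ← hTc]
      exact T.left_inv h3
    rw [h5] at h4
    exact h4

end Vale.Agent.P284.H66.Rk
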