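import Vale.Agent.P284.H66.Rk2

/-!
# P284 (helper66), RANK★, part 3: if the jets of the monomials in `H` are independent at `z₀`, the
derivative of `H` is surjective at some point near `z₀`.
-/

open scoped Topology ContDiff
open Filter Set Metric Asymptotics

noncomputable section

namespace Vale.Agent.P284.H66.Rk

open Vale.Agent.P272.K

variable {n N : ℕ}

/-- the monomial `H^β` -/
def mon {d : ℕ} (H : Cm n → Cm N) (β : Fin N → Fin d) (z : Cm n) : ℂ := ∏ i, H z i ^ (β i : ℕ)

/-- the Taylor polynomial on the grid -/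
def tv (M : ℕ) (G : Cm n → ℂ) (y : Cm n) : (Fin n → Fin (M + 1)) → ℂ := fun g => tay M G y (gr M g)

theorem mon_contDiffAt {d : ℕ} {H : Cm n → Cm N} {z : Cm n} (hH : ContDiffAt ℂ ω H z)
    (β : Fin N → Fin d) : ContDiffAt ℂ ω (mon H β) z := by
  unfold mon
  refine contDiffAt_prod fun i _ => ?_
  exact (contDiffAt_pi.1 hH i).pow _

theorem tay_sum {ι : Type} [Fintype ι] {M : ℕ} {G : ι → Cm n → ℂ} {y : Cm n}
    (hG : ∀ j, ContDiffAt ℂ ω (G j) y) (a : ι → ℂ) (v : Cm n) :
    tay M (fun z => ∑ j, a j * G j z) y v = ∑ j, a j * tay M (G j) y v := by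
  unfold tay
  have h1 : ∀ k : ℕ, (iteratedFDeriv ℂ k (fun z => ∑ j, a j * G j z) y fun _ => v) =
      ∑ j, a j * (iteratedFDeriv ℂ k (G j) y fun _ => v) := by
    intro k
    have h2 : ∀ j, ContDiffAt ℂ k (G j) y := fun j => (hG j).of_le (by
      exact le_trans (by exact_mod_cast le_top) (le_refl _))
    rw [iteratedFDeriv_fun_sum_apply (fun j _ => contDiffAt_const.mul (h2 j)),
      sum_apply]
    refine Finset.sum_congr rfl fun j _ => ?_
    have h3 := iteratedFDeriv_const_smul_apply' (a := a j) (h2 j)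
    simp only [smul_eq_mul] at h3
    rw [h3, smul_apply, smul_eq_mul]
  simp only [h1, Finset.mul_sum]
  rw [Finset.sum_comm]
  refine Finset.sum_congr rfl fun j _ => Finset.sum_congr rfl fun k _ => ?_
  ring

theorem tv_continuousOn {M : ℕ} {G : Cm n → ℂ} {U : Set (Cm n)} (hG : AnalyticOnNhd ℂ G U) :
    ContinuousOn (tv M G) U := by
  rw [continuousOn_pi]
  intro g
  unfold tv tay
  refine continuousOn_finsetSum _ fun k _ => continuousOn_const.mul ?_
  have h1 : ContinuousOn (iteratedFDeriv ℂ k G) U := (hG.iteratedFDeriv k).continuousOn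
  intro y hy
  have h2 : ContinuousWithinAt (iteratedFDeriv ℂ k G) U y := h1 y hy
  exact (ContinuousMultilinearMap.apply ℂ (fun _ : Fin k => Cm n) ℂ
    (fun _ => gr M g)).continuous.continuousAt.comp_continuousWithinAt h2

/-- **counting lemma**: at a point of locally maximal rank `r` with `(M + 1) ^ r < d ^ N` some nonzero
polynomial of degree `< d` in each variable vanishes to order `> M` along `H` -/
theorem exists_rel {H : Cm n → Cm N} {y : Cm n} (hH : ContDiffAt ℂ ω H y)
    (hr : ∀ᶠ z in 𝓝 y, rk H z ≤ rk H y) {M d : ℕ} (hc : (M + 1) ^ rk H y < d ^ N) :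
    ∃ a : (Fin N → Fin d) → ℂ, a ≠ 0 ∧ Flat M (fun z => ∑ β, a β * mon H β z) y := by
  obtain ⟨π, h, hπ, hh, he⟩ := const_rank hH hr
  have h1 : ¬ LinearIndependent ℂ fun β : Fin N → Fin d => tv M (mon h β) (π y) := by
    intro h2
    have h3 := h2.fintype_card_le_finrank
    rw [Module.finrank_fintype_fun_eq_card] at h3
    simp only [Fintype.card_pi, Fintype.card_fin, Finset.prod_const, Finset.card_univ] at h3
    omega
  rw [Fintype.not_linearIndependent_iff] at h1
  obtain ⟨a, ha, β₀, hβ₀⟩ := h1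
  have hmh := fun β : Fin N → Fin d => mon_contDiffAt hh β
  have hmH := fun β : Fin N → Fin d => mon_contDiffAt hH β
  have h4 : Flat M (fun s => ∑ β, a β * mon h β s) (π y) := by
    refine flat_of_grid fun g => ?_
    rw [tay_sum hmh a]
    have := congrFun ha g
    simpa [tv] using this
  have hsum : ContDiffAt ℂ ω (fun s => ∑ β, a β * mon h β s) (π y) :=
    ContDiffAt.sum fun β _ => contDiffAt_const.mul (hmh β)
  have hsumH : ContDiffAt ℂ ω (fun s => ∑ β, a β * mon H β s) y :=
    ContDiffAt.sum fun β _ => contDiffAt_const.mul (hmH β)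
  have h5 := flat_isBigO hsum.analyticAt h4
  have h6 : (fun z => ∑ β, a β * mon H β z) =O[𝓝 y] fun z => ‖z - y‖ ^ (M + 1) := by
    have h7 := h5.comp_tendsto hπ.continuousAt.tendsto
    have h8 : (fun z => ‖π z - π y‖ ^ (M + 1)) =O[𝓝 y] fun z => ‖z - y‖ ^ (M + 1) := by
      have h9 : (fun z => π z - π y) =O[𝓝 y] fun z => z - y :=
        (hπ.differentiableAt (by simp)).isBigO_sub
      exact h9.norm_norm.pow (M + 1)
    have h10 := h7.trans h8
    refine h10.congr' ?_ EventuallyEq.rfl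
    filter_upwards [he] with z hz
    show ∑ β, a β * mon h β (π z) = ∑ β, a β * mon H β z
    refine Finset.sum_congr rfl fun β _ => ?_
    unfold mon
    rw [hz]
  exact ⟨a, fun h0 => hβ₀ (by rw [h0]; rfl), isBigO_flat hsumH.analyticAt h6⟩

/-- dependence at a point of locally maximal rank -/
theorem dep {H : Cm n → Cm N} {y : Cm n} (hH : ContDiffAt ℂ ω H y)
    (hr : ∀ᶠ z in 𝓝 y, rk H z ≤ rk H y) {M d : ℕ} (hc : (M + 1) ^ rk H y < d ^ N) :
    ¬ LinearIndependent ℂ fun β : Fin N → Fin d => tv M (mon H β) y := by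
  intro hli
  obtain ⟨a, ha, hf⟩ := exists_rel hH hr hc
  have hmH := fun β : Fin N → Fin d => mon_contDiffAt hH β
  refine ha (funext fun β => Fintype.linearIndependent_iff.1 hli a ?_ β)
  funext g
  have := grid_of_flat hf (gr M g)
  rw [tay_sum hmH a] at this
  simpa [tv] using this

/-- **surjective derivative near `z₀`** -/
theorem exists_surj {H : Cm n → Cm N} {z₀ : Cm n} {ρ : ℝ} (hρ : 0 < ρ)
    (hH : ∀ z ∈ ball z₀ ρ, ContDiffAt ℂ ω H z) {M d : ℕ} (hc : (M + 1) ^ (N - 1) < d ^ N)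
    (hli : LinearIndependent ℂ fun β : Fin N → Fin d => tv M (mon H β) z₀) :
    ∃ z ∈ ball z₀ ρ, Function.Surjective (fderiv ℂ H z) := by
  by_contra hcon
  push Not at hcon
  have hcont : ContinuousAt (fun y => fun β : Fin N → Fin d => tv M (mon H β) y) z₀ := by
    rw [continuousAt_pi]
    intro β
    have h1 : AnalyticOnNhd ℂ (mon H β) (ball z₀ ρ) := fun z hz =>
      (mon_contDiffAt (hH z hz) β).analyticAt
    exact (tv_continuousOn h1).continuousAt (ball_mem_nhds z₀ hρ)
  have h2 : ∀ᶠ y in 𝓝 z₀, LinearIndependent ℂ fun β : Fin N → Fin d => tv M (mon H β) y :=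
    hcont.eventually (isOpen_setOfPred_linearIndependent.mem_nhds hli)
  obtain ⟨ε, hε, hb⟩ := Metric.eventually_nhds_iff_ball.1 (h2.and (ball_mem_nhds z₀ hρ))
  -- a point of maximal rank
  obtain ⟨z₁, hz₁, hmax⟩ : ∃ z₁ ∈ ball z₀ ε, ∀ z ∈ ball z₀ ε, rk H z ≤ rk H z₁ := by
    have hne : (ball z₀ ε).Nonempty := ⟨z₀, mem_ball_self hε⟩
    obtain ⟨z₁, h3, h4⟩ := (measure fun z : Cm n => N - rk H z).wf.has_min (ball z₀ ε) hne
    refine ⟨z₁, h3, fun z hz => ?_⟩
    have h5 : ¬ (N - rk H z < N - rk H z₁) := h4 z hz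
    have h6 : rk H z ≤ N := by
      have := Submodule.finrank_le (LinearMap.range (fderiv ℂ H z : Cm n →ₗ[ℂ] Cm N))
      rw [Module.finrank_fin_fun] at this
      exact this
    omega
  have h7 : rk H z₁ < N := by
    have h8 : LinearMap.range (fderiv ℂ H z₁ : Cm n →ₗ[ℂ] Cm N) ≠ ⊤ := by
      rw [Ne, LinearMap.range_eq_top]
      exact hcon z₁ (hb z₁ hz₁).2
    have := Submodule.finrank_lt h8
    rw [Module.finrank_fin_fun] at this
    exact this
  refine dep (hH z₁ (hb z₁ hz₁).2) ?_ ?_ (hb z₁ hz₁).1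
  · filter_upwards [isOpen_ball.mem_nhds hz₁] with z hz
    exact hmax z hz
  · exact lt_of_le_of_lt (Nat.pow_le_pow_right (by omega) (by omega)) hc

end Vale.Agent.P284.H66.Rk
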