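import Vale.Agent.P284.H66.Rk3
import Vale.Agent.P284.H66.FDs4
import Vale.Agent.P284.H10.Rank

/-!
# P284 (helper66), RANK★, part 4: the rank of the Albanese map from the curves through one point
-/

open scoped Manifold ContDiff Topology ComplexConjugate
open Filter Set Metric MeasureTheory Asymptotics

noncomputable section

namespace Vale.Agent.P284.H66.Rk

open Vale.Agent.P272.K Vale.Agent.P284.H894.V Vale.Agent.P284.H894.F Vale.Agent.P284.H5.V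
  Vale.Agent.P284.H894 Vale.Agent.P284.H894.W Vale.Agent.P284.H894.G Vale.Agent.P284.H66.FDs

variable {n N : ℕ}

/-! ### Growth -/

theorem comp_bound {A : ℂ → ℂ} (hA : Differentiable ℂ A) {C : ℝ} {m : ℕ}
    (hC : ∀ t, ‖deriv A t‖ ≤ C * (1 + ‖t‖) ^ m) :
    ∃ C' : ℝ, 0 ≤ C' ∧ ∀ t, ‖A t‖ ≤ C' * (1 + ‖t‖) ^ (m + 1) := by
  refine ⟨‖A 0‖ + |C|, by positivity, fun t => ?_⟩
  have h1 : ‖A t - A 0‖ ≤ (|C| * (1 + ‖t‖) ^ m) * ‖t - 0‖ := by
    refine (convex_closedBall (0 : ℂ) ‖t‖).norm_image_sub_le_of_norm_deriv_le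
      (fun x _ => hA x) (fun x hx => ?_) (mem_closedBall_self (norm_nonneg t)) (by simp)
    have hx' : ‖x‖ ≤ ‖t‖ := by simpa using hx
    refine (hC x).trans ?_
    refine (mul_le_mul_of_nonneg_right (le_abs_self C) (by positivity)).trans ?_
    exact mul_le_mul_of_nonneg_left (pow_le_pow_left₀ (by positivity) (by linarith) m)
      (abs_nonneg C)
  rw [sub_zero] at h1
  have h2 : ‖A t‖ ≤ ‖A 0‖ + |C| * (1 + ‖t‖) ^ m * ‖t‖ := by
    calc ‖A t‖ = ‖A 0 + (A t - A 0)‖ := by rw [add_sub_cancel]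
      _ ≤ ‖A 0‖ + ‖A t - A 0‖ := norm_add_le _ _
      _ ≤ _ := by linarith
  refine h2.trans ?_
  have h3 : (1 : ℝ) ≤ (1 + ‖t‖) ^ (m + 1) := one_le_pow₀ (by linarith [norm_nonneg t])
  have h4 : (1 + ‖t‖) ^ m * ‖t‖ ≤ (1 + ‖t‖) ^ (m + 1) := by
    rw [pow_succ]
    exact mul_le_mul_of_nonneg_left (by linarith) (by positivity)
  calc ‖A 0‖ + |C| * (1 + ‖t‖) ^ m * ‖t‖ = ‖A 0‖ * 1 + |C| * ((1 + ‖t‖) ^ m * ‖t‖) := by ring
    _ ≤ ‖A 0‖ * (1 + ‖t‖) ^ (m + 1) + |C| * (1 + ‖t‖) ^ (m + 1) := by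
        exact add_le_add (mul_le_mul_of_nonneg_left h3 (norm_nonneg _))
          (mul_le_mul_of_nonneg_left h4 (abs_nonneg _))
    _ = _ := by ring

theorem deriv_bound {g : ℂ → ℂ} (hg : Differentiable ℂ g) {C : ℝ} {K : ℕ} (hC : 0 ≤ C)
    (h : ∀ t, ‖g t‖ ≤ C * (1 + ‖t‖) ^ K) : ∃ C' : ℝ, ∀ t, ‖deriv g t‖ ≤ C' * (1 + ‖t‖) ^ K := by
  refine ⟨C * 2 ^ K, fun t => ?_⟩
  have h1 : ‖deriv g t‖ ≤ C * 2 ^ K * (1 + ‖t‖) ^ K / 1 := by
    refine Complex.norm_deriv_le_of_forall_mem_sphere_norm_le one_pos hg.diffContOnCl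
      fun z hz => ?_
    have hz' : ‖z - t‖ = 1 := by simpa using hz
    have h2 : ‖z‖ ≤ ‖t‖ + 1 := by
      calc ‖z‖ = ‖t + (z - t)‖ := by rw [add_sub_cancel]
        _ ≤ ‖t‖ + ‖z - t‖ := norm_add_le _ _
        _ = _ := by rw [hz']
    refine (h z).trans ?_
    rw [mul_assoc, ← mul_pow]
    exact mul_le_mul_of_nonneg_left (pow_le_pow_left₀ (by positivity)
      (by linarith [norm_nonneg t]) K) hC
  simpa using h1

theorem mon_growth {A : Fin N → ℂ → ℂ} {m : ℕ}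
    (hC : ∀ i, ∃ C : ℝ, 0 ≤ C ∧ ∀ t, ‖A i t‖ ≤ C * (1 + ‖t‖) ^ (m + 1)) {d : ℕ}
    (a : (Fin N → Fin d) → ℂ) : ∃ C : ℝ, 0 ≤ C ∧ ∀ t,
      ‖∑ β, a β * ∏ i, A i t ^ (β i : ℕ)‖ ≤ C * (1 + ‖t‖) ^ ((m + 1) * (N * d)) := by
  choose C hC0 hC using hC
  refine ⟨∑ β, ‖a β‖ * (∏ i, (C i + 1)) ^ d, ?_, fun t => ?_⟩
  · refine Finset.sum_nonneg fun β _ => mul_nonneg (norm_nonneg _) (pow_nonneg ?_ d)
    exact Finset.prod_nonneg fun i _ => by linarith [hC0 i]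
  have hx : (1 : ℝ) ≤ (1 + ‖t‖) ^ (m + 1) := one_le_pow₀ (by linarith [norm_nonneg t])
  have h1 : ∀ β : Fin N → Fin d, ‖∏ i, A i t ^ (β i : ℕ)‖ ≤
      (∏ i, (C i + 1)) ^ d * (1 + ‖t‖) ^ ((m + 1) * (N * d)) := by
    intro β
    rw [norm_prod]
    have h2 : ∀ i, ‖A i t ^ (β i : ℕ)‖ ≤ ((C i + 1) * (1 + ‖t‖) ^ (m + 1)) ^ d := by
      intro i
      rw [norm_pow]
      have h3 : ‖A i t‖ ≤ (C i + 1) * (1 + ‖t‖) ^ (m + 1) :=
        (hC i t).trans (mul_le_mul_of_nonneg_right (by linarith) (by positivity))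
      have h4 : (1 : ℝ) ≤ (C i + 1) * (1 + ‖t‖) ^ (m + 1) := by
        have := hC0 i
        nlinarith
      exact (pow_le_pow_left₀ (norm_nonneg _) h3 _).trans (pow_le_pow_right₀ h4 (β i).2.le)
    refine (Finset.prod_le_prod (fun i _ => norm_nonneg _) fun i _ => h2 i).trans (le_of_eq ?_)
    rw [Finset.prod_pow, Finset.prod_mul_distrib, Finset.prod_const, Finset.card_univ,
      Fintype.card_fin, mul_pow, ← pow_mul, ← pow_mul]
  calc ‖∑ β, a β * ∏ i, A i t ^ (β i : ℕ)‖ ≤ ∑ β, ‖a β * ∏ i, A i t ^ (β i : ℕ)‖ :=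
        norm_sum_le _ _
    _ ≤ ∑ β, ‖a β‖ * ((∏ i, (C i + 1)) ^ d * (1 + ‖t‖) ^ ((m + 1) * (N * d))) := by
        refine Finset.sum_le_sum fun β _ => ?_
        rw [norm_mul]
        exact mul_le_mul_of_nonneg_left (h1 β) (norm_nonneg _)
    _ = _ := by
        rw [Finset.sum_mul]
        exact Finset.sum_congr rfl fun β _ => by ring

section
variable {X : Type} [TopologicalSpace X] [ChartedSpace (Cm n) X] [IsManifold 𝓘(ℂ, Cm n) ω X]
  {E : Type} [TopologicalSpace E]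
  {p : E → X} {w : Chart n X → Cm n → Matrix (Fin n) (Fin n) ℂ} {F : E → Cm N} {B : ℝ}
  {f : ℂ → X}

/-- the derivative of `F` along a curve -/
theorem along (hF : HolB p w F B) {Fl : ℂ → E} (hFl : Continuous Fl) (hpF : ∀ t, p (Fl t) = f t)
    (hf : ContMDiff 𝓘(ℂ) 𝓘(ℂ, Cm n) ω f) (t : ℂ) :
    DifferentiableAt ℂ (fun t => F (Fl t)) t ∧
      ‖deriv (fun t => F (Fl t)) t‖ ^ 2 ≤ B * speedSq w f t := by
  set e := chartAt (Cm n) (f t) with he
  have hAt : At e (f t) := at_chartAt _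
  obtain ⟨g, hg1, hg2, hg3⟩ := hF (Fl t) e (by rw [hpF]; exact hAt)
  rw [hpF] at hg2 hg3
  have h1 : (fun s => F (Fl s)) =ᶠ[𝓝 t] fun s => g (e (f s)) := by
    filter_upwards [hFl.continuousAt.eventually hg1] with s hs
    rw [hs, hpF]
  have hτ : HasDerivAt (fun s => e (f s)) (deriv (fun s => e (f s)) t) t :=
    ((tau_sm hf hAt).differentiableAt (by simp)).hasDerivAt
  have h2 : HasDerivAt (fun s => g (e (f s)))
      (fderiv ℂ g (e (f t)) (deriv (fun s => e (f s)) t)) t :=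
    HasFDerivAt.comp_hasDerivAt (l := g) (f := fun s => e (f s)) t
      hg2.self_of_nhds.hasFDerivAt hτ
  have h3 := h2.congr_of_eventuallyEq h1
  refine ⟨h3.differentiableAt, ?_⟩
  rw [h3.deriv]
  have h4 := hg3 (fun k => deriv (fun s => e (f s) k) t)
  rw [vel_eq hf hAt] at h4
  exact h4

theorem comp_growth (hw : IsHermitian w) (hF : HolB p w F B) {x : X} {v : Cm n} {ρ : ℝ}
    (hf : FiniteOrderCurve w x v ρ f) {Fl : ℂ → E} (hFl : Continuous Fl)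
    (hpF : ∀ t, p (Fl t) = f t) {m : ℕ} (hm : ρ ≤ 2 * m) (i : Fin N) :
    Differentiable ℂ (fun t => F (Fl t) i) ∧
      ∃ C : ℝ, 0 ≤ C ∧ ∀ t, ‖F (Fl t) i‖ ≤ C * (1 + ‖t‖) ^ (m + 1) := by
  have hal := along hF hFl hpF hf.holo
  have hd : Differentiable ℂ fun t => F (Fl t) i := fun t =>
    differentiableAt_pi.1 (hal t).1 i
  have hle : ∀ t, ‖deriv (fun t => F (Fl t) i) t‖ ^ 2 ≤ |B| * speedSq w f t := by
    intro t
    have h1 : deriv (fun t => F (Fl t) i) t = deriv (fun t => F (Fl t)) t i :=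
      ((hasDerivAt_pi.1 (hal t).1.hasDerivAt) i).deriv
    rw [h1]
    have h2 : ‖deriv (fun t => F (Fl t)) t i‖ ≤ ‖deriv (fun t => F (Fl t)) t‖ := norm_le_pi_norm _ i
    calc ‖deriv (fun t => F (Fl t)) t i‖ ^ 2 ≤ ‖deriv (fun t => F (Fl t)) t‖ ^ 2 :=
          pow_le_pow_left₀ (norm_nonneg _) h2 2
      _ ≤ B * speedSq w f t := (hal t).2
      _ ≤ _ := mul_le_mul_of_nonneg_right (le_abs_self B) (speed_nonneg hw hf.holo t)
  obtain ⟨C, hC⟩ := hf.order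
  have hsc := speed_continuous hw hf.holo
  have hdA : Continuous (deriv fun t => F (Fl t) i) := by
    have h2 : ContDiff ℂ 1 fun t => F (Fl t) i := hd.contDiff
    exact h2.continuous_deriv le_rfl
  have hint : ∀ {g : ℂ → ℝ}, Continuous g → ∀ r : ℝ, IntegrableOn g (ball (0 : ℂ) r) :=
    fun hg r => (hg.continuousOn.integrableOn_compact
      (isCompact_closedBall 0 r)).mono_set ball_subset_closedBall
  obtain ⟨C', hC'⟩ := growth hd (C := |B| * C) (ρ := ρ) (fun r hr => by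
    calc ∫ t in ball (0 : ℂ) r, ‖deriv (fun t => F (Fl t) i) t‖ ^ 2
        ≤ ∫ t in ball (0 : ℂ) r, |B| * speedSq w f t :=
          setIntegral_mono_on (hint (hdA.norm.pow 2) r)
            (hint (continuous_const.mul hsc) r) measurableSet_ball fun t _ => hle t
      _ = |B| * ∫ t in ball (0 : ℂ) r, speedSq w f t := integral_const_mul _ _
      _ ≤ |B| * (C * r ^ ρ) := mul_le_mul_of_nonneg_left (hC r hr) (by positivity)
      _ = _ := by ring) hm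
  exact ⟨hd, comp_bound hd hC'⟩

omit [IsManifold 𝓘(ℂ, Cm n) ω X] in
/-- `F` in the chart is holomorphic -/
theorem sec_diff (hF : HolB p w F B) {e : Chart n X} {y₀ : E} (he : At e (p y₀)) {r : ℝ}
    {σ : Cm n → E} (hσ : LSec p e y₀ r σ) :
    ∀ z ∈ ball (e (p y₀)) r, DifferentiableAt ℂ (fun z => F (σ z)) z := by
  intro z hz
  obtain ⟨g, hg1, hg2, -⟩ := hF (σ z) e ⟨he.1, hσ.src z hz⟩
  rw [hσ.inv z hz] at hg2
  have hc : ContinuousAt σ z := hσ.cont.continuousAt (isOpen_ball.mem_nhds hz)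
  refine hg2.self_of_nhds.congr_of_eventuallyEq ?_
  filter_upwards [hc.eventually hg1, isOpen_ball.mem_nhds hz] with z' h1 h2
  rw [h1, hσ.inv z' h2]

omit [IsManifold 𝓘(ℂ, Cm n) ω X] in
theorem sec_contDiff (hF : HolB p w F B) {e : Chart n X} {y₀ : E} (he : At e (p y₀)) {r : ℝ}
    {σ : Cm n → E} (hσ : LSec p e y₀ r σ) :
    ∀ z ∈ ball (e (p y₀)) r, ContDiffAt ℂ ω (fun z => F (σ z)) z := by
  intro z hz
  rw [contDiffAt_pi]
  intro i
  have h1 : DifferentiableOn ℂ (fun z => F (σ z) i) (ball (e (p y₀)) r) := fun z hz =>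
    (differentiableAt_pi.1 (sec_diff hF he hσ z hz) i).differentiableWithinAt
  exact (Vale.Agent.P281.MF.analyticAt_of_differentiableOn isOpen_ball h1 hz).contDiffAt

/-- a regular point -/
theorem sec_reg (hp : IsCoveringMap p) (hF : HolB p w F B) {e : Chart n X} {y₀ : E}
    (he : At e (p y₀)) {r : ℝ} {σ : Cm n → E} (hσ : LSec p e y₀ r σ) {z : Cm n}
    (hz : z ∈ ball (e (p y₀)) r) (hs : Function.Surjective (fderiv ℂ (fun z => F (σ z)) z)) :
    Reg (n := n) p F (σ z) := by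
  intro e' f' hAt' hf'
  have hAt : At e (p (σ z)) := ⟨he.1, hσ.src z hz⟩
  obtain ⟨g, hg1, hg2, -⟩ := hF (σ z) e' hAt'
  -- `f'` is differentiable
  have h1 : f' =ᶠ[𝓝 (e' (p (σ z)))] g := by
    rw [← map_nhds_chart hp hAt'.2]
    rw [Filter.EventuallyEq, eventually_map]
    filter_upwards [hf', hg1] with y h2 h3
    rw [← h2, ← h3]
  have h2 : DifferentiableAt ℂ f' (e' (p (σ z))) :=
    hg2.self_of_nhds.congr_of_eventuallyEq h1
  have hc : ContinuousAt σ z := hσ.cont.continuousAt (isOpen_ball.mem_nhds hz)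
  have h3 : ∀ z' ∈ ball (e (p y₀)) r, p (σ z') = e.symm z' := by
    intro z' hz'
    rw [← e.left_inv (hσ.src z' hz'), hσ.inv z' hz']
  have h4 : (fun z => F (σ z)) =ᶠ[𝓝 z] fun z => f' (e' (e.symm z)) := by
    filter_upwards [hc.eventually hf', isOpen_ball.mem_nhds hz] with z' h5 h6
    rw [h5, h3 z' h6]
  have h5 : DifferentiableAt ℂ (fun z => e' (e.symm z)) z := by
    have := transition_differentiableAt hAt hAt'
    rwa [hσ.inv z hz] at this
  have h6 : e' (e.symm z) = e' (p (σ z)) := by rw [h3 z hz]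
  have h7 : HasFDerivAt (fun z => f' (e' (e.symm z)))
      ((fderiv ℂ f' (e' (p (σ z)))).comp (fderiv ℂ (fun z => e' (e.symm z)) z)) z := by
    have h8 : HasFDerivAt f' (fderiv ℂ f' (e' (p (σ z)))) (e' (e.symm z)) := by
      rw [h6]
      exact h2.hasFDerivAt
    exact HasFDerivAt.comp (g := f') z h8 h5.hasFDerivAt
  rw [h4.fderiv_eq, h7.fderiv] at hs
  intro v
  obtain ⟨ξ, hξ⟩ := hs v
  exact ⟨_, hξ⟩

end

end Vale.Agent.P284.H66.Rk
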