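import Vale.Agent.P284.H66.Rk4

/-!
# P284 (helper66), RANK★, part 5: `rankZ`
-/

open scoped Manifold ContDiff Topology ComplexConjugate
open Filter Set Metric MeasureTheory Asymptotics

noncomputable section

namespace Vale.Agent.P284.H66.Rk

open Vale.Agent.P272.K Vale.Agent.P284.H894.V Vale.Agent.P284.H894.F Vale.Agent.P284.H5.V
  Vale.Agent.P284.H894 Vale.Agent.P284.H894.W Vale.Agent.P284.H894.G Vale.Agent.P284.H66.FDs

variable {n N : ℕ}

/-- the polynomial with coefficients `a` -/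
def pol {d : ℕ} (a : (Fin N → Fin d) → ℂ) : MvPolynomial (Fin N) ℂ :=
  ∑ β, MvPolynomial.monomial (Finsupp.equivFunOnFinite.symm fun i => (β i : ℕ)) (a β)

theorem eval_pol {d : ℕ} (a : (Fin N → Fin d) → ℂ) (u : Cm N) :
    MvPolynomial.eval u (pol a) = ∑ β, a β * ∏ i, u i ^ (β i : ℕ) := by
  unfold pol
  rw [map_sum]
  refine Finset.sum_congr rfl fun β _ => ?_
  rw [MvPolynomial.eval_monomial, Finsupp.prod_fintype _ _ (fun i => pow_zero _)]
  rfl

theorem coeff_pol {d : ℕ} (a : (Fin N → Fin d) → ℂ) (β₀ : Fin N → Fin d) :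
    (pol a).coeff (Finsupp.equivFunOnFinite.symm fun i => (β₀ i : ℕ)) = a β₀ := by
  classical
  unfold pol
  rw [MvPolynomial.coeff_sum, Finset.sum_eq_single β₀]
  · rw [MvPolynomial.coeff_monomial, if_pos rfl]
  · intro β _ hβ
    rw [MvPolynomial.coeff_monomial, if_neg]
    intro h
    apply hβ
    funext i
    have := congrFun (congrArg (fun s : Fin N →₀ ℕ => (s : Fin N → ℕ)) h) i
    exact Fin.ext this
  · intro h
    exact absurd (Finset.mem_univ _) h

section
variable {X : Type} [TopologicalSpace X] [ChartedSpace (Cm n) X] [IsManifold 𝓘(ℂ, Cm n) ω X]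
  {E : Type} [TopologicalSpace E]
  {p : E → X} {w : Chart n X → Cm n → Matrix (Fin n) (Fin n) ℂ} {F : E → Cm N} {B : ℝ}
  {f : ℂ → X}

/-- the curve data for `q ∘ F` -/
theorem pol_match (hw : IsHermitian w) (hp : IsCoveringMap p) (hF : HolB p w F B) {y₀ : E}
    {v : Cm n} {ρ : ℝ} (hf : FiniteOrderCurve w (p y₀) v ρ f) {r : ℝ} {σ : Cm n → E}
    (hσ : LSec p (chartAt (Cm n) (p y₀)) y₀ r σ) {m : ℕ} (hm : ρ ≤ 2 * m) {d : ℕ}
    (a : (Fin N → Fin d) → ℂ) :
    ∃ (τ : ℂ → Cm n) (A : ℂ → ℂ) (C : ℝ), HasDerivAt τ v 0 ∧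
      τ 0 = chartAt (Cm n) (p y₀) (p y₀) ∧
      Differentiable ℂ A ∧ (∀ t, ‖deriv A t‖ ≤ C * (1 + ‖t‖) ^ ((m + 1) * (N * d))) ∧
      ∀ᶠ t in 𝓝 (0 : ℂ), (∑ β, a β * mon (fun z => F (σ z)) β (τ t)) -
        (∑ β, a β * mon (fun z => F (σ z)) β (chartAt (Cm n) (p y₀) (p y₀))) = A t - A 0 := by
  obtain ⟨Fl, ⟨hF0, hpF'⟩, -⟩ :=
    hp.existsUnique_continuousMap_lifts ⟨f, hf.holo.continuous⟩ 0 y₀ hf.base.symm
  have hpF : ∀ t, p (Fl t) = f t := fun t => congrFun hpF' t
  have hAt : At (chartAt (Cm n) (p y₀)) (f 0) := by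
    rw [hf.base]
    exact at_chartAt _
  set e := chartAt (Cm n) (p y₀) with he
  have hτ := tau_sm hf.holo hAt
  have hd : HasDerivAt (fun t => e (f t)) v 0 := by
    have h1 : deriv (fun t => e (f t)) 0 = v := by
      rw [← vel_eq hf.holo hAt]
      funext k
      exact hf.vel k
    rw [← h1]
    exact (hτ.differentiableAt (by simp)).hasDerivAt
  have h0 : e (f 0) = e (p y₀) := by rw [hf.base]
  have hcg := fun i => comp_growth hw hF hf Fl.continuous hpF hm i
  obtain ⟨C, hC0, hC⟩ := mon_growth (A := fun i t => F (Fl t) i) (fun i => (hcg i).2) a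
  have hAd : Differentiable ℂ fun t => ∑ β, a β * ∏ i, F (Fl t) i ^ (β i : ℕ) := by
    refine Differentiable.fun_sum fun β _ => Differentiable.const_mul ?_ _
    refine Differentiable.fun_finsetProd fun i _ => ?_
    exact (hcg i).1.pow _
  obtain ⟨C', hC'⟩ := deriv_bound hAd hC0 hC
  refine ⟨fun t => e (f t), _, C', hd, h0, hAd, hC', ?_⟩
  have h2 : ∀ᶠ t in 𝓝 (0 : ℂ), σ (e (p (Fl t))) = Fl t := by
    have h3 : Tendsto Fl (𝓝 0) (𝓝 y₀) := by
      have := Fl.continuous.tendsto 0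
      rwa [hF0] at this
    exact h3.eventually hσ.near
  have h3 : σ (e (p y₀)) = Fl 0 := by
    rw [hF0]
    exact hσ.near.self_of_nhds
  filter_upwards [h2] with t ht
  rw [hpF] at ht
  unfold mon
  simp only [ht, h3]

end

/-- **the rank lemma from curves through one point** -/
theorem rankZ {n N : ℕ} {X : Type} [TopologicalSpace X] [ChartedSpace (Cm n) X]
    [IsManifold 𝓘(ℂ, Cm n) ω X] {w : Chart n X → Cm n → Matrix (Fin n) (Fin n) ℂ}
    (hw : IsHermitian w) {x : X} (h : CurveDense w x) {E Γ : Type} [TopologicalSpace E]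
    [ConnectedSpace E] [Group Γ] [MulAction Γ E] {p : E → X} (hp : IsGalois Γ p)
    {G K : Subgroup Γ} {F : E → Cm N} {c : Γ → Cm N} (hA : Alb p w G K F c) :
    N ≤ n ∧ ∃ y, Reg (n := n) p F y := by
  obtain ⟨y₀, rfl⟩ := hp.surj x
  obtain ⟨ρ, hρ⟩ := h
  obtain ⟨D, hDdef⟩ : ∃ D : Set (Cm n), D = {v | ∃ f, FiniteOrderCurve w (p y₀) v ρ f} := ⟨_, rfl⟩
  have hcv : ∀ v ∈ D, ∃ f, FiniteOrderCurve w (p y₀) v ρ f := fun v hv => by
    rw [hDdef] at hv
    exact hv
  have hD : HomDense D := fun k P hP h0 => hρ k P hP fun v f hf => h0 v (by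
    rw [hDdef]
    exact ⟨f, hf⟩)
  obtain ⟨m, hm⟩ : ∃ m : ℕ, ρ ≤ 2 * m := by
    obtain ⟨m, hm⟩ := exists_nat_ge ρ
    exact ⟨m, by have : (0 : ℝ) ≤ m := Nat.cast_nonneg m
                 linarith⟩
  obtain ⟨B, hB⟩ := hA.hol
  have hAt : At (chartAt (Cm n) (p y₀)) (p y₀) := at_chartAt _
  obtain ⟨r, σ, hσ⟩ := exists_lsec hp.cov (e := chartAt (Cm n) (p y₀)) hAt.2
  have hr := hσ.pos
  set z₀ : Cm n := chartAt (Cm n) (p y₀) (p y₀) with hz₀
  have hH := sec_contDiff hB hAt hσ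
  -- the numbers
  obtain ⟨c₀, hc₀⟩ : ∃ c₀ : ℕ, c₀ = (m + 1) * N + 2 := ⟨_, rfl⟩
  obtain ⟨d, hd⟩ : ∃ d : ℕ, d = c₀ ^ (N - 1) + 1 := ⟨_, rfl⟩
  obtain ⟨M, hM⟩ : ∃ M : ℕ, M = (m + 1) * (N * d) + 1 := ⟨_, rfl⟩
  have hd1 : 1 ≤ d := by omega
  -- independence
  have hli : LinearIndependent ℂ fun β : Fin N → Fin d => tv M (mon (fun z => F (σ z)) β) z₀ := by
    rw [Fintype.linearIndependent_iff]
    intro a ha β₀
    have hmH := fun β : Fin N → Fin d => mon_contDiffAt (hH z₀ (mem_ball_self hr)) β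
    obtain ⟨G₁, hG₁⟩ : ∃ G₁ : Cm n → ℂ, G₁ = fun z => ∑ β, a β * mon (fun z => F (σ z)) β z :=
      ⟨_, rfl⟩
    have hGd : DifferentiableOn ℂ G₁ (ball z₀ r) := by
      rw [hG₁]
      intro z hz
      refine DifferentiableAt.differentiableWithinAt ?_
      refine DifferentiableAt.fun_sum fun β _ => DifferentiableAt.const_mul ?_ _
      exact (mon_contDiffAt (hH z hz) β).differentiableAt (by simp)
    have hG₁a : AnalyticAt ℂ G₁ z₀ :=
      Vale.Agent.P281.MF.analyticAt_of_differentiableOn isOpen_ball hGd (mem_ball_self hr)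
    have hflat : Flat M G₁ z₀ := by
      rw [hG₁]
      refine flat_of_grid fun g => ?_
      rw [tay_sum hmH a]
      have := congrFun ha g
      simpa [tv] using this
    have hG0 : G₁ z₀ = 0 := by
      have := hflat 0 (Nat.zero_le _) 0
      simpa using this
    have hO := flat_isBigO hG₁a hflat
    have hV : Van ((m + 1) * (N * d) + 2) (ball z₀ (r / 2)) (ff G₁ z₀) := by
      refine (van_iff hr).2 fun v => ?_
      rw [hG0]
      simp only [sub_zero]
      have h4 : Tendsto (fun t : ℂ => z₀ + t • v) (𝓝 0) (𝓝 z₀) := by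
        have : ContinuousAt (fun t : ℂ => z₀ + t • v) 0 := by fun_prop
        simpa [ContinuousAt] using this
      have h5 := hO.comp_tendsto h4
      refine h5.trans ?_
      have h6 : (fun t : ℂ => ‖z₀ + t • v - z₀‖ ^ (M + 1)) =O[𝓝 0] fun t : ℂ => t ^ (M + 1) := by
        refine IsBigO.of_bound (‖v‖ ^ (M + 1)) (Eventually.of_forall fun t => ?_)
        rw [add_sub_cancel_left, norm_smul, norm_pow, norm_mul, norm_norm, norm_norm, norm_pow,
          mul_pow, mul_comm]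
      have hM' : (m + 1) * (N * d) + 2 = M + 1 := by omega
      rw [hM']
      exact h6
    have hconst := const_of_van hr hGd hD (m := (m + 1) * (N * d)) (fun v hv => by
      obtain ⟨f, hf⟩ := hcv v hv
      rw [hG₁]
      exact pol_match hw hp.cov hB hf hσ hm a) hV
    have hq0 : ∀ᶠ y in 𝓝 y₀, MvPolynomial.eval (F y) (pol a) = 0 := by
      have hq : Tendsto (fun y' => chartAt (Cm n) (p y₀) (p y')) (𝓝 y₀) (𝓝 z₀) :=
        (map_nhds_chart hp.cov hAt.2).le
      filter_upwards [hσ.near, hq.eventually (ball_mem_nhds z₀ (half_pos hr))] with y h4 h5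
      have h7 := hconst _ h5
      rw [hG0, hG₁] at h7
      rw [eval_pol]
      simp only [mon, h4] at h7
      exact h7
    have hq1 := Vale.Agent.P284.H10.eval_zero_of_eventually hp.cov hB hq0
    have hpol : pol a = 0 := by
      have hne : Nonempty E := ⟨y₀⟩
      have hadd := alb_add hA
      refine Vale.Agent.P284.H10.zdense (Λ := c '' (G : Set Γ)) ⟨1, G.one_mem, ?_⟩ ?_ hA.span
        (v₀ := F y₀) ?_
      · have h3 := hadd 1 G.one_mem 1 G.one_mem
        rw [mul_one] at h3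
        simpa using h3
      · rintro _ ⟨g, hg, rfl⟩ _ ⟨k, hk, rfl⟩
        exact ⟨g * k, G.mul_mem hg hk, hadd g hg k hk⟩
      · rintro _ ⟨g, hg, rfl⟩
        rw [← hA.equiv g hg]
        exact hq1 _
    rw [← coeff_pol a β₀, hpol, MvPolynomial.coeff_zero]
  -- counting
  have hcard : N = 0 ∨ (M + 1) ^ (N - 1) < d ^ N := by
    rcases Nat.eq_zero_or_pos N with h0 | hN
    · exact Or.inl h0
    right
    have h1 : M + 1 ≤ c₀ * d := by
      have h2 : ((m + 1) * N + 2) * d = (m + 1) * (N * d) + 2 * d := by ring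
      rw [hM, hc₀, h2]
      omega
    calc (M + 1) ^ (N - 1) ≤ (c₀ * d) ^ (N - 1) := Nat.pow_le_pow_left h1 _
      _ = c₀ ^ (N - 1) * d ^ (N - 1) := mul_pow _ _ _
      _ < d * d ^ (N - 1) := Nat.mul_lt_mul_of_pos_right (by omega) (by positivity)
      _ = d ^ N := by
        rw [← pow_succ']
        congr 1
        omega
  obtain ⟨z, hz, hs⟩ : ∃ z ∈ ball z₀ r, Function.Surjective (fderiv ℂ (fun z => F (σ z)) z) := by
    rcases hcard with h0 | hcard
    · subst h0
      exact ⟨z₀, mem_ball_self hr, Function.surjective_to_subsingleton _⟩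
    · exact exists_surj hr hH hcard hli
  refine ⟨?_, σ z, sec_reg hp.cov hB hAt hσ hz hs⟩
  have h1 := LinearMap.finrank_le_finrank_of_surjective
    (f := (fderiv ℂ (fun z => F (σ z)) z : Cm n →ₗ[ℂ] Cm N)) hs
  rwa [Module.finrank_fin_fun, Module.finrank_fin_fun] at h1

end Vale.Agent.P284.H66.Rk

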