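import Vale.Agent.P284.H66.S7bBe

/-!
# P284, next theorem, S7b (Stokes): a bilinear form of the periods of a generically submersive family
of holomorphic functions which is a coboundary is symmetric
-/

open scoped Manifold ContDiff Topology Pointwise ComplexConjugate ComplexOrder Matrix
open Filter Set Metric MeasureTheory

noncomputable section

namespace Vale.Agent.P284.H66.S7

open Vale.Agent.P272.K Vale.Agent.P272.K.C2 Vale.Agent.P284.H248 Vale.Agent.P284.H894
  Vale.Agent.P284.H894.V Vale.Agent.P284.H639.V Vale.Agent.P284.H66 Vale.Agent.P284.H913.V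

/-! ### the bilinear form -/

section bil
variable {N : ℕ} (p q : Matrix (Fin N) (Fin N) ℂ)

theorem BB_add_left (x x' y : Cm N) : BB p q (x + x') y = BB p q x y + BB p q x' y := by
  simp only [BB, Pi.add_apply, mul_add, add_mul, Finset.sum_add_distrib, Complex.add_re]
  ring

theorem BB_add_right (x y y' : Cm N) : BB p q x (y + y') = BB p q x y + BB p q x y' := by
  simp only [BB, Pi.add_apply, map_add, mul_add, Finset.sum_add_distrib, Complex.add_re]
  ring

theorem BB_symm {p q : Matrix (Fin N) (Fin N) ℂ} (hp : pᵀ = p) (hq : qᴴ = q) (x y : Cm N) :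
    BB p q x y = BB p q y x := by
  have hp' : ∀ a b, p a b = p b a := fun a b => by rw [← hp]; exact congrFun (congrFun hp b) a |>.symm ▸ rfl
  have hq' : ∀ a b, q a b = conj (q b a) := fun a b => by
    conv_lhs => rw [← hq]
    rfl
  simp only [BB, Complex.add_re]
  congr 1
  · congr 1
    simp only [Finset.sum_mul]
    rw [Finset.sum_comm]
    refine Finset.sum_congr rfl fun a _ => Finset.sum_congr rfl fun b _ => ?_
    rw [hp' a b]
    ring
  · rw [← Complex.conj_re]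
    congr 1
    simp only [Finset.sum_mul, map_sum, map_mul, Complex.conj_conj]
    rw [Finset.sum_comm]
    refine Finset.sum_congr rfl fun a _ => Finset.sum_congr rfl fun b _ => ?_
    rw [hq' b a]
    ring

theorem exists_pq (B : Cm N →ₗ[ℝ] Cm N →ₗ[ℝ] ℝ) :
    ∃ p q : Matrix (Fin N) (Fin N) ℂ, ∀ x y, B x y = BB p q x y := by
  set β : ℂ → ℂ → Fin N → Fin N → ℝ := fun s t a b => B (Pi.single a s) (Pi.single b t) with hβ
  refine ⟨Matrix.of fun a b => ⟨(β 1 1 a b - β Complex.I Complex.I a b) / 2,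
    -(β 1 Complex.I a b + β Complex.I 1 a b) / 2⟩,
    Matrix.of fun a b => ⟨(β 1 1 a b + β Complex.I Complex.I a b) / 2,
    (β 1 Complex.I a b - β Complex.I 1 a b) / 2⟩, fun x y => ?_⟩
  have hs : ∀ (a : Fin N) (s : ℂ), (Pi.single a s : Cm N) =
      s.re • (Pi.single a 1 : Cm N) + s.im • (Pi.single a Complex.I : Cm N) := by
    intro a s
    rw [← Pi.single_smul, ← Pi.single_smul, ← Pi.single_add]
    congr 1
    simp [Complex.re_add_im]
  have hx : ∀ x : Cm N, x = ∑ a, (Pi.single a (x a) : Cm N) := by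
    intro x
    ext j
    simp [Finset.sum_apply, Pi.single_apply]
  have h1 : ∀ (s t : ℂ) (a b : Fin N), B (Pi.single a s) (Pi.single b t) =
      s.re * t.re * β 1 1 a b + s.re * t.im * β 1 Complex.I a b + s.im * t.re * β Complex.I 1 a b +
        s.im * t.im * β Complex.I Complex.I a b := by
    intro s t a b
    rw [hs a s, hs b t]
    simp only [map_add, map_smul, LinearMap.add_apply, LinearMap.smul_apply, smul_eq_mul, hβ]
    ring
  have h2 : B x y = ∑ a, ∑ b, B (Pi.single a (x a)) (Pi.single b (y b)) := by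
    conv_lhs => rw [hx x, hx y]
    rw [map_sum (B (∑ a, Pi.single a (x a)))]
    simp only [map_sum B, LinearMap.sum_apply]
    exact Finset.sum_comm
  rw [h2, BB, Complex.add_re]
  simp only [Finset.sum_mul, Complex.re_sum]
  rw [← Finset.sum_add_distrib, Finset.sum_comm]
  refine Finset.sum_congr rfl fun b _ => ?_
  rw [← Finset.sum_add_distrib]
  refine Finset.sum_congr rfl fun a _ => ?_
  rw [h1]
  simp only [Matrix.of_apply, Complex.mul_re, Complex.mul_im, Complex.conj_re, Complex.conj_im]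
  ring

end bil

/-! ### the data -/

section dat
variable {n N : ℕ} {Γ : Type} [Group Γ]

/-- the data -/
structure Dat (C : Coc n Γ) (p q : Matrix (Fin N) (Fin N) ℂ) where
  F : Γ → C.I → Cm n → Cm N
  c : Γ → Cm N
  f : Γ → ℝ
  hol : ∀ γ a, DifferentiableOn ℂ (F γ a) (C.Ω a)
  compat : ∀ γ a b, ∀ z ∈ C.O a b, F γ a z = F (γ * C.κ a b z) b (C.T a b z)
  equi : ∀ g γ a, ∀ z ∈ C.Ω a, F (g * γ) a z = F γ a z + c g
  co : ∀ g' g, f (g' * g) = f g' + f g + BB p q (c g') (c g)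

variable {C : Coc n Γ} {p q : Matrix (Fin N) (Fin N) ℂ} (D : Dat C p q) (P : PU C)

namespace Dat

theorem c_mul (g' g : Γ) : D.c (g' * g) = D.c g' + D.c g := by
  obtain ⟨a⟩ := C.ne
  have hc : C.c a ∈ C.Ω a := mem_ball_self (by have := C.r_pos a; linarith)
  have h1 := D.equi (g' * g) 1 a _ hc
  have h2 := D.equi g' g a _ hc
  have h3 := D.equi g 1 a _ hc
  rw [mul_one] at h1 h3
  rw [h1, h3] at h2
  have h4 : D.c (g' * g) = D.c g + D.c g' := by
    have := congrArg (fun v => v - D.F 1 a (C.c a)) h2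
    simpa [add_assoc] using this
  rw [h4, add_comm]

theorem holV (γ : Γ) {a : C.I} {z : Cm n} (hz : z ∈ C.Ω a) : HolV (D.F γ a) z := by
  intro j
  filter_upwards [(isOpen_Ω C a).mem_nhds hz] with y hy
  exact differentiableAt_pi.1 ((D.hol γ a).differentiableAt ((isOpen_Ω C a).mem_nhds hy)) j

/-- corrected cochain -/
def φ (g : Γ) : ℝ := D.f g - BB p q (D.c g) (D.c g)

/-- the function `u` -/
def u (γ : Γ) (a : C.I) (z : Cm n) : ℝ :=
  ∑ b, P.χ b a z * (D.φ (γ * C.κ a b z) + BB p q (D.c (γ * C.κ a b z)) (D.F γ a z))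

theorem u_ev (γ : Γ) {a : C.I} {z : Cm n} (hz : z ∈ C.Ω a) :
    D.u P γ a =ᶠ[𝓝 z] fun y => ∑ b, P.χ b a y *
      (D.φ (γ * C.κ a b z) + BB p q (D.c (γ * C.κ a b z)) (D.F γ a y)) := by
  have h1 : ∀ b, ∀ᶠ y in 𝓝 z, P.χ b a y *
      (D.φ (γ * C.κ a b y) + BB p q (D.c (γ * C.κ a b y)) (D.F γ a y)) = P.χ b a y *
      (D.φ (γ * C.κ a b z) + BB p q (D.c (γ * C.κ a b z)) (D.F γ a y)) := by
    intro b
    by_cases h : z ∈ C.O a b ∧ C.T a b z ∈ P.K b
    · filter_upwards [C.κ_loc a b z h.1] with y hy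
      rw [hy]
    · filter_upwards [chi_ev P b hz h] with y hy
      rw [hy, zero_mul, zero_mul]
  filter_upwards [(eventually_all (ι := C.I)).2 h1] with y h
  exact Finset.sum_congr rfl fun b _ => h b

theorem u_smooth (γ : Γ) {a : C.I} {z : Cm n} (hz : z ∈ C.Ω a) :
    ContDiffAt ℝ ∞ (D.u P γ a) z := by
  refine ContDiffAt.congr_of_eventuallyEq ?_ (D.u_ev P γ hz)
  exact ContDiffAt.sum fun b _ => (P.smooth b a z hz).mul
    (contDiffAt_const.add (BB_smooth _ (D.holV γ hz)))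

theorem u_compat (γ : Γ) {a d : C.I} {z : Cm n} (hz : z ∈ C.O a d) :
    D.u P γ a z = D.u P (γ * C.κ a d z) d (C.T a d z) := by
  have h2 := T_mem_Ω C hz
  unfold u
  refine Finset.sum_congr rfl fun b _ => ?_
  rw [← P.compat b a d z hz]
  by_cases h0 : P.χ b a z = 0
  · rw [h0, zero_mul, zero_mul]
  · have h3 : P.χ b d (C.T a d z) ≠ 0 := by rwa [← P.compat b a d z hz]
    have h4 := (P.supp b d _ h2 h3).1
    rw [C.trans_κ a d b z hz h4, mul_assoc, ← D.compat γ a d z hz]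

theorem u_equi (g γ : Γ) {a : C.I} {z : Cm n} (hz : z ∈ C.Ω a) :
    D.u P (g * γ) a z = D.u P γ a z + D.f g + BB p q (D.c g) (D.F γ a z) := by
  have h1 : ∀ h : Γ, D.φ (g * h) + BB p q (D.c (g * h)) (D.F (g * γ) a z) =
      (D.φ h + BB p q (D.c h) (D.F γ a z)) + (D.f g + BB p q (D.c g) (D.F γ a z)) := by
    intro h
    rw [φ, φ, D.co, D.c_mul, D.equi g γ a z hz]
    simp only [BB_add_left, BB_add_right]
    ring
  unfold u
  simp only [mul_assoc g γ, h1]
  simp only [mul_add (P.χ _ _ _) (D.φ _ + _) _, Finset.sum_add_distrib]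
  rw [← Finset.sum_mul, P.sum_one a z hz]
  ring

/-- the invariant form of type `(0,1)` -/
def α (a : C.I) (z : Cm n) : Fin n → ℂ := al p q (D.u P 1 a) (D.F 1 a) z

theorem F_ev {a d : C.I} {z : Cm n} (hz : z ∈ C.O a d) :
    ∀ᶠ y in 𝓝 z, D.F 1 a y = D.F (C.κ a d z) d (C.T a d y) := by
  filter_upwards [(C.O_open a d).mem_nhds hz, C.κ_loc a d z hz] with y hy hk
  rw [D.compat 1 a d y hy, one_mul, hk]

theorem F_shift (g : Γ) {d : C.I} {z : Cm n} (hz : z ∈ C.Ω d) :
    ∀ᶠ y in 𝓝 z, D.F g d y = D.F 1 d y + D.c g := by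
  filter_upwards [(isOpen_Ω C d).mem_nhds hz] with y hy
  have := D.equi g 1 d y hy
  rwa [mul_one] at this

/-- the Jacobian matrix -/
def J (a : C.I) (z : Cm n) : Matrix (Fin N) (Fin n) ℂ := JF (D.F 1 a) z

theorem J_change {a d : C.I} {z : Cm n} (hz : z ∈ C.O a d) :
    D.J a z = D.J d (C.T a d z) * jac C a d z := by
  rw [J, JF_comp (T := C.T a d) (F' := D.F (C.κ a d z) d) (T_ev C hz).self_of_nhds
    (D.holV _ (T_mem_Ω C hz)) (D.F_ev hz),
    JF_add_const (D.holV 1 (T_mem_Ω C hz)) (D.F_shift _ (T_mem_Ω C hz))]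
  rfl

theorem α_CF : CF C (D.α P) where
  smooth a z hz l := al_smooth (D.u_smooth P 1 hz) (D.holV 1 hz) l
  change a d z hz := by
    have hT := T_mem_Ω C hz
    have h1 : al p q (D.u P 1 a) (D.F 1 a) z = (jmat (C.T a d) z)ᴴ *ᵥ
        al p q (D.u P (C.κ a d z) d) (D.F (C.κ a d z) d) (C.T a d z) := by
      refine al_comp (T_ev C hz) (D.u_smooth P _ hT) (D.holV _ hT) (D.F_ev hz) ?_
      filter_upwards [(C.O_open a d).mem_nhds hz, C.κ_loc a d z hz] with y hy hk
      rw [D.u_compat P 1 hy, one_mul, hk]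
    have h2 : al p q (D.u P (C.κ a d z) d) (D.F (C.κ a d z) d) (C.T a d z) =
        al p q (D.u P 1 d) (D.F 1 d) (C.T a d z) := by
      refine al_gauge (c := D.c (C.κ a d z)) (t := D.f (C.κ a d z)) (D.u_smooth P 1 hT)
        (D.holV 1 hT) (D.F_shift _ hT) ?_
      filter_upwards [(isOpen_Ω C d).mem_nhds hT] with y hy
      have := D.u_equi P (C.κ a d z) 1 hy
      rwa [mul_one] at this
    rw [α, h1, h2]
    rfl

/-! ### closed matrices -/

theorem CB_w (K : KM C) : CB C K.w where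
  smooth a z hz := (K.ku a).smooth z hz
  closed a z hz i k l := (K.ku a).closed z hz k l i
  change a d z hz := K.change a d z hz

/-- `s w + Jᵀ e J̄` -/
def bs (K : KM C) (e : Matrix (Fin N) (Fin N) ℂ) (s : ℝ) (a : C.I) (z : Cm n) :
    Matrix (Fin n) (Fin n) ℂ :=
  (s : ℂ) • K.w a z + (D.J a z)ᵀ * e * (D.J a z).map (starRingEnd ℂ)

theorem JeJ_apply (e : Matrix (Fin N) (Fin N) ℂ) (a : C.I) (z : Cm n) (k l : Fin n) :
    ((D.J a z)ᵀ * e * (D.J a z).map (starRingEnd ℂ)) k l =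
      ∑ b, (∑ r, D.J a z r k * e r b) * conj (D.J a z b l) := rfl

theorem CB_bs (K : KM C) (e : Matrix (Fin N) (Fin N) ℂ) (s : ℝ) : CB C (D.bs K e s) where
  smooth a z hz i j := by
    have hJ : ∀ b l, Hol (fun y => D.J a y b l) z := fun b l => (D.holV 1 hz).J b l
    refine (contDiffAt_const.mul ((K.ku a).smooth z hz i j)).add ?_
    simp only [JeJ_apply]
    exact ContDiffAt.sum fun b _ => (ContDiffAt.sum fun r _ => (hJ r i).smooth.mul
      contDiffAt_const).mul (hJ b j).smooth_conj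
  closed a z hz i k l := by
    have hJ : ∀ b l, Hol (fun y => D.J a y b l) z := fun b l => (D.holV 1 hz).J b l
    have hwd : ∀ i j, DifferentiableAt ℝ (fun y => K.w a y i j) z := fun i j =>
      ((K.ku a).smooth z hz i j).differentiableAt (by simp)
    have hs1 : ∀ k b, DifferentiableAt ℝ (fun y => ∑ r, D.J a y r k * e r b) z := fun k b =>
      DifferentiableAt.fun_sum fun r _ => (hJ r k).diff.mul_const _
    have hs2 : ∀ k l b, DifferentiableAt ℝ
        (fun y => (∑ r, D.J a y r k * e r b) * conj (D.J a y b l)) z := fun k l b =>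
      (hs1 k b).fun_mul (hJ b l).diff_conj
    have key : ∀ i k, dz i (fun y => D.bs K e s a y k l) z =
        s * dz i (fun y => K.w a y k l) z + ∑ b, (∑ r, dz i (dz k fun y => D.F 1 a y r) z * e r b) *
          conj (D.J a z b l) := by
      intro i k
      have e1 : (fun y => D.bs K e s a y k l) = fun y => (s : ℂ) * K.w a y k l +
          ∑ b, (∑ r, D.J a y r k * e r b) * conj (D.J a y b l) := rfl
      rw [e1, C2.dz_add i ((hwd k l).const_mul _) (DifferentiableAt.fun_sum fun b _ => hs2 k l b),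
        C2.dz_const_mul i _ (hwd k l), C2.dz_sum i _ fun b _ => hs2 k l b]
      congr 1
      refine Finset.sum_congr rfl fun b _ => ?_
      rw [C2.dz_mul i (hs1 k b) (hJ b l).diff_conj, (hJ b l).dz_conj0, mul_zero, add_zero,
        C2.dz_sum i _ fun r _ => (hJ r k).diff.mul_const _]
      congr 1
      refine Finset.sum_congr rfl fun r _ => ?_
      rw [C2.dz_mul_const i _ (hJ r k).diff]
      rfl
    rw [key i k, key k i, (K.ku a).closed z hz k l i]
    congr 1
    refine Finset.sum_congr rfl fun b _ => ?_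
    congr 1
    refine Finset.sum_congr rfl fun r _ => ?_
    rw [C2.dz_dz_comm i k (((D.holV 1 hz) r).smooth.of_le two_le)]
  change a d z hz := by
    rw [bs, bs, K.change a d z hz, D.J_change hz, Matrix.transpose_mul, Matrix.map_mul,
      Matrix.mul_add, Matrix.add_mul, Matrix.mul_smul, Matrix.smul_mul]
    simp only [Matrix.mul_assoc]

theorem bs_herm (K : KM C) {e : Matrix (Fin N) (Fin N) ℂ} (he : e.IsHermitian) (s : ℝ) {a : C.I}
    {z : Cm n} (hz : z ∈ C.Ω a) : (D.bs K e s a z).IsHermitian := by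
  refine Matrix.IsHermitian.add ?_ ?_
  · rw [Matrix.IsHermitian, Matrix.conjTranspose_smul, ((K.ku a).pos z hz).isHermitian.eq]
    simp
  · rw [Matrix.IsHermitian, Matrix.conjTranspose_mul, Matrix.conjTranspose_mul, he.eq,
      ← Matrix.mul_assoc]
    congr 2
    ext i j
    simp

end Dat

theorem CF.smul {α : C.I → Cm n → Fin n → ℂ} (hα : CF C α) (c : ℂ) :
    CF C (fun a z => c • α a z) where
  smooth a z hz l := contDiffAt_const.mul (hα.smooth a z hz l)
  change a d z hz := by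
    rw [hα.change a d z hz, Matrix.mulVec_smul]

theorem pd_smul {α : C.I → Cm n → Fin n → ℂ} (hα : CF C α) (c : ℂ) {a : C.I} {z : Cm n}
    (hz : z ∈ C.Ω a) : pd (fun y => c • α a y) z = c • pd (α a) z := by
  ext r l
  exact C2.dz_const_mul r c ((hα.smooth a z hz l).differentiableAt (by simp))

theorem BD_smul {F : C.I → Cm n → ℝ} (hF : BD C F) (c : ℝ) : BD C (fun a z => c * F a z) where
  cont a := continuousOn_const.mul (hF.cont a)
  compat a b z hz h1 h2 := by rw [hF.compat a b z hz h1 h2]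

theorem BD_sum {ι : Type*} (s : Finset ι) {F : ι → C.I → Cm n → ℝ} (hF : ∀ i ∈ s, BD C (F i)) :
    BD C (fun a z => ∑ i ∈ s, F i a z) where
  cont a := continuousOn_finsetSum _ fun i hi => (hF i hi).cont a
  compat a b z hz h1 h2 := Finset.sum_congr rfl fun i hi => (hF i hi).compat a b z hz h1 h2

/-! ### the (1,1) part -/

namespace Dat

/-- the Hermitian matrix of the `(1,1)` part -/
def H (_ : Dat C p q) : Matrix (Fin N) (Fin N) ℂ := (-Complex.I) • (q - qᴴ)

/-- the matrix `J̄ w⁻¹ Jᵀ` -/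
def M (K : KM C) (a : C.I) (z : Cm n) : Matrix (Fin N) (Fin N) ℂ :=
  (D.J a z).map (starRingEnd ℂ) * (K.w a z)⁻¹ * (D.J a z)ᵀ

theorem dens_eq (K : KM C) {e : Matrix (Fin N) (Fin N) ℂ} (he : e.IsHermitian) {s : ℝ}
    (hs : s ≠ 0) {a : C.I} {z : Cm n} (hz : z ∈ C.Ω a) :
    GG e D.H (D.M K a z) s = 4 * (s ^ N / s ^ n) *
      dens K (D.bs K e s) (fun a z => Complex.I • D.α P a z) a z := by
  have hw := (K.ku a).pos z hz
  have h1 : pd (D.α P a) z = cHess (D.u P 1 a) z - (1 / 2 : ℂ) • ((D.J a z)ᵀ * q *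
      (D.J a z).map (starRingEnd ℂ)) := pd_al (D.u_smooth P 1 hz) (D.holV 1 hz)
  have h2 := herm_part (D.bs_herm K he s hz)
    (C2.cHess_isHermitian ((D.u_smooth P 1 hz).of_le two_le)) h1
  have h3 := key_poly hw (D.J a z) ((D.J a z).map (starRingEnd ℂ)) e D.H hs
  have h4 : dens K (D.bs K e s) (fun a z => Complex.I • D.α P a z) a z =
      ((D.bs K e s a z).adjugate * (Complex.I • pd (D.α P a) z)).trace.re / vol (K.w a) z := by
    rw [dens, pd_smul (D.α_CF P) _ hz]
  have hv : vol (K.w a) z ≠ 0 := vol_ne K hz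
  have h5 : s ^ N * ((D.bs K e s a z).adjugate * ((D.J a z)ᵀ * D.H *
      (D.J a z).map (starRingEnd ℂ))).trace.re = s ^ n * vol (K.w a) z * GG e D.H (D.M K a z) s := h3
  have h6 : ((D.bs K e s a z).adjugate * (Complex.I • pd (D.α P a) z)).trace.re =
      (1 / 4) * ((D.bs K e s a z).adjugate * ((D.J a z)ᵀ * D.H *
      (D.J a z).map (starRingEnd ℂ))).trace.re := h2
  rw [h4, h6]
  have hsn : s ^ n ≠ 0 := pow_ne_zero _ hs
  field_simp
  linarith

include P in
theorem tau_zero (K : KM C) {b : C.I} {z₀ : Cm n} (hz₀ : z₀ ∈ C.V b)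
    {S : Matrix (Fin n) (Fin N) ℂ} (hS : D.J b z₀ * S = 1) {e : Matrix (Fin N) (Fin N) ℂ}
    (he : e.IsHermitian) : (e.adjugate * D.H).trace.re = 0 := by
  set τ : ℝ := (e.adjugate * D.H).trace.re with hτ
  set G : C.I → Cm n → ℝ := fun a z => ∑ j : Fin (N + 1), (τ * (INT.lag N j (-1) *
    (4 * (((j : ℝ) + 1) ^ N / ((j : ℝ) + 1) ^ n)))) *
      dens K (D.bs K e ((j : ℝ) + 1)) (fun a z => Complex.I • D.α P a z) a z with hG
  have hBD : ∀ j : Fin (N + 1), BD C (dens K (D.bs K e ((j : ℝ) + 1))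
      (fun a z => Complex.I • D.α P a z)) := fun j =>
    dens_BD K (D.CB_bs K e _) ((D.α_CF P).smul _)
  have hGBD : BD C G := BD_sum _ fun j _ => BD_smul (hBD j) _
  have hGint : BInt P K G = 0 := by
    rw [hG, BInt_sum P K Finset.univ fun j _ => BD_smul (hBD j) _]
    refine Finset.sum_eq_zero fun j _ => ?_
    rw [BInt_smul, glob_div P K (D.CB_bs K e _) ((D.α_CF P).smul _), mul_zero]
  have hGval : ∀ a, ∀ z ∈ C.Ω a, G a z = τ ^ 2 * (D.M K a z).det.re := by
    intro a z hz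
    have h1 : G a z = τ * ∑ j : Fin (N + 1), INT.lag N j (-1) * GG e D.H (D.M K a z) ((j : ℝ) + 1) := by
      rw [hG, Finset.mul_sum]
      refine Finset.sum_congr rfl fun j _ => ?_
      rw [D.dens_eq P K he (by positivity) hz]
      ring
    rw [h1, ← interp]
    have hM : (D.M K a z).PosSemidef := M_psd ((K.ku a).pos z hz) (D.J a z)
    have h2 : ((D.M K a z).det.re : ℂ) = (D.M K a z).det := by
      rw [← Complex.conj_eq_iff_re]
      have : conj (D.M K a z).det = ((D.M K a z)ᴴ).det := by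
        rw [Matrix.det_conjTranspose]; rfl
      rw [this, hM.isHermitian.eq]
    rw [← h2, Complex.re_ofReal_mul, Complex.ofReal_re]
    ring
  have hGnn : ∀ a, ∀ z ∈ C.Ω a, 0 ≤ G a z := by
    intro a z hz
    rw [hGval a z hz]
    have hM : (D.M K a z).PosSemidef := M_psd ((K.ku a).pos z hz) (D.J a z)
    exact mul_nonneg (sq_nonneg _) (Complex.le_def.1 hM.det_nonneg).1
  have h3 := vanish P K hGBD hGnn hGint b hz₀
  rw [hGval b z₀ (V_sub_Ω C b hz₀)] at h3
  have h4 : (D.M K b z₀).PosDef := M_posDef ((K.ku b).pos z₀ (V_sub_Ω C b hz₀)) hS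
  have h5 : 0 < (D.M K b z₀).det.re := (Complex.lt_def.1 h4.det_pos).1
  have h6 : τ ^ 2 = 0 := by
    rcases mul_eq_zero.1 h3 with h | h
    · exact h
    · exact absurd h h5.ne'
  exact pow_eq_zero_iff (two_ne_zero) |>.1 h6

include P in
theorem q_herm (K : KM C) {b : C.I} {z₀ : Cm n} (hz₀ : z₀ ∈ C.V b)
    {S : Matrix (Fin n) (Fin N) ℂ} (hS : D.J b z₀ * S = 1) : qᴴ = q := by
  have h1 : D.H = 0 := zero_of_adj (herm_H q) fun e he => D.tau_zero P K hz₀ hS he
  have h2 : q - qᴴ = 0 := by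
    have h3 := congrArg (fun X => Complex.I • X) h1
    simpa [H, smul_smul] using h3
  exact (sub_eq_zero.1 h2).symm

/-! ### the (2,0) part -/

/-- the form `η* w⁻¹ Θ` -/
def β (K : KM C) (a : C.I) : Cm n → Fin n → ℂ :=
  be (K.w a) (eta (p - pᵀ) (D.F 1 a)) (Th p q (D.u P 1 a) (D.F 1 a))

theorem β_CF (K : KM C) : CF C (D.β P K) where
  smooth a z hz l := by
    have hη := eta_hol (p - pᵀ) (D.holV 1 hz)
    have hΘ : ∀ k, ContDiffAt ℝ ∞ (fun y => Th p q (D.u P 1 a) (D.F 1 a) y k) z := fun k =>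
      Th_smooth (D.u_smooth P 1 hz) (D.holV 1 hz) k
    have e1 : (fun y => D.β P K a y l) = fun y => ∑ r, conj (eta (p - pᵀ) (D.F 1 a) y r l) *
        ∑ k, (K.w a y)⁻¹ r k * Th p q (D.u P 1 a) (D.F 1 a) y k := rfl
    rw [e1]
    exact ContDiffAt.sum fun r _ => (hη r l).smooth_conj.mul
      (ContDiffAt.sum fun k _ => (KU_inv (K.ku a) hz r k).mul (hΘ k))
  change a d z hz := by
    have h1 : eta (p - pᵀ) (D.F 1 a) z =
        (jac C a d z)ᵀ * eta (p - pᵀ) (D.F 1 d) (C.T a d z) * jac C a d z := by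
      have := D.J_change hz
      simp only [J] at this
      rw [eta, eta, this, Matrix.transpose_mul]
      simp only [Matrix.mul_assoc]
    have h2 : Th p q (D.u P 1 a) (D.F 1 a) z =
        (jac C a d z)ᵀ *ᵥ Th p q (D.u P 1 d) (D.F 1 d) (C.T a d z) := by
      ext k
      have h3 := congrFun ((D.α_CF P).change a d z hz) k
      have h4 : Th p q (D.u P 1 a) (D.F 1 a) z k = conj (D.α P a z k) := rfl
      rw [h4, h3]
      simp only [Matrix.mulVec, dotProduct, map_sum, map_mul, Matrix.conjTranspose_apply,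
        Matrix.transpose_apply, RCLike.star_def, Complex.conj_conj]
      rfl
    have h5 : (jac C a d z).map (starRingEnd ℂ) * (K.w a z)⁻¹ * (jac C a d z)ᵀ =
        (K.w d (C.T a d z))⁻¹ :=
      H730.V.inv_law (KU_det (K.ku a) (O_sub_Ω C hz)) (K.change a d z hz)
    have h6 : ((jac C a d z)ᵀ)ᴴ = (jac C a d z).map (starRingEnd ℂ) := by
      ext i j
      simp
    rw [β, be, h1, h2, β, be, ← h5]
    simp only [Matrix.mulVec_mulVec, Matrix.conjTranspose_mul, h6, Matrix.mul_assoc]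

include P in
theorem p_symm (K : KM C) {b : C.I} {z₀ : Cm n} (hz₀ : z₀ ∈ C.V b)
    {S : Matrix (Fin n) (Fin N) ℂ} (hS : D.J b z₀ * S = 1) : pᵀ = p := by
  set G : C.I → Cm n → ℝ := fun a z => 4 * dens K K.w (D.β P K) a z with hG
  have hBD : BD C (dens K K.w (D.β P K)) := dens_BD K (CB_w K) (D.β_CF P K)
  have hGBD : BD C G := BD_smul hBD _
  have hGint : BInt P K G = 0 := by
    rw [hG, BInt_smul, glob_div P K (CB_w K) (D.β_CF P K), mul_zero]
  have hGval : ∀ a, ∀ z ∈ C.Ω a, G a z = ((K.w a z)⁻¹ * (eta (p - pᵀ) (D.F 1 a) z *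
      ((K.w a z)⁻¹)ᵀ * (eta (p - pᵀ) (D.F 1 a) z)ᴴ)).trace.re := by
    intro a z hz
    have hw := (K.ku a).pos z hz
    have h1 := tr_be (K.ku a) hz (eta_hol (p - pᵀ) (D.holV 1 hz))
      (fun k => (Th_smooth (D.u_smooth P 1 hz) (D.holV 1 hz) k).differentiableAt (by simp))
      (eta_anti (anti_sub p) z) (pd_Th (p := p) (q := q) (D.u_smooth P 1 hz) (D.holV 1 hz))
    have h2 : (K.w a z).adjugate = (K.w a z).det • (K.w a z)⁻¹ := by
      rw [Matrix.inv_def, Ring.inverse_eq_inv', smul_smul, mul_inv_cancel₀ (KU_det (K.ku a) hz),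
        one_smul]
    have h3 : dens K K.w (D.β P K) a z = ((K.w a z)⁻¹ * pd (D.β P K a) z).trace.re := by
      rw [dens, h2, Matrix.smul_mul, Matrix.trace_smul, smul_eq_mul, ← det_real hw,
        Complex.re_ofReal_mul]
      exact mul_div_cancel_left₀ _ (vol_ne K hz)
    rw [hG]
    simp only
    rw [h3]
    have h4 : ((K.w a z)⁻¹ * pd (D.β P K a) z).trace = (1 / 4) * ((K.w a z)⁻¹ *
      (eta (p - pᵀ) (D.F 1 a) z * ((K.w a z)⁻¹)ᵀ * (eta (p - pᵀ) (D.F 1 a) z)ᴴ)).trace := h1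
    rw [h4]
    have h5 : (1 / 4 : ℂ) = ((1 / 4 : ℝ) : ℂ) := by push_cast; rfl
    rw [h5, Complex.re_ofReal_mul]
    ring
  have hGnn : ∀ a, ∀ z ∈ C.Ω a, 0 ≤ G a z := by
    intro a z hz
    rw [hGval a z hz]
    exact quad_nonneg ((K.ku a).pos z hz).inv
  have h3 := vanish P K hGBD hGnn hGint b hz₀
  rw [hGval b z₀ (V_sub_Ω C b hz₀)] at h3
  have h4 := quad_zero ((K.ku b).pos z₀ (V_sub_Ω C b hz₀)).inv h3
  have h5 : Sᵀ * ((D.J b z₀)ᵀ * (p - pᵀ) * D.J b z₀) * S = p - pᵀ := by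
    have h6 : Sᵀ * (D.J b z₀)ᵀ = 1 := by rw [← Matrix.transpose_mul, hS, Matrix.transpose_one]
    calc Sᵀ * ((D.J b z₀)ᵀ * (p - pᵀ) * D.J b z₀) * S =
        (Sᵀ * (D.J b z₀)ᵀ) * (p - pᵀ) * (D.J b z₀ * S) := by simp only [Matrix.mul_assoc]
      _ = p - pᵀ := by rw [h6, hS, Matrix.one_mul, Matrix.mul_one]
  have h7 : (D.J b z₀)ᵀ * (p - pᵀ) * D.J b z₀ = 0 := h4
  rw [h7, Matrix.mul_zero, Matrix.zero_mul] at h5
  exact (sub_eq_zero.1 h5.symm).symm

end Dat

theorem exists_section {G : Cm n → Cm N} {z : Cm n} (h : DifferentiableAt ℂ G z)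
    (hs : Function.Surjective (fderiv ℂ G z)) :
    ∃ S : Matrix (Fin n) (Fin N) ℂ, JF G z * S = 1 := by
  choose v hv using fun a : Fin N => hs (Pi.single a 1)
  refine ⟨Matrix.of fun j a => v a j, ?_⟩
  ext b a
  have h1 : DifferentiableAt ℂ (fun y => G y b) z := (differentiableAt_pi.1 h) b
  have h2 : fderiv ℂ (fun y => G y b) z (v a) = (fderiv ℂ G z (v a)) b := by
    have : fderiv ℂ (fun y => G y b) z = (ContinuousLinearMap.proj b).comp (fderiv ℂ G z) :=
      (hasFDerivAt_pi'.1 h.hasFDerivAt b).fderiv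
    rw [this]
    rfl
  have h3 : v a = ∑ i, (v a i) • (Pi.single i (1 : ℂ) : Cm n) := by
    funext j
    simp only [Finset.sum_apply, Pi.smul_apply]
    rw [Finset.sum_eq_single j]
    · simp
    · intro b _ hb; simp [hb.symm]
    · simp
  have h4 : fderiv ℂ (fun y => G y b) z (v a) = ∑ i, JF G z b i * v a i := by
    conv_lhs => rw [h3]
    rw [map_sum]
    refine Finset.sum_congr rfl fun i _ => ?_
    rw [map_smul, smul_eq_mul, mul_comm, JF, Matrix.of_apply, Vale.Agent.P272.K.dz_of_holo h1]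
  rw [Matrix.mul_apply]
  simp only [Matrix.of_apply]
  rw [← h4, h2, hv, Pi.single_apply, Matrix.one_apply]

/-- **S7b** -/
def S7bStmt : Prop := ∀ (n : ℕ) (Γ : Type) [Group Γ] (C : Coc n Γ) (_ : PU C) (_ : KM C) (N : ℕ)
    (F : Γ → C.I → Cm n → Cm N) (c : Γ → Cm N),
    (∀ γ a, DifferentiableOn ℂ (F γ a) (C.Ω a)) →
    (∀ γ a b, ∀ z ∈ C.O a b, F γ a z = F (γ * C.κ a b z) b (C.T a b z)) →
    (∀ g γ a, ∀ z ∈ C.Ω a, F (g * γ) a z = F γ a z + c g) →
    (∃ γ a, ∃ z ∈ C.Ω a, Function.Surjective (fderiv ℂ (F γ a) z)) →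
    ∀ (B : Cm N →ₗ[ℝ] Cm N →ₗ[ℝ] ℝ) (f : Γ → ℝ),
      (∀ g' g, f (g' * g) = f g' + f g + B (c g') (c g)) → ∀ x y, B x y = B y x

theorem s7bStmt : S7bStmt := by
  intro n Γ _ C P K N F c hF hcomp hequi hsurj B f hf
  obtain ⟨p, q, hpq⟩ := exists_pq B
  let D : Dat C p q :=
    { F := F, c := c, f := f, hol := hF, compat := hcomp, equi := hequi
      co := fun g' g => by rw [hf, hpq] }
  obtain ⟨γ, a, z, hz, hs⟩ := hsurj
  obtain ⟨S, hS⟩ := exists_section ((hF γ a).differentiableAt ((isOpen_Ω C a).mem_nhds hz)) hs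
  have h1 : JF (D.F γ a) z = D.J a z := JF_add_const (D.holV 1 hz) (D.F_shift γ hz)
  have h2 : D.J a z * S = 1 := by rw [← h1]; exact hS
  obtain ⟨b, hb, hbW⟩ := C.cover a z hz
  have h3 : D.J b (C.T a b z) * (jac C a b z * S) = 1 := by
    rw [← Matrix.mul_assoc, ← D.J_change hb, h2]
  have hV : C.T a b z ∈ C.V b := ball_subset_ball (by have := C.r_pos b; linarith) hbW
  intro x y
  rw [hpq, hpq]
  exact BB_symm (D.p_symm P K hV h3) (D.q_herm P K hV h3) x y

end dat

end Vale.Agent.P284.H66.S7
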