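import Vale.Agent.P284.H66.S7bLoc
import Vale.Agent.P284.H66.V2
import Vale.Agent.P272.K.INT.Poly

/-!
# P284, next theorem, S7b: linear algebra
-/

open scoped Manifold ContDiff Topology Pointwise ComplexConjugate ComplexOrder Matrix
open Filter Set Metric MeasureTheory

noncomputable section

namespace Vale.Agent.P284.H66.S7

open Vale.Agent.P272.K Vale.Agent.P284.H894.V Vale.Agent.P284.H66

variable {n N : ℕ}

/-! ### the (1,1) part -/

theorem det_syl {w : Matrix (Fin n) (Fin n) ℂ} (hw : w.det ≠ 0) (J Jb : Matrix (Fin N) (Fin n) ℂ)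
    (E : Matrix (Fin N) (Fin N) ℂ) {s : ℂ} (hs : s ≠ 0) :
    s ^ N * (s • w + Jᵀ * E * Jb).det =
      s ^ n * w.det * (s • (1 : Matrix (Fin N) (Fin N) ℂ) + E * (Jb * w⁻¹ * Jᵀ)).det := by
  have hu : IsUnit w.det := isUnit_iff_ne_zero.2 hw
  have e1 : s • w + Jᵀ * E * Jb = (s • w) * (1 + (s⁻¹ • (w⁻¹ * Jᵀ)) * (E * Jb)) := by
    rw [Matrix.mul_add, Matrix.mul_one, Matrix.smul_mul, Matrix.smul_mul, Matrix.mul_smul,
      smul_smul, mul_inv_cancel₀ hs, one_smul, Matrix.mul_assoc w⁻¹, ← Matrix.mul_assoc w,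
      Matrix.mul_nonsing_inv _ hu, Matrix.one_mul, Matrix.mul_assoc]
  have e2 : s • (1 : Matrix (Fin N) (Fin N) ℂ) + E * (Jb * w⁻¹ * Jᵀ) =
      s • (1 + (E * Jb) * (s⁻¹ • (w⁻¹ * Jᵀ))) := by
    rw [smul_add, Matrix.mul_smul, smul_smul, mul_inv_cancel₀ hs, one_smul]
    simp only [Matrix.mul_assoc]
  rw [e1, Matrix.det_mul, Matrix.det_smul, Fintype.card_fin, Matrix.det_one_add_mul_comm, e2,
    Matrix.det_smul, Fintype.card_fin]
  ring

/-- derivative of the determinant -/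
theorem hasDeriv_det {m : ℕ} (A B : Matrix (Fin m) (Fin m) ℂ) :
    HasDerivAt (fun t : ℝ => (A + (t : ℂ) • B).det.re) (A.adjugate * B).trace.re 0 := by
  have h := INT.hasDerivAt_det_line A B 0
  rw [sum_det_row'] at h
  simpa using h

theorem key_poly {w : Matrix (Fin n) (Fin n) ℂ} (hw : w.PosDef) (J Jb : Matrix (Fin N) (Fin n) ℂ)
    (e H : Matrix (Fin N) (Fin N) ℂ) {s : ℝ} (hs : s ≠ 0) :
    s ^ N * (((s : ℂ) • w + Jᵀ * e * Jb).adjugate * (Jᵀ * H * Jb)).trace.re =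
      s ^ n * w.det.re * (((s : ℂ) • (1 : Matrix (Fin N) (Fin N) ℂ) + e * (Jb * w⁻¹ * Jᵀ)).adjugate *
        (H * (Jb * w⁻¹ * Jᵀ))).trace.re := by
  have h1 := (hasDeriv_det ((s : ℂ) • w + Jᵀ * e * Jb) (Jᵀ * H * Jb)).const_mul (s ^ N)
  have h2 := (hasDeriv_det ((s : ℂ) • (1 : Matrix (Fin N) (Fin N) ℂ) + e * (Jb * w⁻¹ * Jᵀ))
    (H * (Jb * w⁻¹ * Jᵀ))).const_mul (s ^ n * w.det.re)
  refine h1.unique (h2.congr_of_eventuallyEq (Eventually.of_forall fun t => ?_))
  have h3 := det_syl (w := w) hw.det_pos.ne' J Jb (e + (t : ℂ) • H) (s := (s : ℂ))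
    (by exact_mod_cast hs)
  have e1 : (s : ℂ) • w + Jᵀ * e * Jb + (t : ℂ) • (Jᵀ * H * Jb) =
      (s : ℂ) • w + Jᵀ * (e + (t : ℂ) • H) * Jb := by
    rw [Matrix.mul_add, Matrix.add_mul, Matrix.mul_smul, Matrix.smul_mul, add_assoc]
  have e2 : (s : ℂ) • (1 : Matrix (Fin N) (Fin N) ℂ) + e * (Jb * w⁻¹ * Jᵀ) +
      (t : ℂ) • (H * (Jb * w⁻¹ * Jᵀ)) =
      (s : ℂ) • (1 : Matrix (Fin N) (Fin N) ℂ) + (e + (t : ℂ) • H) * (Jb * w⁻¹ * Jᵀ) := by
    rw [Matrix.add_mul, Matrix.smul_mul, add_assoc]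
  simp only [e1, e2]
  have h4 := congrArg Complex.re h3
  rw [← det_real hw] at h4
  have c1 : (s : ℂ) ^ N = ((s ^ N : ℝ) : ℂ) := by push_cast; rfl
  have c2 : (s : ℂ) ^ n * ((w.det.re : ℝ) : ℂ) = ((s ^ n * w.det.re : ℝ) : ℂ) := by push_cast; rfl
  rw [c1, c2, Complex.re_ofReal_mul, Complex.re_ofReal_mul] at h4
  exact h4

/-- the polynomial -/
def GG (e H M : Matrix (Fin N) (Fin N) ℂ) (s : ℝ) : ℝ :=
  (((s : ℂ) • (1 : Matrix (Fin N) (Fin N) ℂ) + e * M).adjugate * (H * M)).trace.re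

theorem GG_line (e H M : Matrix (Fin N) (Fin N) ℂ) (t : ℝ) :
    GG e H M (t + 1) = ∑ r, ((((e * M).updateRow r ((H * M) r) +
      (1 : Matrix (Fin N) (Fin N) ℂ).updateRow r 0) + (t : ℂ) •
        (1 : Matrix (Fin N) (Fin N) ℂ).updateRow r 0)).det.re := by
  rw [GG, ← sum_det_row', Complex.re_sum]
  refine Finset.sum_congr rfl fun r _ => ?_
  congr 2
  ext i j
  by_cases h : i = r
  · subst h
    simp [Matrix.updateRow_self]
  · simp only [Matrix.updateRow_ne h, Matrix.add_apply, Matrix.smul_apply, smul_eq_mul]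
    push_cast
    ring

theorem GG_poly (e H M : Matrix (Fin N) (Fin N) ℂ) (t : ℝ) :
    GG e H M (t + 1) = ∑ j : Fin (N + 1), INT.lag N j t * GG e H M ((j : ℝ) + 1) := by
  simp only [GG_line]
  simp only [Finset.mul_sum]
  rw [Finset.sum_comm]
  refine Finset.sum_congr rfl fun r _ => ?_
  exact (INT.isPolyN_det _ _).eq_sum t

theorem GG_zero (e H M : Matrix (Fin N) (Fin N) ℂ) :
    GG e H M 0 = (M.det * (e.adjugate * H).trace).re := by
  rw [GG, Complex.ofReal_zero, zero_smul, zero_add, Matrix.adjugate_mul_distrib]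
  congr 1
  have e1 : M.adjugate * e.adjugate * (H * M) = (M.adjugate * (e.adjugate * H)) * M := by
    simp only [Matrix.mul_assoc]
  rw [e1, Matrix.trace_mul_comm, ← Matrix.mul_assoc, Matrix.mul_adjugate, Matrix.smul_mul,
    Matrix.one_mul, Matrix.trace_smul, smul_eq_mul]

/-- the value at `0` by interpolation -/
theorem interp (e H M : Matrix (Fin N) (Fin N) ℂ) :
    (M.det * (e.adjugate * H).trace).re =
      ∑ j : Fin (N + 1), INT.lag N j (-1) * GG e H M ((j : ℝ) + 1) := by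
  rw [← GG_zero, ← GG_poly]
  norm_num

/-- if `Re tr (adj e H) = 0` for all Hermitian `e` then `H = 0` -/
theorem zero_of_adj {H : Matrix (Fin N) (Fin N) ℂ} (hH : H.IsHermitian)
    (h : ∀ e : Matrix (Fin N) (Fin N) ℂ, e.IsHermitian → (e.adjugate * H).trace.re = 0) :
    H = 0 := by
  have h1 : ∀ s : ℝ, ∑ r, (((1 : Matrix (Fin N) (Fin N) ℂ).updateRow r (H r) +
      (s : ℂ) • (H.updateRow r 0)).det).re = 0 := by
    intro s
    have he : ((1 : Matrix (Fin N) (Fin N) ℂ) + (s : ℂ) • H).IsHermitian := by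
      refine Matrix.isHermitian_one.add ?_
      rw [Matrix.IsHermitian, Matrix.conjTranspose_smul, hH.eq]
      simp
    rw [← h _ he, ← sum_det_row', Complex.re_sum]
    refine Finset.sum_congr rfl fun r _ => ?_
    congr 2
    ext i j
    by_cases hi : i = r
    · subst hi
      simp [Matrix.updateRow_self]
    · simp [Matrix.updateRow_ne hi]
  have h2 : HasDerivAt (fun s : ℝ => ∑ r, (((1 : Matrix (Fin N) (Fin N) ℂ).updateRow r (H r) +
      (s : ℂ) • (H.updateRow r 0)).det).re)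
      (∑ r, (∑ q, (((1 : Matrix (Fin N) (Fin N) ℂ).updateRow r (H r) + ((0 : ℝ) : ℂ) •
        (H.updateRow r 0)).updateRow q ((H.updateRow r 0) q)).det).re) 0 :=
    HasDerivAt.fun_sum fun r _ => INT.hasDerivAt_det_line _ _ 0
  have h3 : (∑ r, (∑ q, (((1 : Matrix (Fin N) (Fin N) ℂ).updateRow r (H r) + ((0 : ℝ) : ℂ) •
        (H.updateRow r 0)).updateRow q ((H.updateRow r 0) q)).det).re) = 0 := by
    refine h2.unique ?_
    simp only [h1]
    exact hasDerivAt_const _ _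
  rw [← Complex.re_sum] at h3
  simp only [Complex.ofReal_zero, zero_smul, add_zero] at h3
  rw [two_rows (by simp)] at h3
  simp only [inv_one, Matrix.one_mul, Matrix.det_one, mul_one] at h3
  have h4 := h 1 Matrix.isHermitian_one
  rw [Matrix.adjugate_one, Matrix.one_mul] at h4
  have h5 : H.trace = 0 := by
    have := trace_real Matrix.isHermitian_one hH
    simp only [inv_one, Matrix.one_mul] at this
    rw [← this, h4, Complex.ofReal_zero]
  rw [h5] at h3
  have h6 : (Hᴴ * H).trace = 0 := by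
    rw [hH.eq]
    have h7 : conj (H * H).trace = (H * H).trace := by
      have : conj (H * H).trace = ((H * H)ᴴ).trace := by
        rw [Matrix.trace_conjTranspose]; rfl
      rw [this, Matrix.conjTranspose_mul, hH.eq]
    have h8 := Complex.conj_eq_iff_re.1 h7
    rw [← h8]
    simp only [zero_mul, zero_sub, Complex.neg_re, neg_eq_zero] at h3
    rw [h3, Complex.ofReal_zero]
  exact Matrix.trace_conjTranspose_mul_self_eq_zero_iff.1 h6

/-- pointwise identity for the `(1,1)` part -/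
theorem herm_part {b X : Matrix (Fin n) (Fin n) ℂ} (hb : b.IsHermitian)
    {q : Matrix (Fin N) (Fin N) ℂ} {J : Matrix (Fin N) (Fin n) ℂ} {h : Matrix (Fin n) (Fin n) ℂ}
    (hh : h.IsHermitian) (hX : X = h - (1 / 2 : ℂ) • (Jᵀ * q * J.map (starRingEnd ℂ))) :
    (b.adjugate * (Complex.I • X)).trace.re =
      (1 / 4) * (b.adjugate * (Jᵀ * ((-Complex.I) • (q - qᴴ)) * J.map (starRingEnd ℂ))).trace.re := by
  have e1 : conj (b.adjugate * (Complex.I • X)).trace =
      (b.adjugate * ((-Complex.I) • Xᴴ)).trace := by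
    have : conj (b.adjugate * (Complex.I • X)).trace = ((b.adjugate * (Complex.I • X))ᴴ).trace := by
      rw [Matrix.trace_conjTranspose]; rfl
    rw [this, Matrix.conjTranspose_mul, Matrix.trace_mul_comm, Matrix.adjugate_conjTranspose,
      hb.eq, Matrix.conjTranspose_smul]
    congr 3
    simp
  have e2 : X - Xᴴ = -((1 / 2 : ℂ) • (Jᵀ * (q - qᴴ) * J.map (starRingEnd ℂ))) := by
    have h1 : (Jᵀ * q * J.map (starRingEnd ℂ))ᴴ = Jᵀ * qᴴ * J.map (starRingEnd ℂ) := by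
      rw [Matrix.conjTranspose_mul, Matrix.conjTranspose_mul, ← Matrix.mul_assoc]
      congr 2
      ext i j
      simp
    rw [hX, Matrix.conjTranspose_sub, hh.eq, Matrix.conjTranspose_smul, h1]
    have h2 : star (1 / 2 : ℂ) = 1 / 2 := by
      simp
    rw [h2, Matrix.mul_sub, Matrix.sub_mul, smul_sub]
    abel
  have e3 : (b.adjugate * (Complex.I • X)).trace + conj (b.adjugate * (Complex.I • X)).trace =
      (1 / 2) * (b.adjugate * (Jᵀ * ((-Complex.I) • (q - qᴴ)) * J.map (starRingEnd ℂ))).trace := by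
    rw [e1, ← Matrix.trace_add, ← Matrix.mul_add]
    have : Complex.I • X + (-Complex.I) • Xᴴ = Complex.I • (X - Xᴴ) := by
      rw [smul_sub, neg_smul]; abel
    rw [this, e2]
    simp only [Matrix.mul_smul, Matrix.smul_mul, Matrix.mul_neg, smul_neg, Matrix.trace_smul,
      Matrix.trace_neg, smul_eq_mul]
    ring
  have e4 := congrArg Complex.re e3
  rw [Complex.add_re, Complex.conj_re] at e4
  have e5 : ((1 / 2 : ℂ) * (b.adjugate * (Jᵀ * ((-Complex.I) • (q - qᴴ)) *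
      J.map (starRingEnd ℂ))).trace).re = (1 / 2) * (b.adjugate * (Jᵀ * ((-Complex.I) • (q - qᴴ)) *
      J.map (starRingEnd ℂ))).trace.re := by
    have : (1 / 2 : ℂ) = ((1 / 2 : ℝ) : ℂ) := by push_cast; rfl
    rw [this, Complex.re_ofReal_mul]
  rw [e5] at e4
  linarith

theorem herm_H (q : Matrix (Fin N) (Fin N) ℂ) : ((-Complex.I) • (q - qᴴ)).IsHermitian := by
  rw [Matrix.IsHermitian, Matrix.conjTranspose_smul, Matrix.conjTranspose_sub,
    Matrix.conjTranspose_conjTranspose]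
  simp only [star_neg, RCLike.star_def, Complex.conj_I, neg_neg, neg_smul]
  rw [← smul_neg, neg_sub]

theorem M_posDef {w : Matrix (Fin n) (Fin n) ℂ} (hw : w.PosDef) {J : Matrix (Fin N) (Fin n) ℂ}
    {S : Matrix (Fin n) (Fin N) ℂ} (hS : J * S = 1) :
    (J.map (starRingEnd ℂ) * w⁻¹ * Jᵀ).PosDef := by
  have h1 : Jᵀ = (J.map (starRingEnd ℂ))ᴴ := by
    ext i j
    simp
  rw [h1]
  refine hw.inv.mul_mul_conjTranspose_same ?_
  have h2 : J.map (starRingEnd ℂ) * S.map (starRingEnd ℂ) = 1 := by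
    rw [← Matrix.map_mul, hS, Matrix.map_one _ (map_zero _) (map_one _)]
  intro x y hxy
  have h3 := congrArg (fun v => v ᵥ* S.map (starRingEnd ℂ)) hxy
  simpa only [Matrix.vecMul_vecMul, h2, Matrix.vecMul_one] using h3

theorem M_psd {w : Matrix (Fin n) (Fin n) ℂ} (hw : w.PosDef) (J : Matrix (Fin N) (Fin n) ℂ) :
    (J.map (starRingEnd ℂ) * w⁻¹ * Jᵀ).PosSemidef := by
  have h1 : Jᵀ = (J.map (starRingEnd ℂ))ᴴ := by
    ext i j
    simp
  rw [h1]
  exact hw.inv.posSemidef.mul_mul_conjTranspose_same _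

/-! ### the (2,0) part -/

theorem tr_anti (g A E : Matrix (Fin n) (Fin n) ℂ) (hE : Eᵀ = -E) :
    (g * (A * gᵀ * E)).trace = (1 / 2) * (g * ((A - Aᵀ) * gᵀ * E)).trace := by
  have h1 : (g * (A * gᵀ * E)).trace = -(g * (Aᵀ * gᵀ * E)).trace := by
    rw [← Matrix.trace_transpose]
    simp only [Matrix.transpose_mul, Matrix.transpose_transpose, hE]
    rw [Matrix.mul_assoc, Matrix.mul_assoc, Matrix.trace_mul_comm]
    simp only [Matrix.mul_assoc, Matrix.mul_neg, Matrix.neg_mul, Matrix.trace_neg]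
  rw [Matrix.sub_mul, Matrix.sub_mul, Matrix.mul_sub, Matrix.trace_sub]
  linear_combination (1 / 2 : ℂ) * h1

theorem quad_nonneg {g η : Matrix (Fin n) (Fin n) ℂ} (hg : g.PosDef) :
    0 ≤ (g * (η * gᵀ * ηᴴ)).trace.re :=
  H730.V.trace_mul_nonneg hg.posSemidef (hg.posSemidef.transpose.mul_mul_conjTranspose_same η)

theorem sqrt_ex {g : Matrix (Fin n) (Fin n) ℂ} (hg : g.PosDef) :
    ∃ C : Matrix (Fin n) (Fin n) ℂ, g = Cᴴ * C ∧ C.det ≠ 0 := by
  open scoped MatrixOrder in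
  obtain ⟨C, hC⟩ := CStarAlgebra.nonneg_iff_eq_star_mul_self.mp hg.posSemidef.nonneg
  rw [Matrix.star_eq_conjTranspose] at hC
  refine ⟨C, hC, fun h0 => hg.det_pos.ne' ?_⟩
  rw [hC, Matrix.det_mul, h0, mul_zero]

theorem quad_zero {g η : Matrix (Fin n) (Fin n) ℂ} (hg : g.PosDef)
    (h : (g * (η * gᵀ * ηᴴ)).trace.re = 0) : η = 0 := by
  obtain ⟨C, hC, hCd⟩ := sqrt_ex hg
  obtain ⟨D, hD, hDd⟩ := sqrt_ex hg.transpose
  have e1 : (g * (η * gᵀ * ηᴴ)).trace = ((C * η * Dᴴ) * (C * η * Dᴴ)ᴴ).trace := by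
    rw [hD, hC]
    simp only [Matrix.conjTranspose_mul, Matrix.conjTranspose_conjTranspose]
    rw [Matrix.mul_assoc Cᴴ, Matrix.trace_mul_comm]
    simp only [Matrix.mul_assoc]
  have e2 : (C * η * Dᴴ) = 0 := by
    rw [← Matrix.trace_mul_conjTranspose_self_eq_zero_iff]
    have h3 := (Matrix.posSemidef_self_mul_conjTranspose (C * η * Dᴴ)).trace_nonneg
    rw [← e1] at h3 ⊢
    exact Complex.ext h (by simpa using (Complex.le_def.1 h3).2.symm)
  have hCu : IsUnit C.det := isUnit_iff_ne_zero.2 hCd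
  have hDu : IsUnit (Dᴴ).det := by
    rw [Matrix.det_conjTranspose]
    exact isUnit_iff_ne_zero.2 (by simpa using hDd)
  have e3 : C⁻¹ * (C * η * Dᴴ) * (Dᴴ)⁻¹ = η := by
    rw [Matrix.mul_assoc C, ← Matrix.mul_assoc C⁻¹, Matrix.nonsing_inv_mul _ hCu, Matrix.one_mul,
      Matrix.mul_assoc, Matrix.mul_nonsing_inv _ hDu, Matrix.mul_one]
  rw [← e3, e2]
  simp

end Vale.Agent.P284.H66.S7
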