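import Vale.Agent.P284.H66.S7bAlg

/-!
# P284, next theorem, S7b: the (2,0) part, local calculus
-/

open scoped Manifold ContDiff Topology Pointwise ComplexConjugate ComplexOrder Matrix
open Filter Set Metric MeasureTheory

noncomputable section

namespace Vale.Agent.P284.H66.S7

open Vale.Agent.P272.K Vale.Agent.P272.K.C2 Vale.Agent.P284.H248 Vale.Agent.P284.H894
  Vale.Agent.P284.H894.V Vale.Agent.P284.H639.V Vale.Agent.P284.H66 Vale.Agent.P284.H913.V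

variable {n N : ℕ}

/-- the form `η* g Θ` -/
def be (w η : Cm n → Matrix (Fin n) (Fin n) ℂ) (Θ : Cm n → Fin n → ℂ) (y : Cm n) : Fin n → ℂ :=
  (η y)ᴴ *ᵥ ((w y)⁻¹ *ᵥ Θ y)

/-- the symmetric matrix `∂_j w_{r s} v_s` -/
def WW (w : Cm n → Matrix (Fin n) (Fin n) ℂ) (v : Fin n → ℂ) (z : Cm n) :
    Matrix (Fin n) (Fin n) ℂ :=
  Matrix.of fun j r => ∑ s, dz j (fun y => w y r s) z * v s

variable {w η : Cm n → Matrix (Fin n) (Fin n) ℂ} {Θ : Cm n → Fin n → ℂ} {z : Cm n}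

theorem pd_be (hw : MC ∞ w z) (h0 : (w z).det ≠ 0) (hη : ∀ i j, Hol (fun y => η y i j) z)
    (hΘ : ∀ k, DifferentiableAt ℝ (fun y => Θ y k) z) :
    pd (be w η Θ) z =
      (pd Θ z - WW w ((w z)⁻¹ *ᵥ Θ z) z) * ((w z)⁻¹)ᵀ * (η z).map (starRingEnd ℂ) := by
  have hg : MC ∞ (fun y => (w y)⁻¹) z := hw.inv h0
  have hgd : ∀ p k, DifferentiableAt ℝ (fun y => (w y)⁻¹ p k) z := fun p k =>
    (hg p k).differentiableAt (by simp)
  have hvd : ∀ p, DifferentiableAt ℝ (fun y => ((w y)⁻¹ *ᵥ Θ y) p) z := fun p => by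
    have : DifferentiableAt ℝ (fun y => ∑ k, (w y)⁻¹ p k * Θ y k) z :=
      DifferentiableAt.fun_sum fun k _ => (hgd p k).fun_mul (hΘ k)
    exact this
  have hv : ∀ j p, dz j (fun y => ((w y)⁻¹ *ᵥ Θ y) p) z =
      ((pd Θ z - WW w ((w z)⁻¹ *ᵥ Θ z) z) * ((w z)⁻¹)ᵀ) j p := by
    intro j p
    have e1 : (fun y => ((w y)⁻¹ *ᵥ Θ y) p) = fun y => ∑ k, (w y)⁻¹ p k * Θ y k := rfl
    rw [e1, C2.dz_sum j _ fun k _ => (hgd p k).fun_mul (hΘ k)]
    have e2 : ∀ k, dz j (fun y => (w y)⁻¹ p k * Θ y k) z =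
        -((w z)⁻¹ * DM j w z * (w z)⁻¹) p k * Θ z k + (w z)⁻¹ p k * pd Θ z j k := by
      intro k
      rw [C2.dz_mul j (hgd p k) (hΘ k)]
      have := congrFun (congrFun (DM_inv (k := j) (hw.mono (by exact_mod_cast le_top)) h0) p) k
      rw [DM_apply, Matrix.neg_apply] at this
      rw [this]
      rfl
    simp only [e2, Finset.sum_add_distrib, neg_mul, Finset.sum_neg_distrib]
    have e3 : ∑ k, ((w z)⁻¹ * DM j w z * (w z)⁻¹) p k * Θ z k =
        ∑ r, WW w ((w z)⁻¹ *ᵥ Θ z) z j r * ((w z)⁻¹)ᵀ r p := by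
      have h1 : ∑ k, ((w z)⁻¹ * DM j w z * (w z)⁻¹) p k * Θ z k =
          (((w z)⁻¹ * DM j w z * (w z)⁻¹) *ᵥ Θ z) p := rfl
      rw [h1, ← Matrix.mulVec_mulVec, ← Matrix.mulVec_mulVec]
      have h2 : ((w z)⁻¹ *ᵥ DM j w z *ᵥ (w z)⁻¹ *ᵥ Θ z) p =
          ∑ r, (w z)⁻¹ p r * (DM j w z *ᵥ (w z)⁻¹ *ᵥ Θ z) r := rfl
      rw [h2]
      refine Finset.sum_congr rfl fun r _ => ?_
      rw [Matrix.transpose_apply, mul_comm]
      rfl
    rw [e3, Matrix.mul_apply, neg_add_eq_sub, ← Finset.sum_sub_distrib]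
    refine Finset.sum_congr rfl fun r _ => ?_
    rw [Matrix.sub_apply, Matrix.transpose_apply]
    ring
  ext j l
  have e1 : (fun y => be w η Θ y l) = fun y => ∑ p, conj (η y p l) * ((w y)⁻¹ *ᵥ Θ y) p := rfl
  rw [pd, Matrix.of_apply, e1, C2.dz_sum j _ fun p _ => (hη p l).diff_conj.fun_mul (hvd p),
    Matrix.mul_apply]
  refine Finset.sum_congr rfl fun p _ => ?_
  rw [C2.dz_mul j (hη p l).diff_conj (hvd p), (hη p l).dz_conj0, zero_mul, zero_add, hv,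
    Matrix.map_apply, mul_comm]

theorem WW_symm {U : Set (Cm n)} (hw : KU U w) (hz : z ∈ U) (v : Fin n → ℂ) :
    (WW w v z)ᵀ = WW w v z := by
  ext j r
  simp only [WW, Matrix.transpose_apply, Matrix.of_apply]
  exact Finset.sum_congr rfl fun s _ => by rw [hw.closed z hz j s r]

theorem tr_be {U : Set (Cm n)} (hw : KU U w) (hz : z ∈ U) (hη : ∀ i j, Hol (fun y => η y i j) z)
    (hΘ : ∀ k, DifferentiableAt ℝ (fun y => Θ y k) z) (hE : (η z)ᵀ = -η z)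
    (hP : pd Θ z - (pd Θ z)ᵀ = -((1 / 2 : ℂ) • η z)) :
    ((w z)⁻¹ * pd (be w η Θ) z).trace =
      (1 / 4) * ((w z)⁻¹ * (η z * ((w z)⁻¹)ᵀ * (η z)ᴴ)).trace := by
  have hE' : ((η z).map (starRingEnd ℂ))ᵀ = -(η z).map (starRingEnd ℂ) := by
    rw [← Matrix.transpose_map, hE]
    ext i j
    simp
  have hH : (η z)ᴴ = -(η z).map (starRingEnd ℂ) := by
    rw [← hE']
    ext i j
    simp
  rw [pd_be (KU_mc hw hz) (KU_det hw hz) hη hΘ, tr_anti _ _ _ hE', hH]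
  have e1 : (pd Θ z - WW w ((w z)⁻¹ *ᵥ Θ z) z) - (pd Θ z - WW w ((w z)⁻¹ *ᵥ Θ z) z)ᵀ =
      -((1 / 2 : ℂ) • η z) := by
    rw [Matrix.transpose_sub, WW_symm hw hz, ← hP]
    abel
  rw [e1]
  simp only [Matrix.neg_mul, Matrix.mul_neg, Matrix.smul_mul, Matrix.mul_smul, Matrix.trace_neg,
    Matrix.trace_smul, smul_eq_mul]
  ring

variable {p q : Matrix (Fin N) (Fin N) ℂ} {u : Cm n → ℝ} {F : Cm n → Cm N}

/-- the holomorphic 2-form -/
def eta (R : Matrix (Fin N) (Fin N) ℂ) (F : Cm n → Cm N) (y : Cm n) : Matrix (Fin n) (Fin n) ℂ :=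
  (JF F y)ᵀ * R * JF F y

theorem eta_hol (R : Matrix (Fin N) (Fin N) ℂ) (h : HolV F z) (i j : Fin n) :
    Hol (fun y => eta R F y i j) z := by
  have h1 : ∀ b, ∀ᶠ y in 𝓝 z, ∀ i, DifferentiableAt ℂ (fun y => JF F y b i) y := fun b =>
    (eventually_all (ι := Fin n)).2 fun i => h.J b i
  have h2 : ∀ᶠ y in 𝓝 z, ∀ b i, DifferentiableAt ℂ (fun y => JF F y b i) y :=
    (eventually_all (ι := Fin N)).2 h1
  filter_upwards [h2] with y hy
  have e1 : (fun y => eta R F y i j) = fun y => ∑ b, (∑ a, JF F y a i * R a b) * JF F y b j := rfl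
  rw [e1]
  refine DifferentiableAt.fun_sum fun b _ => DifferentiableAt.fun_mul ?_ (hy b j)
  exact DifferentiableAt.fun_sum fun a _ => (hy a i).mul_const _

theorem eta_anti {R : Matrix (Fin N) (Fin N) ℂ} (hR : Rᵀ = -R) (y : Cm n) :
    (eta R F y)ᵀ = -eta R F y := by
  simp only [eta, Matrix.transpose_mul, Matrix.transpose_transpose, hR]
  simp only [Matrix.neg_mul, Matrix.mul_neg, Matrix.mul_assoc]

theorem anti_sub (p : Matrix (Fin N) (Fin N) ℂ) : (p - pᵀ)ᵀ = -(p - pᵀ) := by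
  rw [Matrix.transpose_sub, Matrix.transpose_transpose, neg_sub]

/-- the conjugate form -/
def Th (p q : Matrix (Fin N) (Fin N) ℂ) (u : Cm n → ℝ) (F : Cm n → Cm N) (y : Cm n)
    (k : Fin n) : ℂ := conj (al p q u F y k)

theorem Th_smooth (hu : ContDiffAt ℝ ∞ u z) (h : HolV F z) (k : Fin n) :
    ContDiffAt ℝ ∞ (fun y => Th p q u F y k) z := C2.contDiffAt_conj (al_smooth hu h k)

theorem pd_Th (hu : ContDiffAt ℝ ∞ u z) (h : HolV F z) :
    pd (Th p q u F) z - (pd (Th p q u F) z)ᵀ = -((1 / 2 : ℂ) • eta (p - pᵀ) F z) := by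
  ext j k
  have e1 : ∀ j k, dz j (fun y => Th p q u F y k) z = conj (dzb j (fun y => al p q u F y k) z) :=
    fun j k => C2.dz_conj j ((al_smooth hu h k).differentiableAt (by simp))
  rw [Matrix.sub_apply, Matrix.transpose_apply, pd, Matrix.of_apply, Matrix.of_apply, e1, e1,
    ← map_sub, dzb_al hu h, map_mul, Complex.conj_conj, Matrix.neg_apply, Matrix.smul_apply,
    smul_eq_mul, eta]
  have : conj (-(1 / 2) : ℂ) = -(1 / 2) := by simp [map_ofNat]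
  rw [this]
  ring

end Vale.Agent.P284.H66.S7
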