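import Vale.Agent.P284.H66.PP

/-!
# P284, theorem A: the twisted Kähler identity

`ψ` real pluriharmonic with `ψ(gy) = ψ(y) + log |χ(g)|`, `u` complex with `u(gy) = χ(g) u(y) + f(g)`. With
`T = ∂∂̄u - ∂u ⊗ ∂̄ψ - ∂ψ ⊗ ∂̄u`:
`∫ e^{-2ψ} (|tr T|² - |T|² - |∂ψ ∧ ∂u|² - |∂̄ψ ∧ ∂̄u|²) = 0`.
-/

open scoped Manifold ContDiff Topology Pointwise ComplexConjugate ComplexOrder Matrix
open Filter Set Metric MeasureTheory

noncomputable section

namespace Vale.Agent.P284.H66.TK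

open Vale.Agent.P272.K Vale.Agent.P272.K.C2 Vale.Agent.P284.H248 Vale.Agent.P284.H894
  Vale.Agent.P284.H894.V Vale.Agent.P284.H639.V Vale.Agent.P284.H66 Vale.Agent.P284.H913.V
  Vale.Agent.P284.H66.S7

/-! ### linear algebra -/

section alg
variable {n : ℕ}

/-- `⟨a, b⟩ = Σ g_{k j} a_j \bar b_k` -/
abbrev ipg (g : Matrix (Fin n) (Fin n) ℂ) (a b : Fin n → ℂ) : ℂ := H730.V.S g a b

/-- rank one matrix -/
def rk (a b : Fin n → ℂ) : Matrix (Fin n) (Fin n) ℂ := Matrix.of fun j k => a j * conj (b k)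

theorem rk_conj (a b : Fin n → ℂ) : (rk a b)ᴴ = rk b a := by
  ext j k
  simp only [rk, Matrix.conjTranspose_apply, Matrix.of_apply, RCLike.star_def, map_mul,
    Complex.conj_conj]
  ring

theorem tr_rk (g : Matrix (Fin n) (Fin n) ℂ) (a b : Fin n → ℂ) :
    (g * rk a b).trace = ipg g a b := by
  simp only [Matrix.trace, Matrix.diag_apply, Matrix.mul_apply, rk, Matrix.of_apply, ipg, H730.V.S]
  rw [Finset.sum_comm]
  exact Finset.sum_congr rfl fun j _ => Finset.sum_congr rfl fun k _ => by ring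

theorem rk_mul (g : Matrix (Fin n) (Fin n) ℂ) (a b c d : Fin n → ℂ) :
    rk a b * (g * rk c d) = ipg g c b • rk a d := by
  ext i l
  simp only [Matrix.mul_apply, rk, Matrix.of_apply, ipg, H730.V.S, Matrix.smul_apply, smul_eq_mul,
    Finset.mul_sum, Finset.sum_mul]
  rw [Finset.sum_comm]
  exact Finset.sum_congr rfl fun j _ => Finset.sum_congr rfl fun k _ => by ring

theorem tr_rk2 (g : Matrix (Fin n) (Fin n) ℂ) (a b c d : Fin n → ℂ) :
    (g * rk a b * (g * rk c d)).trace = ipg g a d * ipg g c b := by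
  rw [Matrix.mul_assoc, rk_mul, Matrix.mul_smul, Matrix.trace_smul, tr_rk, smul_eq_mul, mul_comm]

theorem qq_rk (g : Matrix (Fin n) (Fin n) ℂ) (a b c d : Fin n → ℂ) :
    qq g (rk a b) (rk c d) = ipg g a b * ipg g c d - ipg g a d * ipg g c b := by
  rw [qq, tr_rk, tr_rk, tr_rk2]

variable {g : Matrix (Fin n) (Fin n) ℂ}

theorem ip_conj (hg : g.IsHermitian) (a b : Fin n → ℂ) : conj (ipg g a b) = ipg g b a :=
  H730.V.S_conj hg

theorem ip_self (hg : g.IsHermitian) (a : Fin n → ℂ) : ((ipg g a a).re : ℂ) = ipg g a a := by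
  rw [← Complex.conj_eq_iff_re]
  exact ip_conj hg a a

/-- `|b|²|a|² - |⟨a, b⟩|²` -/
def WE (g : Matrix (Fin n) (Fin n) ℂ) (b a : Fin n → ℂ) : ℝ :=
  (ipg g b b).re * (ipg g a a).re - ‖ipg g a b‖ ^ 2

theorem qq_self (hg : g.IsHermitian) (a b : Fin n → ℂ) :
    (qq g (rk a b) (rk a b)ᴴ).re = -WE g b a := by
  rw [rk_conj, qq_rk, ← ip_self hg a, ← ip_self hg b, ← ip_conj hg a b, Complex.mul_conj,
    Complex.normSq_eq_norm_sq, WE, Complex.sub_re, Complex.ofReal_re, ← Complex.ofReal_mul,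
    Complex.ofReal_re]
  ring

theorem WE_comm (hg : g.IsHermitian) (a b : Fin n → ℂ) : WE g a b = WE g b a := by
  rw [WE, WE, ← ip_conj hg a b, RCLike.norm_conj]
  ring

/-- cross terms -/
theorem qq_cross (a b c : Fin n → ℂ) : qq g (rk a b) (rk b c)ᴴ = 0 := by
  rw [rk_conj, qq_rk]
  ring

theorem ip_smul_left (c : ℂ) (a b : Fin n → ℂ) : ipg g (c • a) b = c * ipg g a b := by
  simp only [ipg, H730.V.S, Pi.smul_apply, smul_eq_mul, Finset.mul_sum]
  exact Finset.sum_congr rfl fun j _ => Finset.sum_congr rfl fun k _ => by ring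

theorem ip_smul_right (c : ℂ) (a b : Fin n → ℂ) : ipg g a (c • b) = conj c * ipg g a b := by
  simp only [ipg, H730.V.S, Pi.smul_apply, smul_eq_mul, Finset.mul_sum, map_mul]
  exact Finset.sum_congr rfl fun j _ => Finset.sum_congr rfl fun k _ => by ring

theorem ip_sub_left (a a' b : Fin n → ℂ) : ipg g (a - a') b = ipg g a b - ipg g a' b := by
  simp only [ipg, H730.V.S, Pi.sub_apply, mul_sub, sub_mul, Finset.sum_sub_distrib]

theorem ip_sub_right (a b b' : Fin n → ℂ) : ipg g a (b - b') = ipg g a b - ipg g a b' := by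
  simp only [ipg, H730.V.S, Pi.sub_apply, map_sub, mul_sub, Finset.sum_sub_distrib]

/-- the square of `|b|² a - ⟨a, b⟩ b` -/
theorem ip_proj (hg : g.IsHermitian) (a b : Fin n → ℂ) :
    (ipg g (ipg g b b • a - ipg g a b • b) (ipg g b b • a - ipg g a b • b)).re =
      (ipg g b b).re * WE g b a := by
  have h1 : ipg g (ipg g b b • a - ipg g a b • b) (ipg g b b • a - ipg g a b • b) =
      (((ipg g b b).re * WE g b a : ℝ) : ℂ) := by
    simp only [ip_sub_left, ip_sub_right, ip_smul_left, ip_smul_right]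
    have hn : ((‖ipg g a b‖ : ℂ)) ^ 2 = ipg g a b * ipg g b a := by
      rw [← ip_conj hg a b, Complex.mul_conj, Complex.normSq_eq_norm_sq]
      push_cast
      rfl
    rw [WE]
    push_cast
    rw [hn, ip_conj hg a b, ip_conj hg b b, ip_self hg b, ip_self hg a]
    ring
  rw [h1, Complex.ofReal_re]

theorem ip_nonneg (hg : g.PosDef) (a : Fin n → ℂ) : 0 ≤ (ipg g a a).re :=
  H730.V.S_nonneg hg.posSemidef a

theorem ip_pos (hg : g.PosDef) {a : Fin n → ℂ} (ha : a ≠ 0) : 0 < (ipg g a a).re := by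
  rw [ipg, H730.V.S_eq]
  exact (Complex.lt_def.1 (hg.dotProduct_mulVec_pos ha)).1

theorem WE_nonneg (hg : g.PosDef) (a b : Fin n → ℂ) : 0 ≤ WE g b a := by
  by_cases hb : b = 0
  · subst hb
    have h1 : ∀ x : Fin n → ℂ, ipg g x 0 = 0 := fun x => by simp [ipg, H730.V.S]
    have h2 : ∀ x : Fin n → ℂ, ipg g 0 x = 0 := fun x => by simp [ipg, H730.V.S]
    rw [WE, h1, h1]
    simp
  · have h1 := ip_nonneg hg (ipg g b b • a - ipg g a b • b)
    rw [ip_proj hg.isHermitian] at h1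
    exact nonneg_of_mul_nonneg_right h1 (ip_pos hg hb)

theorem nT_nonneg (hg : g.PosDef) (T : Matrix (Fin n) (Fin n) ℂ) :
    0 ≤ (g * T * (g * Tᴴ)).trace.re := by
  have : g * T * (g * Tᴴ) = g * (T * g * Tᴴ) := by simp only [Matrix.mul_assoc]
  rw [this]
  exact H730.V.trace_mul_nonneg hg.posSemidef (hg.posSemidef.mul_mul_conjTranspose_same T)

/-- the pairing with a tangent vector -/
theorem pair_le {w : Matrix (Fin n) (Fin n) ℂ} (hw : w.PosDef) (a τ : Fin n → ℂ) :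
    ‖∑ j, a j * τ j‖ ^ 2 ≤ (ipg w⁻¹ a a).re * (∑ j, ∑ k, w j k * τ j * conj (τ k)).re := by
  set b : Fin n → ℂ := fun k => conj (∑ i, τ i * w i k) with hb
  have hu : IsUnit w.det := isUnit_iff_ne_zero.2 hw.det_pos.ne'
  have h1 : ∑ j, a j * τ j = ipg w⁻¹ a b := by
    simp only [ipg, H730.V.S]
    refine Finset.sum_congr rfl fun j _ => ?_
    have h2 : ∑ k, (∑ i, τ i * w i k) * w⁻¹ k j = τ j := by
      have h3 : ∑ k, (∑ i, τ i * w i k) * w⁻¹ k j = ∑ i, τ i * (w * w⁻¹) i j := by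
        simp only [Matrix.mul_apply, Finset.sum_mul, Finset.mul_sum]
        rw [Finset.sum_comm]
        exact Finset.sum_congr rfl fun i _ => Finset.sum_congr rfl fun k _ => by ring
      rw [h3, Matrix.mul_nonsing_inv _ hu]
      simp [Matrix.one_apply]
    have h3 : ∑ k, w⁻¹ k j * a j * conj (b k) = a j * ∑ k, (∑ i, τ i * w i k) * w⁻¹ k j := by
      rw [Finset.mul_sum]
      refine Finset.sum_congr rfl fun k _ => ?_
      simp only [hb, Complex.conj_conj]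
      ring
    rw [h3, h2]
  have h4 : (ipg w⁻¹ b b).re = (∑ j, ∑ k, w j k * τ j * conj (τ k)).re := by
    have h5 : ipg w⁻¹ b b = ∑ j, b j * τ j := by
      simp only [ipg, H730.V.S]
      refine Finset.sum_congr rfl fun j _ => ?_
      have h2 : ∑ k, (∑ i, τ i * w i k) * w⁻¹ k j = τ j := by
        have h3 : ∑ k, (∑ i, τ i * w i k) * w⁻¹ k j = ∑ i, τ i * (w * w⁻¹) i j := by
          simp only [Matrix.mul_apply, Finset.sum_mul, Finset.mul_sum]
          rw [Finset.sum_comm]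
          exact Finset.sum_congr rfl fun i _ => Finset.sum_congr rfl fun k _ => by ring
        rw [h3, Matrix.mul_nonsing_inv _ hu]
        simp [Matrix.one_apply]
      have h3 : ∑ k, w⁻¹ k j * b j * conj (b k) = b j * ∑ k, (∑ i, τ i * w i k) * w⁻¹ k j := by
        rw [Finset.mul_sum]
        refine Finset.sum_congr rfl fun k _ => ?_
        simp only [hb, Complex.conj_conj]
        ring
      rw [h3, h2]
    rw [h5]
    rw [← Complex.conj_re]
    congr 1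
    simp only [map_sum, map_mul, hb, Complex.conj_conj, Finset.sum_mul]
    rw [Finset.sum_comm]
    exact Finset.sum_congr rfl fun i _ => Finset.sum_congr rfl fun k _ => by ring
  have h6 := WE_nonneg hw.inv a b
  rw [WE, h4] at h6
  rw [h1]
  linarith

/-- **restriction to the kernel of `b`** -/
theorem fib_pair {w : Matrix (Fin n) (Fin n) ℂ} (hw : w.PosDef) (a b τ : Fin n → ℂ)
    (hτ : ∑ j, b j * τ j = 0) :
    ‖∑ j, a j * τ j‖ ^ 2 * (ipg w⁻¹ b b).re ≤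
      WE w⁻¹ b a * (∑ j, ∑ k, w j k * τ j * conj (τ k)).re := by
  by_cases hb : b = 0
  · subst hb
    have h1 : ipg w⁻¹ (0 : Fin n → ℂ) 0 = 0 := by simp [ipg, H730.V.S]
    have h2 : ipg w⁻¹ a (0 : Fin n → ℂ) = 0 := by simp [ipg, H730.V.S]
    rw [WE, h1, h2]
    simp
  have h1 := pair_le hw (ipg w⁻¹ b b • a - ipg w⁻¹ a b • b) τ
  rw [ip_proj hw.inv.isHermitian] at h1
  have h2 : ∑ j, (ipg w⁻¹ b b • a - ipg w⁻¹ a b • b) j * τ j = ipg w⁻¹ b b * ∑ j, a j * τ j := by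
    simp only [Pi.sub_apply, Pi.smul_apply, smul_eq_mul, sub_mul, Finset.sum_sub_distrib, mul_assoc,
      ← Finset.mul_sum]
    rw [hτ, mul_zero, sub_zero]
  have h3 : ‖ipg w⁻¹ b b‖ = (ipg w⁻¹ b b).re := by
    rw [← ip_self hw.inv.isHermitian b, Complex.norm_real, Complex.ofReal_re,
      Real.norm_of_nonneg (ip_nonneg hw.inv b)]
  rw [h2, norm_mul, mul_pow, h3] at h1
  have h4 := ip_pos hw.inv hb
  refine le_of_mul_le_mul_left ?_ h4
  calc (ipg w⁻¹ b b).re * (‖∑ j, a j * τ j‖ ^ 2 * (ipg w⁻¹ b b).re) =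
      (ipg w⁻¹ b b).re ^ 2 * ‖∑ j, a j * τ j‖ ^ 2 := by ring
    _ ≤ _ := h1
    _ = _ := by ring

end alg

/-! ### the operators -/

section op
variable {n : ℕ}

/-- `∂u` -/
def d1 (u : Cm n → ℂ) (z : Cm n) : Fin n → ℂ := fun j => dz j u z

/-- the conjugate function -/
def cju (u : Cm n → ℂ) : Cm n → ℂ := fun y => conj (u y)

/-- `∂∂̄u` -/
def VV (u : Cm n → ℂ) (z : Cm n) : Matrix (Fin n) (Fin n) ℂ := Matrix.of fun j k => dz j (dzb k u) z

/-- real function as a complex function -/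
def rc (ψ : Cm n → ℝ) : Cm n → ℂ := fun y => (ψ y : ℂ)

/-- `∂∂̄u - ∂u ⊗ ∂̄ψ - ∂ψ ⊗ ∂̄u` -/
def TT (ψ : Cm n → ℝ) (u : Cm n → ℂ) (z : Cm n) : Matrix (Fin n) (Fin n) ℂ :=
  Matrix.of fun j k => dz j (dzb k u) z - dz j u z * dzb k (rc ψ) z - dz j (rc ψ) z * dzb k u z

/-- the twisted Laplacian -/
def tau (w : Cm n → Matrix (Fin n) (Fin n) ℂ) (ψ : Cm n → ℝ) (u : Cm n → ℂ) (z : Cm n) : ℂ :=
  ((w z)⁻¹ * TT ψ u z).trace

/-- `|T|²` -/
def nT (w : Cm n → Matrix (Fin n) (Fin n) ℂ) (ψ : Cm n → ℝ) (u : Cm n → ℂ) (z : Cm n) : ℝ :=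
  ((w z)⁻¹ * TT ψ u z * ((w z)⁻¹ * (TT ψ u z)ᴴ)).trace.re

/-- `|∂ψ ∧ ∂u|²` -/
def W1 (w : Cm n → Matrix (Fin n) (Fin n) ℂ) (ψ : Cm n → ℝ) (u : Cm n → ℂ) (z : Cm n) : ℝ :=
  WE (w z)⁻¹ (d1 (rc ψ) z) (d1 u z)

/-- `|∂̄ψ ∧ ∂̄u|²` -/
def W2 (w : Cm n → Matrix (Fin n) (Fin n) ℂ) (ψ : Cm n → ℝ) (u : Cm n → ℂ) (z : Cm n) : ℝ :=
  WE (w z)⁻¹ (d1 (rc ψ) z) (d1 (cju u) z)

variable {w : Cm n → Matrix (Fin n) (Fin n) ℂ} {ψ : Cm n → ℝ} {u : Cm n → ℂ} {z : Cm n}

theorem cju_smooth (hu : ContDiffAt ℝ ∞ u z) : ContDiffAt ℝ ∞ (cju u) z := C2.contDiffAt_conj hu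

theorem dzb_cju (hu : DifferentiableAt ℝ u z) (j : Fin n) : dzb j (cju u) z = conj (dz j u z) :=
  C2.dzb_conj j hu

theorem dz_cju (hu : DifferentiableAt ℝ u z) (j : Fin n) : dz j (cju u) z = conj (dzb j u z) :=
  C2.dz_conj j hu

theorem dzb_rc (hψ : DifferentiableAt ℝ ψ z) (j : Fin n) :
    dzb j (rc ψ) z = conj (dz j (rc ψ) z) := C2.dzb_real j hψ

theorem diff_of (hu : ContDiffAt ℝ ∞ u z) : DifferentiableAt ℝ u z :=
  hu.differentiableAt (by simp)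

theorem diff_ofR (hψ : ContDiffAt ℝ ∞ ψ z) : DifferentiableAt ℝ ψ z :=
  hψ.differentiableAt (by simp)

theorem rc_smooth (hψ : ContDiffAt ℝ ∞ ψ z) : ContDiffAt ℝ ∞ (rc ψ) z := contDiffAt_ofReal hψ

theorem smooth_ev (hu : ContDiffAt ℝ ∞ u z) : ∀ᶠ y in 𝓝 z, ContDiffAt ℝ 2 u y :=
  C2.eventually_contDiffAt (m := 2) (hu.of_le two_le)

theorem VV_cju (hu : ContDiffAt ℝ ∞ u z) : VV (cju u) z = (VV u z)ᴴ := by
  ext j k
  rw [Matrix.conjTranspose_apply]
  simp only [VV, Matrix.of_apply]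
  have e : (dzb k (cju u)) =ᶠ[𝓝 z] fun y => conj (dz k u y) := by
    filter_upwards [smooth_ev hu] with y hy
    exact dzb_cju (hy.differentiableAt (by norm_num)) k
  rw [C2.dz_congr j e, C2.dz_conj j (C2.differentiableAt_dz k (hu.of_le two_le)),
    C2.dz_dzb_comm k j (hu.of_le two_le)]
  rfl

/-- `∂u ⊗ ∂̄ψ` -/
theorem B1_eq (hψ : ContDiffAt ℝ ∞ ψ z) :
    rk (d1 u z) (d1 (rc ψ) z) = Matrix.of fun j k => dz j u z * dzb k (rc ψ) z := by
  ext j k
  simp only [rk, d1, Matrix.of_apply]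
  rw [dzb_rc (diff_ofR hψ)]

/-- `∂ψ ⊗ ∂̄u` -/
theorem B2_eq (hu : ContDiffAt ℝ ∞ u z) :
    rk (d1 (rc ψ) z) (d1 (cju u) z) = Matrix.of fun j k => dz j (rc ψ) z * dzb k u z := by
  ext j k
  simp only [rk, d1, Matrix.of_apply]
  rw [dz_cju (diff_of hu), Complex.conj_conj]

theorem TT_eq (hψ : ContDiffAt ℝ ∞ ψ z) (hu : ContDiffAt ℝ ∞ u z) :
    TT ψ u z = VV u z - rk (d1 u z) (d1 (rc ψ) z) - rk (d1 (rc ψ) z) (d1 (cju u) z) := by
  rw [B1_eq hψ, B2_eq hu]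
  rfl

/-- the form `e^{-2ψ} ∂̄u` -/
def fa (ψ : Cm n → ℝ) (u : Cm n → ℂ) (z : Cm n) (l : Fin n) : ℂ :=
  (Real.exp (-2 * ψ z) : ℂ) * dzb l u z

theorem exp_smooth (hψ : ContDiffAt ℝ ∞ ψ z) :
    ContDiffAt ℝ ∞ (fun y => Real.exp (-2 * ψ y)) z :=
  Real.contDiff_exp.contDiffAt.comp z (contDiffAt_const.mul hψ)

theorem fa_smooth (hψ : ContDiffAt ℝ ∞ ψ z) (hu : ContDiffAt ℝ ∞ u z) (l : Fin n) :
    ContDiffAt ℝ ∞ (fun y => fa ψ u y l) z :=
  (contDiffAt_ofReal (exp_smooth hψ)).mul (contDiffAt_dzb (m := ∞) l hu (by norm_num))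

theorem pd_fa (hψ : ContDiffAt ℝ ∞ ψ z) (hu : ContDiffAt ℝ ∞ u z) :
    pd (fa ψ u) z = (Real.exp (-2 * ψ z) : ℂ) •
      (VV u z - (2 : ℂ) • rk (d1 (rc ψ) z) (d1 (cju u) z)) := by
  rw [B2_eq hu]
  ext r l
  have h1 : DifferentiableAt ℝ (fun y => (Real.exp (-2 * ψ y) : ℂ)) z :=
    differentiableAt_ofReal ((exp_smooth hψ).differentiableAt (by simp))
  have h2 : DifferentiableAt ℝ (dzb l u) z := C2.differentiableAt_dzb l (hu.of_le two_le)
  have h3 : HasDerivAt (fun t : ℝ => Real.exp (-2 * t)) (Real.exp (-2 * ψ z) * (-2)) (ψ z) := by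
    have := ((hasDerivAt_id (ψ z)).const_mul (-2 : ℝ)).exp
    simpa using this
  have h4 : dz r (fun y => (Real.exp (-2 * ψ y) : ℂ)) z =
      ((Real.exp (-2 * ψ z) * (-2) : ℝ) : ℂ) * dz r (rc ψ) z :=
    C2.dz_comp_real r h3 (diff_ofR hψ)
  rw [pd, Matrix.of_apply]
  have e1 : (fun y => fa ψ u y l) = fun y => (Real.exp (-2 * ψ y) : ℂ) * dzb l u y := rfl
  rw [e1, C2.dz_mul r h1 h2, h4, Matrix.smul_apply, Matrix.sub_apply, Matrix.smul_apply]
  simp only [VV, Matrix.of_apply, smul_eq_mul]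
  push_cast
  ring

/-- pointwise algebra -/
theorem key_alg {g V B B' : Matrix (Fin n) (Fin n) ℂ} (h12 : (qq g B B'ᴴ).re = 0)
    (h21 : (qq g B' Bᴴ).re = 0) :
    (qq g (V - B - B') (V - B - B')ᴴ).re =
      ((qq g (V - (2 : ℂ) • B') Vᴴ).re + (qq g (V - (2 : ℂ) • B) Vᴴ).re) / 2
        - (qq g (V - (2 : ℂ) • B') B'ᴴ).re - (qq g (V - (2 : ℂ) • B) Bᴴ).re
        - (qq g B Bᴴ).re - (qq g B' B'ᴴ).re := by
  have hs : ∀ X Y Z : Matrix (Fin n) (Fin n) ℂ, qq g (X - Y) Z = qq g X Z - qq g Y Z := by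
    intro X Y Z
    have := qq_add_left g X ((-1 : ℂ) • Y) Z
    rw [qq_smul_left, neg_smul, one_smul, ← sub_eq_add_neg] at this
    rw [this]
    ring
  have hr : ∀ X Y Z : Matrix (Fin n) (Fin n) ℂ, qq g Z (X - Y) = qq g Z X - qq g Z Y := by
    intro X Y Z
    rw [qq_comm, hs, qq_comm g X, qq_comm g Y]
  have h2 : (2 : ℂ) = ((2 : ℝ) : ℂ) := by push_cast; rfl
  simp only [Matrix.conjTranspose_sub, hs, hr, qq_smul_left, Complex.sub_re]
  rw [h2]
  simp only [Complex.re_ofReal_mul]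
  linarith

end op

/-! ### the global identity -/

section glob
variable {n : ℕ} {Γ : Type} [Group Γ] {C : Coc n Γ}

/-- real pluriharmonic function with periods `log |χ|` -/
structure Psi (C : Coc n Γ) (χ : Γ → ℂ) (ψ : Γ → C.I → Cm n → ℝ) : Prop where
  ne : ∀ g, χ g ≠ 0
  smooth : ∀ γ a, ∀ z ∈ C.Ω a, ContDiffAt ℝ ∞ (ψ γ a) z
  hess : ∀ γ a, ∀ z ∈ C.Ω a, cHess (ψ γ a) z = 0
  compat : ∀ γ a b, ∀ z ∈ C.O a b, ψ γ a z = ψ (γ * C.κ a b z) b (C.T a b z)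
  equi : ∀ g γ a, ∀ z ∈ C.Ω a, ψ (g * γ) a z = ψ γ a z + Real.log ‖χ g‖

/-- complex function with `u(gy) = χ(g) u(y) + f(g)` -/
structure Tw (C : Coc n Γ) (χ f : Γ → ℂ) (u : Γ → C.I → Cm n → ℂ) : Prop where
  smooth : ∀ γ a, ∀ z ∈ C.Ω a, ContDiffAt ℝ ∞ (u γ a) z
  compat : ∀ γ a b, ∀ z ∈ C.O a b, u γ a z = u (γ * C.κ a b z) b (C.T a b z)
  equi : ∀ g γ a, ∀ z ∈ C.Ω a, u (g * γ) a z = χ g * u γ a z + f g

variable {χ f : Γ → ℂ} {ψ : Γ → C.I → Cm n → ℝ} {u : Γ → C.I → Cm n → ℂ}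

theorem Psi.conj (h : Psi C χ ψ) : Psi C (fun g => conj (χ g)) ψ where
  ne g := by
    intro h0
    exact h.ne g (by simpa using h0)
  smooth := h.smooth
  hess := h.hess
  compat := h.compat
  equi g γ a z hz := by rw [h.equi g γ a z hz, RCLike.norm_conj]

theorem Tw.conj (h : Tw C χ f u) :
    Tw C (fun g => conj (χ g)) (fun g => conj (f g)) (fun γ a => cju (u γ a)) where
  smooth γ a z hz := cju_smooth (h.smooth γ a z hz)
  compat γ a b z hz := by simp only [cju]; rw [h.compat γ a b z hz]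
  equi g γ a z hz := by simp only [cju]; rw [h.equi g γ a z hz, map_add, map_mul]

theorem Tw.compat_ev (h : Tw C χ f u) (γ : Γ) {a b : C.I} {z : Cm n} (hz : z ∈ C.O a b) :
    u γ a =ᶠ[𝓝 z] fun y => u (γ * C.κ a b z) b (C.T a b y) := by
  filter_upwards [(C.O_open a b).mem_nhds hz, C.κ_loc a b z hz] with y hy hk
  rw [h.compat γ a b y hy, hk]

theorem Psi.compat_ev (h : Psi C χ ψ) (γ : Γ) {a b : C.I} {z : Cm n} (hz : z ∈ C.O a b) :
    ψ γ a =ᶠ[𝓝 z] fun y => ψ (γ * C.κ a b z) b (C.T a b y) := by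
  filter_upwards [(C.O_open a b).mem_nhds hz, C.κ_loc a b z hz] with y hy hk
  rw [h.compat γ a b y hy, hk]

theorem Tw.equi_ev (h : Tw C χ f u) (g γ : Γ) {a : C.I} {z : Cm n} (hz : z ∈ C.Ω a) :
    u (g * γ) a =ᶠ[𝓝 z] fun y => χ g * u γ a y + f g := by
  filter_upwards [(isOpen_Ω C a).mem_nhds hz] with y hy using h.equi g γ a y hy

theorem Tw.dzb_equi (h : Tw C χ f u) (g γ : Γ) {a : C.I} {z : Cm n} (hz : z ∈ C.Ω a) (l : Fin n) :
    dzb l (u (g * γ) a) z = χ g * dzb l (u γ a) z := by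
  have hd := diff_of (h.smooth γ a z hz)
  rw [C2.dzb_congr l (h.equi_ev g γ hz), C2.dzb_add l (hd.const_mul _) (differentiableAt_const _),
    C2.dzb_const_mul l _ hd, C2.dzb_const, add_zero]

theorem Tw.dz_equi (h : Tw C χ f u) (g γ : Γ) {a : C.I} {z : Cm n} (hz : z ∈ C.Ω a) (l : Fin n) :
    dz l (u (g * γ) a) z = χ g * dz l (u γ a) z := by
  have hd := diff_of (h.smooth γ a z hz)
  rw [C2.dz_congr l (h.equi_ev g γ hz), C2.dz_add l (hd.const_mul _) (differentiableAt_const _),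
    C2.dz_const_mul l _ hd, C2.dz_const, add_zero]

theorem Tw.d1_change (h : Tw C χ f u) (γ : Γ) {a d : C.I} {z : Cm n} (hz : z ∈ C.O a d) :
    d1 (u γ a) z = (jac C a d z)ᵀ *ᵥ d1 (u (γ * C.κ a d z) d) (C.T a d z) := by
  ext j
  have hT := T_mem_Ω C hz
  rw [d1, C2.dz_congr j (h.compat_ev γ hz),
    dz_comp_holo (f := u (γ * C.κ a d z) d) (diff_of (h.smooth _ d _ hT)) (T_ev C hz).self_of_nhds]
  simp only [Matrix.mulVec, dotProduct, Matrix.transpose_apply, d1]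
  exact Finset.sum_congr rfl fun p _ => mul_comm _ _

theorem Psi.d1_change (h : Psi C χ ψ) (γ : Γ) {a d : C.I} {z : Cm n} (hz : z ∈ C.O a d) :
    d1 (rc (ψ γ a)) z = (jac C a d z)ᵀ *ᵥ d1 (rc (ψ (γ * C.κ a d z) d)) (C.T a d z) := by
  ext j
  have hT := T_mem_Ω C hz
  have e : rc (ψ γ a) =ᶠ[𝓝 z] fun y => rc (ψ (γ * C.κ a d z) d) (C.T a d y) := by
    filter_upwards [h.compat_ev γ hz] with y hy
    simp only [rc]
    rw [hy]
  rw [d1, C2.dz_congr j e, dz_comp_holo (f := rc (ψ (γ * C.κ a d z) d))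
    (diff_of (rc_smooth (h.smooth _ d _ hT))) (T_ev C hz).self_of_nhds]
  simp only [Matrix.mulVec, dotProduct, Matrix.transpose_apply, d1]
  exact Finset.sum_congr rfl fun p _ => mul_comm _ _

theorem Psi.d1_equi (h : Psi C χ ψ) (g γ : Γ) {a : C.I} {z : Cm n} (hz : z ∈ C.Ω a) :
    d1 (rc (ψ (g * γ) a)) z = d1 (rc (ψ γ a)) z := by
  ext j
  have hd := diff_of (rc_smooth (h.smooth γ a z hz))
  have e : rc (ψ (g * γ) a) =ᶠ[𝓝 z] fun y => rc (ψ γ a) y + (Real.log ‖χ g‖ : ℂ) := by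
    filter_upwards [(isOpen_Ω C a).mem_nhds hz] with y hy
    simp only [rc]
    rw [h.equi g γ a y hy]
    push_cast
    rfl
  rw [d1, C2.dz_congr j e, C2.dz_add j hd (differentiableAt_const _), C2.dz_const, add_zero]
  rfl

theorem Psi.exp_equi (h : Psi C χ ψ) (g γ : Γ) {a : C.I} {z : Cm n} (hz : z ∈ C.Ω a) :
    Real.exp (-2 * ψ (g * γ) a z) = (‖χ g‖ ^ 2)⁻¹ * Real.exp (-2 * ψ γ a z) := by
  have h0 : 0 < ‖χ g‖ := norm_pos_iff.2 (h.ne g)
  rw [h.equi g γ a z hz, mul_add, Real.exp_add, mul_comm]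
  congr 1
  have : -2 * Real.log ‖χ g‖ = Real.log ((‖χ g‖ ^ 2)⁻¹) := by
    rw [Real.log_inv, Real.log_pow]
    push_cast
    ring
  rw [this, Real.exp_log (by positivity)]

theorem fa_TwF (hψ : Psi C χ ψ) (hu : Tw C χ f u) :
    TwF C (fun g => (Complex.ofReal (‖χ g‖ ^ 2))⁻¹ * χ g) (fun γ a => fa (ψ γ a) (u γ a)) where
  smooth γ a z hz l := fa_smooth (hψ.smooth γ a z hz) (hu.smooth γ a z hz) l
  change γ a d z hz := by
    have hT := T_mem_Ω C hz
    ext l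
    have h1 : dzb l (u γ a) z = ∑ m, dzb m (u (γ * C.κ a d z) d) (C.T a d z) *
        cj (jmat (C.T a d) z m l) := by
      rw [C2.dzb_congr l (hu.compat_ev γ hz), dzb_comp_holo (f := u (γ * C.κ a d z) d)
        (diff_of (hu.smooth _ d _ hT)) (T_ev C hz).self_of_nhds]
    rw [fa, h1, hψ.compat γ a d z hz, Finset.mul_sum]
    simp only [Matrix.mulVec, dotProduct, Matrix.conjTranspose_apply, fa]
    refine Finset.sum_congr rfl fun m _ => ?_
    simp only [RCLike.star_def]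
    have : (jac C a d z) m l = jmat (C.T a d) z m l := rfl
    rw [this]
    ring
  equi g γ a z hz := by
    ext l
    rw [fa, hu.dzb_equi g γ hz l, hψ.exp_equi g γ hz, Pi.smul_apply, fa, smul_eq_mul]
    push_cast
    ring

/-- `∂∂̄ū` -/
theorem VV_TwM (hu : Tw C χ f u) :
    TwM C (fun g => conj (χ g)) (fun γ a => VV (cju (u γ a))) where
  smooth γ a z hz i j := contDiffAt_dz (m := ∞) i
    (contDiffAt_dzb (m := ∞) j (cju_smooth (hu.smooth γ a z hz)) (by norm_num)) (by norm_num)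
  closed γ a z hz i k l := by
    have hs := cju_smooth (hu.smooth γ a z hz)
    exact C2.dz_dz_comm i k ((contDiffAt_dzb (m := ∞) l hs (by norm_num)).of_le two_le)
  change γ a d z hz := by
    have hc := hu.conj
    have hT := T_mem_Ω C hz
    have h1 : pd (fun y l => dzb l (cju (u γ a)) y) z = (jmat (C.T a d) z)ᵀ *
        pd (fun y l => dzb l (cju (u (γ * C.κ a d z) d)) y) (C.T a d z) *
        (jmat (C.T a d) z).map (starRingEnd ℂ) := by
      refine pd_comp (T_ev C hz) (fun l => C2.differentiableAt_dzb l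
        ((cju_smooth (hu.smooth _ d _ hT)).of_le two_le)) ?_
      filter_upwards [(C.O_open a d).mem_nhds hz, C.κ_loc a d z hz] with y hy hk
      ext l
      have h2 : dzb l (cju (u γ a)) y = ∑ m, dzb m (cju (u (γ * C.κ a d y) d)) (C.T a d y) *
          cj (jmat (C.T a d) y m l) := by
        rw [C2.dzb_congr l (hc.compat_ev γ hy), dzb_comp_holo (f := cju (u (γ * C.κ a d y) d))
          (diff_of (hc.smooth _ d _ (T_mem_Ω C hy))) (T_ev C hy).self_of_nhds]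
      rw [h2, hk]
      simp only [Matrix.mulVec, dotProduct, Matrix.conjTranspose_apply]
      exact Finset.sum_congr rfl fun m _ => mul_comm _ _
    exact h1
  equi g γ a z hz := by
    have hc := hu.conj
    ext j k
    rw [Matrix.smul_apply, smul_eq_mul]
    simp only [VV, Matrix.of_apply]
    have e : dzb k (cju (u (g * γ) a)) =ᶠ[𝓝 z] fun y => conj (χ g) * dzb k (cju (u γ a)) y := by
      filter_upwards [(isOpen_Ω C a).mem_nhds hz] with y hy
      exact hc.dzb_equi g γ hy k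
    rw [C2.dz_congr j e, C2.dz_const_mul j _ (C2.differentiableAt_dzb k
      ((cju_smooth (hu.smooth γ a z hz)).of_le two_le))]

/-- `∂ū ⊗ ∂̄ψ` -/
theorem BB_TwM (hψ : Psi C χ ψ) (hu : Tw C χ f u) :
    TwM C (fun g => conj (χ g)) (fun γ a z => rk (d1 (cju (u γ a)) z) (d1 (rc (ψ γ a)) z)) where
  smooth γ a z hz i j := (contDiffAt_dz (m := ∞) i (cju_smooth (hu.smooth γ a z hz))
    (by norm_num)).mul (contDiffAt_conj (contDiffAt_dz (m := ∞) j
      (rc_smooth (hψ.smooth γ a z hz)) (by norm_num)))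
  closed γ a z hz i k l := by
    have hs := cju_smooth (hu.smooth γ a z hz)
    have hp := rc_smooth (hψ.smooth γ a z hz)
    have h1 : ∀ k, DifferentiableAt ℝ (dz k (cju (u γ a))) z := fun k =>
      C2.differentiableAt_dz k (hs.of_le two_le)
    have h2 : DifferentiableAt ℝ (fun y => conj (dz l (rc (ψ γ a)) y)) z :=
      C2.differentiableAt_conj (C2.differentiableAt_dz l (hp.of_le two_le))
    have h3 : ∀ i, dz i (fun y => conj (dz l (rc (ψ γ a)) y)) z = 0 := by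
      intro i
      have e : (fun y => conj (dz l (rc (ψ γ a)) y)) =ᶠ[𝓝 z] dzb l (rc (ψ γ a)) := by
        filter_upwards [(hψ.smooth γ a z hz).of_le (two_le) |> C2.eventually_contDiffAt (m := 2)]
          with y hy
        exact (dzb_rc (hy.differentiableAt (by norm_num)) l).symm
      rw [C2.dz_congr i e]
      have h4 := congrFun (congrFun (hψ.hess γ a z hz) i) l
      exact h4
    have h5 : ∀ i k, dz i (fun y => rk (d1 (cju (u γ a)) y) (d1 (rc (ψ γ a)) y) k l) z =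
        dz i (dz k (cju (u γ a))) z * conj (dz l (rc (ψ γ a)) z) := by
      intro i k
      have e : (fun y => rk (d1 (cju (u γ a)) y) (d1 (rc (ψ γ a)) y) k l) = fun y =>
        dz k (cju (u γ a)) y * conj (dz l (rc (ψ γ a)) y) := rfl
      rw [e, C2.dz_mul i (h1 k) h2, h3, mul_zero, add_zero]
    rw [h5, h5, C2.dz_dz_comm i k (hs.of_le two_le)]
  change γ a d z hz := by
    have h1 := hu.conj.d1_change γ hz
    have h2 := hψ.d1_change γ hz
    rw [h1, h2]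
    ext j k
    simp only [rk, Matrix.of_apply, Matrix.mul_apply, Matrix.mulVec, dotProduct,
      Matrix.transpose_apply, Matrix.map_apply, map_sum, map_mul, Finset.sum_mul, Finset.mul_sum]
    exact Finset.sum_congr rfl fun p _ => Finset.sum_congr rfl fun q _ => by ring
  equi g γ a z hz := by
    have hd : d1 (cju (u (g * γ) a)) z = conj (χ g) • d1 (cju (u γ a)) z := by
      ext j
      exact hu.conj.dz_equi g γ hz j
    rw [hd, hψ.d1_equi g γ hz]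
    ext j k
    simp only [rk, Matrix.of_apply, Matrix.smul_apply, Pi.smul_apply, smul_eq_mul]
    ring

theorem char_mul (hψ : Psi C χ ψ) (g : Γ) :
    (Complex.ofReal (‖χ g‖ ^ 2))⁻¹ * χ g * conj (χ g) = 1 := by
  have h0 : (Complex.ofReal (‖χ g‖ ^ 2)) ≠ 0 := by
    have := norm_pos_iff.2 (hψ.ne g)
    exact_mod_cast (by positivity : (‖χ g‖ ^ 2 : ℝ) ≠ 0)
  rw [mul_assoc, Complex.mul_conj, Complex.normSq_eq_norm_sq, inv_mul_cancel₀ h0]

/-- the integrand of the twisted Kähler identity -/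
def twD (K : KM C) (ψ : Γ → C.I → Cm n → ℝ) (u : Γ → C.I → Cm n → ℂ) (a : C.I) (z : Cm n) : ℝ :=
  Real.exp (-2 * ψ 1 a z) * (‖tau (K.w a) (ψ 1 a) (u 1 a) z‖ ^ 2 - nT (K.w a) (ψ 1 a) (u 1 a) z -
    W1 (K.w a) (ψ 1 a) (u 1 a) z - W2 (K.w a) (ψ 1 a) (u 1 a) z)

theorem qD_V (K : KM C) (hψ : Psi C χ ψ) (hu : Tw C χ f u) {a : C.I} {z : Cm n} (hz : z ∈ C.Ω a) :
    qD K (fun γ a => fa (ψ γ a) (u γ a)) (fun γ a => VV (cju (u γ a))) a z =
      Real.exp (-2 * ψ 1 a z) * (qq (K.w a z)⁻¹ (VV (u 1 a) z - (2 : ℂ) •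
        rk (d1 (rc (ψ 1 a)) z) (d1 (cju (u 1 a)) z)) (VV (u 1 a) z)ᴴ).re := by
  rw [qD, pd_fa (hψ.smooth 1 a z hz) (hu.smooth 1 a z hz), VV_cju (hu.smooth 1 a z hz),
    qq_smul_left, Complex.re_ofReal_mul]

theorem qD_B (K : KM C) (hψ : Psi C χ ψ) (hu : Tw C χ f u) {a : C.I} {z : Cm n} (hz : z ∈ C.Ω a) :
    qD K (fun γ a => fa (ψ γ a) (u γ a))
      (fun γ a z => rk (d1 (cju (u γ a)) z) (d1 (rc (ψ γ a)) z)) a z =
      Real.exp (-2 * ψ 1 a z) * (qq (K.w a z)⁻¹ (VV (u 1 a) z - (2 : ℂ) •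
        rk (d1 (rc (ψ 1 a)) z) (d1 (cju (u 1 a)) z))
          (rk (d1 (rc (ψ 1 a)) z) (d1 (cju (u 1 a)) z))ᴴ).re := by
  rw [qD, pd_fa (hψ.smooth 1 a z hz) (hu.smooth 1 a z hz), rk_conj, qq_smul_left,
    Complex.re_ofReal_mul]

theorem cju_cju (u : Cm n → ℂ) : cju (cju u) = u := by
  ext y
  simp [cju]

/-- the four Piola densities -/
def dd1 (K : KM C) (ψ : Γ → C.I → Cm n → ℝ) (u : Γ → C.I → Cm n → ℂ) : C.I → Cm n → ℝ :=
  qD K (fun γ a => fa (ψ γ a) (u γ a)) (fun γ a => VV (cju (u γ a)))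

/-- see `dd1` -/
def dd2 (K : KM C) (ψ : Γ → C.I → Cm n → ℝ) (u : Γ → C.I → Cm n → ℂ) : C.I → Cm n → ℝ :=
  qD K (fun γ a => fa (ψ γ a) (u γ a)) (fun γ a z => rk (d1 (cju (u γ a)) z) (d1 (rc (ψ γ a)) z))

theorem dd1_BD (K : KM C) (hψ : Psi C χ ψ) (hu : Tw C χ f u) : BD C (dd1 K ψ u) :=
  qD_BD K (fa_TwF hψ hu) (VV_TwM hu) (char_mul hψ)

theorem dd2_BD (K : KM C) (hψ : Psi C χ ψ) (hu : Tw C χ f u) : BD C (dd2 K ψ u) :=
  qD_BD K (fa_TwF hψ hu) (BB_TwM hψ hu) (char_mul hψ)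

theorem dd1_int (P : PU C) (K : KM C) (hψ : Psi C χ ψ) (hu : Tw C χ f u) :
    BInt P K (dd1 K ψ u) = 0 := pp_glob P K (fa_TwF hψ hu) (VV_TwM hu) (char_mul hψ)

theorem dd2_int (P : PU C) (K : KM C) (hψ : Psi C χ ψ) (hu : Tw C χ f u) :
    BInt P K (dd2 K ψ u) = 0 := pp_glob P K (fa_TwF hψ hu) (BB_TwM hψ hu) (char_mul hψ)

theorem twD_eq (K : KM C) (hψ : Psi C χ ψ) (hu : Tw C χ f u) {a : C.I} {z : Cm n}
    (hz : z ∈ C.Ω a) : twD K ψ u a z = (1 / 2) * dd1 K ψ u a z +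
      (1 / 2) * dd1 K ψ (fun γ a => cju (u γ a)) a z + (-1) * dd2 K ψ u a z +
        (-1) * dd2 K ψ (fun γ a => cju (u γ a)) a z := by
  have hg := ((K.ku a).pos z hz).inv
  have hgH := hg.isHermitian
  have hus := hu.smooth 1 a z hz
  have hps := hψ.smooth 1 a z hz
  have e1 := qD_V K hψ hu hz
  have e2 := qD_B K hψ hu hz
  have e3 := qD_V K hψ.conj hu.conj hz
  have e4 := qD_B K hψ.conj hu.conj hz
  rw [VV_cju hus] at e3 e4
  rw [cju_cju] at e3 e4
  set g := (K.w a z)⁻¹ with hgdef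
  set V := VV (u 1 a) z with hV
  set b := d1 (rc (ψ 1 a)) z with hb
  set A := d1 (u 1 a) z with hA
  set A' := d1 (cju (u 1 a)) z with hA'
  have hreal : ∀ X Y : Matrix (Fin n) (Fin n) ℂ, (qq g X Y).re = (qq g Xᴴ Yᴴ).re := by
    intro X Y
    rw [← qq_conj hgH, Complex.conj_re]
  have e3' : (qq g (Vᴴ - (2 : ℂ) • rk b A) (Vᴴ)ᴴ).re = (qq g (V - (2 : ℂ) • rk A b) Vᴴ).re := by
    rw [hreal, Matrix.conjTranspose_sub, Matrix.conjTranspose_smul, rk_conj,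
      Matrix.conjTranspose_conjTranspose]
    congr 2
    simp
  have e4' : (qq g (Vᴴ - (2 : ℂ) • rk b A) (rk b A)ᴴ).re =
      (qq g (V - (2 : ℂ) • rk A b) (rk A b)ᴴ).re := by
    rw [hreal, Matrix.conjTranspose_sub, Matrix.conjTranspose_smul, rk_conj, rk_conj,
      Matrix.conjTranspose_conjTranspose]
    congr 2
    simp
  rw [dd1, dd1, dd2, dd2, e1, e2, e3, e4, e3', e4', twD]
  have hk := key_alg (g := g) (V := V) (B := rk A b) (B' := rk b A')
    (by rw [qq_cross]; rfl)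
    (by rw [hreal, Matrix.conjTranspose_conjTranspose, qq_comm, qq_cross]; rfl)
  have hT : TT (ψ 1 a) (u 1 a) z = V - rk A b - rk b A' := TT_eq hps hus
  rw [qq_self hgH, qq_self hgH, WE_comm hgH A' b] at hk
  have h1 : (qq g (V - rk A b - rk b A') (V - rk A b - rk b A')ᴴ).re =
      ‖tau (K.w a) (ψ 1 a) (u 1 a) z‖ ^ 2 - nT (K.w a) (ψ 1 a) (u 1 a) z := by
    rw [← hT, qq, tau, nT, Complex.sub_re]
    congr 1
    have h2 : (g * (TT (ψ 1 a) (u 1 a) z)ᴴ).trace = conj (g * TT (ψ 1 a) (u 1 a) z).trace := by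
      have h3 : conj (g * TT (ψ 1 a) (u 1 a) z).trace = ((g * TT (ψ 1 a) (u 1 a) z)ᴴ).trace := by
        rw [Matrix.trace_conjTranspose]; rfl
      rw [h3, Matrix.conjTranspose_mul, hgH.eq, Matrix.trace_mul_comm]
    rw [h2, Complex.mul_conj, Complex.normSq_eq_norm_sq, Complex.ofReal_re]
  rw [← h1, hk, W1, W2]
  ring

theorem BD_add {F G : C.I → Cm n → ℝ} (hF : BD C F) (hG : BD C G) :
    BD C (fun a z => F a z + G a z) where
  cont a := (hF.cont a).add (hG.cont a)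
  compat a b z hz h1 h2 := by rw [hF.compat a b z hz h1 h2, hG.compat a b z hz h1 h2]

theorem BD_smul' {F : C.I → Cm n → ℝ} (hF : BD C F) (c : ℝ) : BD C (fun a z => c * F a z) where
  cont a := continuousOn_const.mul (hF.cont a)
  compat a b z hz h1 h2 := by rw [hF.compat a b z hz h1 h2]

theorem BInt_add (P : PU C) (K : KM C) {F G : C.I → Cm n → ℝ} (hF : BD C F) (hG : BD C G) :
    BInt P K (fun a z => F a z + G a z) = BInt P K F + BInt P K G := by
  unfold BInt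
  rw [← Finset.sum_add_distrib]
  refine Finset.sum_congr rfl fun a _ => ?_
  rw [← integral_add (hF.int_chi P K a a) (hG.int_chi P K a a)]
  refine setIntegral_congr_fun measurableSet_ball fun z _ => ?_
  ring

/-- **The twisted Kähler identity.** -/
theorem twK (P : PU C) (K : KM C) (hψ : Psi C χ ψ) (hu : Tw C χ f u) :
    BInt P K (twD K ψ u) = 0 := by
  have b1 := dd1_BD K hψ hu
  have b2 := dd2_BD K hψ hu
  have b3 := dd1_BD K hψ.conj hu.conj
  have b4 := dd2_BD K hψ.conj hu.conj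
  rw [BInt_congr P K fun a z hz => twD_eq K hψ hu (V_sub_Ω C a hz),
    BInt_add P K (BD_add (BD_add (BD_smul' b1 _) (BD_smul' b3 _)) (BD_smul' b2 _)) (BD_smul' b4 _),
    BInt_add P K (BD_add (BD_smul' b1 _) (BD_smul' b3 _)) (BD_smul' b2 _),
    BInt_add P K (BD_smul' b1 _) (BD_smul' b3 _), BInt_smul, BInt_smul, BInt_smul, BInt_smul,
    dd1_int P K hψ hu, dd2_int P K hψ hu, dd1_int P K hψ.conj hu.conj,
    dd2_int P K hψ.conj hu.conj]
  ring

end glob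

end Vale.Agent.P284.H66.TK
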