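import Vale.Agent.P284.H66.CutF
import Mathlib.Data.Set.Card.Arithmetic

/-!
# P284, theorem V, block V10: a Følner set gives a test function with small energy
-/

open scoped Manifold ContDiff Topology Pointwise ComplexConjugate ComplexOrder
open Filter Set Metric MeasureTheory

noncomputable section

namespace Vale.Agent.P284.H66

open Vale.Agent.P272.K Vale.Agent.P272.K.C2 Vale.Agent.P284.H248 Vale.Agent.P284.H894
  Vale.Agent.P284.H894.G Vale.Agent.P284.H894.V Vale.Agent.P284.H639.V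

/-- right Følner sets -/
theorem exists_right_folner {Γ : Type} [Group Γ] (hf : Folner Γ) (T : Finset Γ) {ε : ℝ}
    (hε : 0 < ε) : ∃ F : Set Γ, F.Finite ∧ F.Nonempty ∧
      ∀ t ∈ T, (({g ∈ F | g * t ∉ F}.ncard : ℕ) : ℝ) ≤ ε * F.ncard := by
  obtain ⟨E, hE, hne, h⟩ := hf (T : Set Γ)⁻¹ T.finite_toSet.inv ε hε
  refine ⟨E⁻¹, hE.inv, hne.inv, fun t ht => ?_⟩
  have h1 := h t⁻¹ (Set.inv_mem_inv.2 (Finset.mem_coe.2 ht))
  rw [ncard_inv]
  refine le_trans ?_ h1
  have h2 : {g ∈ E⁻¹ | g * t ∉ E⁻¹}.ncard ≤ ((t⁻¹ • E) \ E).ncard := by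
    refine ncard_le_ncard_of_injOn (fun g => t⁻¹ * g⁻¹) ?_ ?_ (hE.smul_set.subset sdiff_subset)
    · rintro g ⟨hg, hgt⟩
      refine ⟨⟨g⁻¹, Set.mem_inv.1 hg, rfl⟩, fun hin => hgt ?_⟩
      rw [Set.mem_inv, mul_inv_rev]
      exact hin
    · intro g _ g' _ hgg
      simpa using hgg
  exact_mod_cast h2

section
variable {n : ℕ} {Γ : Type} [Group Γ] {C : Coc n Γ}

/-- the boundary of `F` -/
def bd (C : Coc n Γ) (F : Set Γ) : Set Γ := {γ | ∃ s ∈ C.N, ∃ s' ∈ C.N, γ * s ∈ F ∧ γ * s' ∉ F}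

/-- the interior of `F` -/
def inn (C : Coc n Γ) (F : Set Γ) : Set Γ := {γ ∈ F | ∀ s ∈ C.N, γ * s ∈ F}

theorem bd_finite {F : Set Γ} (hF : F.Finite) : (bd C F).Finite := by
  refine (hF.mul C.N.finite_toSet.inv).subset ?_
  rintro γ ⟨s, hs, -, -, h, -⟩
  exact ⟨γ * s, h, s⁻¹, Set.inv_mem_inv.2 (Finset.mem_coe.2 hs), by group⟩

theorem bd_card {F : Set Γ} (hF : F.Finite) {δ : ℝ}
    (h : ∀ s ∈ C.N, ∀ s' ∈ C.N, (({g ∈ F | g * (s⁻¹ * s') ∉ F}.ncard : ℕ) : ℝ) ≤ δ * F.ncard) :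
    ((bd C F).ncard : ℝ) ≤ (C.N.card : ℝ) ^ 2 * (δ * F.ncard) := by
  classical
  have hsub : bd C F ⊆ ⋃ p ∈ C.N ×ˢ C.N, {γ | γ * p.1 ∈ F ∧ γ * p.2 ∉ F} := by
    rintro γ ⟨s, hs, s', hs', h1, h2⟩
    simp only [mem_iUnion]
    exact ⟨(s, s'), Finset.mk_mem_product hs hs', h1, h2⟩
  have hfin : ∀ p : Γ × Γ, {γ | γ * p.1 ∈ F ∧ γ * p.2 ∉ F}.Finite := fun p => by
    refine (hF.image fun g => g * p.1⁻¹).subset ?_
    rintro γ ⟨h1, -⟩
    exact ⟨γ * p.1, h1, by group⟩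
  have hone : ∀ p ∈ C.N ×ˢ C.N, (({γ | γ * p.1 ∈ F ∧ γ * p.2 ∉ F}.ncard : ℕ) : ℝ) ≤
      δ * F.ncard := by
    intro p hp
    obtain ⟨h1, h2⟩ := Finset.mem_product.1 hp
    refine le_trans ?_ (h p.1 h1 p.2 h2)
    have : {γ | γ * p.1 ∈ F ∧ γ * p.2 ∉ F}.ncard ≤ {g ∈ F | g * (p.1⁻¹ * p.2) ∉ F}.ncard := by
      refine ncard_le_ncard_of_injOn (fun g => g * p.1) ?_ ?_ (hF.subset (sep_subset _ _))
      · rintro γ ⟨h3, h4⟩
        refine ⟨h3, ?_⟩
        have : γ * p.1 * (p.1⁻¹ * p.2) = γ * p.2 := by group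
        simpa only [this] using h4
      · intro g _ g' _ hgg
        simpa using hgg
    exact_mod_cast this
  have h1 : (bd C F).ncard ≤ ∑ p ∈ C.N ×ˢ C.N, {γ | γ * p.1 ∈ F ∧ γ * p.2 ∉ F}.ncard := by
    refine (ncard_le_ncard hsub ?_).trans (Finset.set_ncard_biUnion_le _ _)
    exact Set.Finite.biUnion (C.N ×ˢ C.N).finite_toSet fun p _ => hfin p
  calc ((bd C F).ncard : ℝ) ≤ ∑ p ∈ C.N ×ˢ C.N, (({γ | γ * p.1 ∈ F ∧ γ * p.2 ∉ F}.ncard : ℕ) : ℝ) := by
        exact_mod_cast h1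
    _ ≤ ∑ p ∈ C.N ×ˢ C.N, δ * F.ncard := Finset.sum_le_sum hone
    _ = (C.N.card : ℝ) ^ 2 * (δ * F.ncard) := by
        rw [Finset.sum_const, Finset.card_product, nsmul_eq_mul]; push_cast; ring

theorem inn_card {F : Set Γ} (hF : F.Finite) {δ : ℝ}
    (h : ∀ s ∈ C.N, (({g ∈ F | g * s ∉ F}.ncard : ℕ) : ℝ) ≤ δ * F.ncard) :
    (F.ncard : ℝ) - C.N.card * (δ * F.ncard) ≤ (inn C F).ncard := by
  classical
  have hsub : F ⊆ inn C F ∪ ⋃ s ∈ C.N, {g ∈ F | g * s ∉ F} := by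
    intro γ hγ
    by_cases h1 : ∀ s ∈ C.N, γ * s ∈ F
    · exact Or.inl ⟨hγ, h1⟩
    · push Not at h1
      obtain ⟨s, hs, hsF⟩ := h1
      refine Or.inr ?_
      simp only [mem_iUnion]
      exact ⟨s, hs, hγ, hsF⟩
  have hfin : ((⋃ s ∈ C.N, {g ∈ F | g * s ∉ F}) : Set Γ).Finite :=
    Set.Finite.biUnion C.N.finite_toSet fun s _ => hF.subset (sep_subset _ _)
  have h1 : F.ncard ≤ (inn C F).ncard + ∑ s ∈ C.N, {g ∈ F | g * s ∉ F}.ncard := by
    refine (ncard_le_ncard hsub ((hF.subset (sep_subset _ _)).union hfin)).trans ?_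
    refine (ncard_union_le _ _).trans ?_
    gcongr
    exact Finset.set_ncard_biUnion_le _ _
  have h2 : (F.ncard : ℝ) ≤ (inn C F).ncard + ∑ s ∈ C.N, (({g ∈ F | g * s ∉ F}.ncard : ℕ) : ℝ) := by
    exact_mod_cast h1
  have h3 : ∑ s ∈ C.N, (({g ∈ F | g * s ∉ F}.ncard : ℕ) : ℝ) ≤ C.N.card * (δ * F.ncard) := by
    refine (Finset.sum_le_sum h).trans ?_
    rw [Finset.sum_const, nsmul_eq_mul]
  linarith

theorem chi_le_one (P : PU C) {a : C.I} (b : C.I) {z : Cm n} (hz : z ∈ C.Ω a) : P.χ b a z ≤ 1 := by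
  rw [← P.sum_one a z hz]
  exact Finset.single_le_sum (f := fun b => P.χ b a z) (fun b _ => P.nonneg b a z)
    (Finset.mem_univ b)

theorem vol_pos (K : KM C) {a : C.I} {z : Cm n} (hz : z ∈ C.Ω a) : 0 < vol (K.w a) z :=
  K.lam_pos.trans_le (K.vol_low a z hz)

theorem volume_V_lt (C : Coc n Γ) (a : C.I) : volume (C.V a) < ⊤ := measure_ball_lt_top

/-- upper bound of the energy of a cut-off function -/
theorem energy_le (hp : VPStmt) (P : PU C) (K : KM C) : ∃ Q : ℝ, 0 < Q ∧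
    ∀ F : Set Γ, F.Finite → Vale.Agent.P284.H894.V.Int P K (Gr K (phi P F) (phi P F)) ≤
      (bd C F).ncard * Q := by
  obtain ⟨B, hB, h⟩ := exists_gr_bound hp P K
  have hLam : ∀ a : C.I, 0 < K.Lam := fun a => by
    have hc : C.c a ∈ C.Ω a := mem_ball_self (by have := C.r_pos a; linarith)
    exact (vol_pos K hc).trans_le (K.vol_up a _ hc)
  refine ⟨1 + ∑ a, B * K.Lam * volume.real (C.V a), ?_, fun F hF => ?_⟩
  · have : 0 ≤ ∑ a, B * K.Lam * volume.real (C.V a) :=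
      Finset.sum_nonneg fun a _ => by have := hLam a; positivity
    linarith
  unfold Vale.Agent.P284.H894.V.Int
  rw [tsum_eq_sum (s := (bd_finite hF).toFinset)]
  · rw [ncard_eq_toFinset_card _ (bd_finite hF), ← nsmul_eq_mul]
    refine Finset.sum_le_card_nsmul _ _ _ fun γ _ => ?_
    refine le_trans ?_ (le_add_of_nonneg_left zero_le_one)
    refine Finset.sum_le_sum fun a _ => ?_
    refine (le_abs_self _).trans ?_
    rw [← Real.norm_eq_abs]
    refine norm_setIntegral_le_of_norm_le_const (volume_V_lt C a) fun z hz => ?_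
    have hz' := V_sub_Ω C a hz
    obtain ⟨h1, h2⟩ := h F hF γ a z hz
    have h3 := (vol_pos K hz').le
    rw [Real.norm_of_nonneg (mul_nonneg (mul_nonneg (P.nonneg _ _ _) h1) h3)]
    have h4 : P.χ a a z * Gr K (phi P F) (phi P F) γ a z ≤ B :=
      (mul_le_of_le_one_left h1 (chi_le_one P a hz')).trans h2
    exact mul_le_mul h4 (K.vol_up a z hz') h3 hB.le
  · intro γ hγ
    refine Finset.sum_eq_zero fun a _ => ?_
    rw [← integral_zero (Cm n) ℝ (μ := volume.restrict (C.V a))]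
    refine setIntegral_congr_fun measurableSet_ball fun z hz => ?_
    have h0 : Gr K (phi P F) (phi P F) γ a z = 0 := by
      by_contra hne
      exact hγ ((bd_finite hF).mem_toFinset.2 (gr_phi_ne P hz hne))
    simp only [h0, mul_zero, zero_mul]

/-- lower bound of the `L²` norm of a cut-off function -/
theorem norm_ge (h3 : V3Stmt) (P : PU C) (K : KM C) : ∃ q : ℝ, 0 < q ∧
    ∀ F : Set Γ, F.Finite → (inn C F).ncard * q ≤
      Vale.Agent.P284.H894.V.Int P K (fun γ a z => phi P F γ a z ^ 2) := by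
  obtain ⟨a⟩ := C.ne
  have hV : 0 < volume.real (C.V a) := by
    refine ENNReal.toReal_pos ?_ (volume_V_lt C a).ne
    exact (measure_ball_pos volume _ (by have := C.r_pos a; linarith)).ne'
  refine ⟨volume.real (C.V a) * K.lam, mul_pos hV K.lam_pos, fun F hF => ?_⟩
  have hφ := isTst_phi P hF
  have hfam : Fam C (fun γ a z => phi P F γ a z ^ 2) := by
    have := isTst_fam (isTst_mul hφ hφ)
    simpa only [← pow_two] using this
  refine le_trans ?_ (h3.le C P K _ hfam (fun γ a z _ => sq_nonneg _) a)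
  have hinn : (inn C F).Finite := hF.subset (sep_subset _ _)
  have hnn : ∀ γ, 0 ≤ ∫ z in C.V a, phi P F γ a z ^ 2 * vol (K.w a) z := fun γ =>
    setIntegral_nonneg measurableSet_ball fun z hz =>
      mul_nonneg (sq_nonneg _) (vol_pos K (V_sub_Ω C a hz)).le
  have hsum : Summable fun γ => ∫ z in C.V a, phi P F γ a z ^ 2 * vol (K.w a) z := by
    refine summable_of_ne_finset_zero (s := hφ.fin.toFinset) fun γ hγ => ?_
    rw [← integral_zero (Cm n) ℝ (μ := volume.restrict (C.V a))]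
    refine setIntegral_congr_fun measurableSet_ball fun z hz => ?_
    have h0 : phi P F γ a z = 0 := by
      by_contra hne
      exact hγ (hφ.fin.mem_toFinset.2 ⟨a, z, hz, hne⟩)
    simp only [h0]
    ring
  refine le_trans ?_ (hsum.sum_le_tsum hinn.toFinset fun γ _ => hnn γ)
  rw [ncard_eq_toFinset_card _ hinn, ← nsmul_eq_mul]
  refine Finset.card_nsmul_le_sum _ _ _ fun γ hγ => ?_
  have hγ' := (hinn.mem_toFinset.1 hγ).2
  have e : ∫ z in C.V a, phi P F γ a z ^ 2 * vol (K.w a) z = ∫ z in C.V a, vol (K.w a) z :=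
    setIntegral_congr_fun measurableSet_ball fun z hz => by
      simp only [phi_eq_one P hγ' hz]; ring
  rw [e]
  have hci : ContinuousOn (vol (K.w a)) (closedBall (C.c a) (3 * C.r a)) := fun z hz =>
    (smooth_vol (K.ku a) (closed_sub_Ω C a hz)).continuousAt.continuousWithinAt
  have hint : IntegrableOn (vol (K.w a)) (C.V a) :=
    (hci.integrableOn_compact (isCompact_closedBall _ _)).mono_set (V_sub_closed C a)
  have h5 : ∫ _ in C.V a, K.lam ≤ ∫ z in C.V a, vol (K.w a) z :=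
    setIntegral_mono_on (integrableOn_const (volume_V_lt C a).ne) hint measurableSet_ball
      fun z hz => K.vol_low a z (V_sub_Ω C a hz)
  rwa [setIntegral_const, smul_eq_mul] at h5

end

/-- **V10** -/
theorem v10Stmt : V10Stmt := by
  classical
  intro hp h3 _ n Γ _ C P K hfol ε hε
  obtain ⟨Q, hQ, hup⟩ := energy_le hp P K
  obtain ⟨q, hq, hlow⟩ := norm_ge h3 P K
  set m : ℝ := (C.N.card : ℝ) with hm
  have hm0 : 0 ≤ m := Nat.cast_nonneg _
  set δ : ℝ := min (1 / (2 * (m + 1))) (ε * q / (4 * (m ^ 2 * Q + 1))) with hδ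
  have hδ0 : 0 < δ := lt_min (by positivity) (by positivity)
  have hδ1 : m * δ ≤ 1 / 2 := by
    have h1 : δ ≤ 1 / (2 * (m + 1)) := min_le_left _ _
    have h2 : m * (1 / (2 * (m + 1))) ≤ 1 / 2 := by
      rw [mul_one_div, div_le_div_iff₀ (by positivity) (by norm_num)]
      linarith
    exact (mul_le_mul_of_nonneg_left h1 hm0).trans h2
  have hδ2 : m ^ 2 * δ * Q < ε * q / 2 := by
    have h1 : δ ≤ ε * q / (4 * (m ^ 2 * Q + 1)) := min_le_right _ _
    have h2 : m ^ 2 * Q * δ ≤ m ^ 2 * Q * (ε * q / (4 * (m ^ 2 * Q + 1))) :=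
      mul_le_mul_of_nonneg_left h1 (by positivity)
    have h3 : m ^ 2 * Q * (ε * q / (4 * (m ^ 2 * Q + 1))) ≤ ε * q / 4 := by
      rw [← mul_div_assoc, div_le_div_iff₀ (by positivity) (by norm_num)]
      have : 0 < ε * q := mul_pos hε hq
      nlinarith
    have : 0 < ε * q := mul_pos hε hq
    nlinarith
  set T : Finset Γ := C.N ∪ (C.N ×ˢ C.N).image fun p => p.1⁻¹ * p.2 with hT
  obtain ⟨F, hF, hne, hfo⟩ := exists_right_folner hfol T hδ0
  have hF0 : (0 : ℝ) < F.ncard := by exact_mod_cast (ncard_pos hF).2 hne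
  have hb := bd_card (C := C) hF (δ := δ) fun s hs s' hs' => hfo _
    (Finset.mem_union_right _ (Finset.mem_image.2 ⟨(s, s'), Finset.mk_mem_product hs hs', rfl⟩))
  have hi := inn_card (C := C) hF (δ := δ) fun s hs => hfo s (Finset.mem_union_left _ hs)
  refine ⟨phi P F, isTst_phi P hF, ?_⟩
  have h1 := hup F hF
  have h2 := hlow F hF
  have h4 : (F.ncard : ℝ) / 2 ≤ (inn C F).ncard := by nlinarith
  have h5 : ((bd C F).ncard : ℝ) * Q ≤ (m ^ 2 * (δ * F.ncard)) * Q :=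
    mul_le_mul_of_nonneg_right hb hQ.le
  have h6 : (m ^ 2 * (δ * F.ncard)) * Q < ε * q / 2 * F.ncard := by
    have := mul_lt_mul_of_pos_right hδ2 hF0
    nlinarith
  have h7 : ε * ((F.ncard : ℝ) / 2 * q) ≤ ε * ((inn C F).ncard * q) :=
    mul_le_mul_of_nonneg_left (mul_le_mul_of_nonneg_right h4 hq.le) hε.le
  have h8 := mul_le_mul_of_nonneg_left h2 hε.le
  nlinarith

end Vale.Agent.P284.H66
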